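import Crest.Agent.R186.Tri

/-!
Comparison with an augmented resolution; dimension counts.
-/

set_option autoImplicit false

namespace Crest.Agent.R186

open MulOpposite Module

variable {K : Type*} [Field K] {G G' : Type*} {Γ : GD G} {Γ' : GD G'}
variable {A B : Type*} [Ring A] [Algebra K A] [Ring B] [Algebra K B]
variable {Y Y₀ Y₁ Y₂ : Type*} [AddCommGroup Y] [Module K Y] [AddCommGroup Y₀] [Module K Y₀]
  [AddCommGroup Y₁] [Module K Y₁] [AddCommGroup Y₂] [Module K Y₂]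

theorem rel_of_aug (β : Bi K A B Y) (M : MD Γ A) (M' M'' : MD Γ' B) (h0 : (M.cx β.L).Acyc)
    (h1 : (β.inner M').Acyc) (k : ℕ) (hk : (β.inner M').Z (-2 - k) = (β.inner M'').Z (-2 - k))
    (N : LM K A Y₀) (aug : (G' → Y) →ₗ[K] Y₀) (hom : LM.Hom (β.Co M'' (-1)) N aug)
    (surj : ∀ y ∈ N.W, ∃ c ∈ (β.inner M'').Co (-1), aug c = y)
    (ker₁ : ∀ c ∈ (β.inner M'').Co (-1), aug c = 0 → c ∈ (β.inner M'').Bd (-1))
    (ker₂ : ∀ c ∈ (β.inner M'').Bd (-1), aug c = 0)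
    (van : ∀ m ≤ -2, (β.inner M'').Van m) {i : ℤ} {r : ℕ} (h : (M.cx N).Rel (i + 1) r) :
    (M.cx (β.Z M' 1)).Rel i r := by
  have S : LM.SES (β.Bd M'' (-1)) (β.Co M'' (-1)) N LinearMap.id aug :=
    ⟨⟨fun c hc => ((β.inner M'').Bd_le_Z _ hc).1, fun _ _ _ => rfl⟩, hom, fun _ _ h => h, ker₂,
      fun c hc h => ⟨c, ker₁ c hc h, rfl⟩, surj⟩
  have h2 := ((M.cx_ses S).shift fun _ => β.van_Co M M'' _ (h0 _)).1 h
  have h3 := β.rel_Bd_iff M M'' h0 (-2) (i + 1 + 1) r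
  rw [show (-2 : ℤ) + 1 = -1 by norm_num] at h3
  replace h3 := h3.1 h2
  have h4 := (β.rel_Z_sub M M'' h0 (-2) van k _ r).1 h3
  have h5 := (M.rel_of_eq (N₁ := β.Z M' (-2 - k)) (N₂ := β.Z M'' (-2 - k)) rfl hk).2 h4
  exact (β.rel_Z_shift M M' h0 h1 (by ring) r).1 h5

section trunc

variable (M : MD Γ A) (p : G → Prop)
  (h : ∀ g g' g'', p g → ¬ p g' → p g'' → M.D g g' * M.D g' g'' = 0) (N : LM K Aᵐᵒᵖ Y)

theorem trunc_op_zero {n : ℤ} {c : G → Y} (hc : c ∈ ((M.trunc p h).op.cx N).Co n) {g : G}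
    (hg : ¬ p g) : c g = 0 := by
  rw [← (hc g).2.1, MD.op_e, MD.trunc_e_neg _ _ _ hg]
  simp

theorem trunc_op_δ_neg (c : G → Y) {g : G} (hg : ¬ p g) :
    ((M.trunc p h).op.cx N).δ c g = 0 := by
  rw [MD.op_δ_apply]
  refine Finset.sum_eq_zero fun g' _ => ?_
  rw [MD.trunc_D_neg_right _ _ _ hg]
  simp

theorem trunc_op_mem_Z {d : ℤ} (hp : ∀ g, p g → d ≤ Γ.deg g) {c : G → Y}
    (hc : c ∈ ((M.trunc p h).op.cx N).Co (-d)) : c ∈ ((M.trunc p h).op.cx N).Z (-d) := by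
  refine ⟨hc, funext fun g => ?_⟩
  by_cases hg : p g
  · have := hp g hg
    exact (DG.mem _ _ _ hc g).1 (by simp only [GD.op_deg]; omega)
  · exact trunc_op_δ_neg M p h N c hg

theorem trunc_op_Co_eq {d n : ℤ} (hp : ∀ g, ¬ p g → Γ.deg g ≤ d) (hn : n < -d) :
    (M.op.cx N).Co n = ((M.trunc p h).op.cx N).Co n := by
  ext c
  refine forall_congr' fun g => ?_
  by_cases hg : p g
  · rw [MD.op_e, MD.op_e, MD.trunc_e_pos _ _ _ hg]
  · have := hp g hg
    constructor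
    · rintro ⟨h1, _, h3⟩
      exact ⟨h1, by rw [h1 (by simp only [GD.op_deg]; omega), map_zero], h3⟩
    · rintro ⟨h1, _, h3⟩
      exact ⟨h1, by rw [h1 (by simp only [GD.op_deg]; omega), map_zero], h3⟩

theorem trunc_op_Z_eq {d n : ℤ} (hp : ∀ g, ¬ p g → Γ.deg g ≤ d) (hn : n + 1 < -d) :
    (M.op.cx N).Z n = ((M.trunc p h).op.cx N).Z n := by
  have key : ∀ c ∈ (M.op.cx N).Co n, (M.op.cx N).δ c = ((M.trunc p h).op.cx N).δ c := by
    intro c hc
    have hc' := hc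
    rw [trunc_op_Co_eq M p h N hp (by omega)] at hc'
    refine MD.co_ext (DG.mem _ _ _ hc) ?_ fun g hg => ?_
    · rw [trunc_op_Co_eq M p h N hp hn]
      exact DG.mem _ _ _ hc'
    · simp only [GD.op_deg] at hg
      rw [MD.op_δ_apply, MD.op_δ_apply]
      refine Finset.sum_congr rfl fun g' hg' => ?_
      rw [Γ.mem_fib] at hg'
      rw [MD.trunc_D_pos]
      · by_contra h1
        have := hp _ h1
        omega
      · by_contra h1
        have := hp _ h1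
        omega
  ext c
  constructor
  · rintro ⟨h1, h2⟩
    exact ⟨trunc_op_Co_eq M p h N hp (by omega : n < -d) ▸ h1, (key c h1).symm.trans h2⟩
  · rintro ⟨h1, h2⟩
    have h1' : c ∈ (M.op.cx N).Co n := (trunc_op_Co_eq M p h N hp (by omega : n < -d)).symm ▸ h1
    exact ⟨h1', (key c h1').trans h2⟩

end trunc

theorem mem_Bd_prod (M : MD Γ A) (ρ₁ : A →ₐ[K] Module.End K Y₁) (ρ₂ : A →ₐ[K] Module.End K Y₂)
    {n : ℤ} {c : G → Y₁ × Y₂} (h₁ : (fun g => (c g).1) ∈ (M.cx (LM.top ρ₁)).Bd n)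
    (h₂ : (fun g => (c g).2) ∈ (M.cx (LM.top ρ₂)).Bd n) :
    c ∈ (M.cx (LM.top (prodRep ρ₁ ρ₂))).Bd n := by
  obtain ⟨b₁, hb₁, h₁⟩ := h₁
  obtain ⟨b₂, hb₂, h₂⟩ := h₂
  refine ⟨fun g => (b₁ g, b₂ g), fun g => ⟨fun h => Prod.ext ((hb₁ g).1 h) ((hb₂ g).1 h),
    Prod.ext (hb₁ g).2.1 (hb₂ g).2.1, trivial⟩, funext fun g => Prod.ext ?_ ?_⟩
  · simpa [MD.δ_apply, Prod.fst_sum] using congrFun h₁ g
  · simpa [MD.δ_apply, Prod.snd_sum] using congrFun h₂ g

section dim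

instance MD.finite_Co [FiniteDimensional K Y] (M : MD Γ A) (N : LM K A Y) (n : ℤ) :
    FiniteDimensional K ((M.cx N).Co n) := by
  let f : (M.cx N).Co n →ₗ[K] (Γ.fib n → Y) :=
    LinearMap.pi fun g => LinearMap.proj (g : G) ∘ₗ ((M.cx N).Co n).subtype
  refine Module.Finite.of_injective f fun c c' h => Subtype.ext ?_
  exact MD.co_ext c.2 c'.2 fun g hg => congrFun h ⟨g, (Γ.mem_fib g n).2 hg⟩

theorem DG.finrank_Co {V : Type*} [AddCommGroup V] [Module K V] (C : DG K V) (n : ℤ)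
    [FiniteDimensional K (C.Co n)] :
    finrank K (C.Co n) = finrank K (C.Z n) + finrank K (C.Bd (n + 1)) := by
  have h := LinearMap.finrank_range_add_finrank_ker (C.δ ∘ₗ (C.Co n).subtype)
  have h1 : LinearMap.range (C.δ ∘ₗ (C.Co n).subtype) = C.Bd (n + 1) := by
    rw [LinearMap.range_comp, Submodule.range_subtype, DG.Bd, add_sub_cancel_right]
  have h2 : finrank K (LinearMap.ker (C.δ ∘ₗ (C.Co n).subtype)) = finrank K (C.Z n) := by
    suffices h : (LinearMap.ker (C.δ ∘ₗ (C.Co n).subtype)).map (C.Co n).subtype = C.Z n by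
      rw [← Submodule.finrank_map_subtype_eq, h]
    ext c
    simp only [Submodule.mem_map, LinearMap.mem_ker, LinearMap.comp_apply, Submodule.subtype_apply,
      DG.mem_Z]
    constructor
    · rintro ⟨x, hx, rfl⟩
      exact ⟨x.2, hx⟩
    · rintro ⟨h1, h2⟩
      exact ⟨⟨c, h1⟩, h2, rfl⟩
  rw [← h, h1, h2, add_comm]

theorem finrank_eq_trace {V : Type*} [AddCommGroup V] [Module K V] (W S : Submodule K V)
    [FiniteDimensional K W] (hS : S ≤ W) (f : W →ₗ[K] W) (h1 : ∀ x, (f x : V) ∈ S)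
    (h2 : ∀ x : W, (x : V) ∈ S → f x = x) : (finrank K S : K) = LinearMap.trace K W f := by
  have h : LinearMap.IsProj (S.comap W.subtype) f := ⟨h1, h2⟩
  rw [h.trace, (Submodule.comapSubtypeEquivOfLe hS).finrank_eq]

/-- trace of an operator on a space of cochains given by a matrix -/
theorem trace_matrix [FiniteDimensional K Y] (M : MD Γ A) (N : LM K A Y) (n : ℤ)
    (b : G → Y →ₗ[K] (M.cx N).Co n) :
    LinearMap.trace K _ (∑ g ∈ Γ.fib n, b g ∘ₗ LinearMap.proj g ∘ₗ ((M.cx N).Co n).subtype) =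
      ∑ g ∈ Γ.fib n, LinearMap.trace K Y (LinearMap.proj g ∘ₗ ((M.cx N).Co n).subtype ∘ₗ b g) := by
  rw [map_sum]
  refine Finset.sum_congr rfl fun g _ => ?_
  rw [LinearMap.trace_comp_comm']
  rfl

theorem finrank_Co_eq_zero [FiniteDimensional K Y] (M : MD Γ A) (ρ : A →ₐ[K] Module.End K Y)
    (htr : ∀ g, LinearMap.trace K Y (ρ (M.e g)) = 0) (n : ℤ) :
    (finrank K ((M.cx (LM.top ρ)).Co n) : K) = 0 := by
  classical
  let b : G → Y →ₗ[K] (M.cx (LM.top ρ)).Co n := fun g =>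
    LinearMap.codRestrict _ (M.pr ρ n ∘ₗ LinearMap.single K (fun _ => Y) g)
      fun y => M.pr_mem (LM.top ρ) n fun _ _ => trivial
  have h1 : ∑ g ∈ Γ.fib n, b g ∘ₗ LinearMap.proj g ∘ₗ ((M.cx (LM.top ρ)).Co n).subtype =
      LinearMap.id := by
    ext1 c
    apply Subtype.ext
    have h2 := congrArg (M.pr ρ n) (MD.sum_single c.2)
    rw [map_sum, show M.pr ρ n c = c from M.pr_eq (LM.top ρ) c.2] at h2
    simpa [b, LinearMap.sum_apply] using h2
  have h3 := trace_matrix M (LM.top ρ) n b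
  rw [h1, LinearMap.trace_id] at h3
  rw [h3]
  refine Finset.sum_eq_zero fun g hg => ?_
  rw [Γ.mem_fib] at hg
  rw [← htr g]
  congr 1
  ext y
  simp [b, MD.pr_pos _ _ _ hg]

/-- parity of the dimension of the cycles -/
theorem finrank_Z_eq_one [CharP K 2] {V : Type*} [AddCommGroup V] [Module K V] (C C' : DG K V)
    [∀ n, FiniteDimensional K (C.Co n)] [∀ n, FiniteDimensional K (C'.Co n)]
    (hC : ∀ n, (finrank K (C.Co n) : K) = 0) (hC' : ∀ n, (finrank K (C'.Co n) : K) = 0)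
    (h1 : C.Acyc) (van : ∀ m ≤ -2, C'.Van m) (k : ℕ) (hk : C.Z (-2 - k) = C'.Z (-2 - k))
    (π : V →ₗ[K] K) (ker₁ : ∀ c ∈ C'.Co (-1), π c = 0 → c ∈ C'.Bd (-1))
    (ker₂ : ∀ c ∈ C'.Bd (-1), π c = 0) (surj : ∃ c ∈ C'.Co (-1), π c = 1) :
    (finrank K (C.Z 1) : K) = 1 := by
  have two : ∀ a b : K, 0 = a + b → b = a := fun a b h => by
    have := CharTwo.add_eq_zero.1 h.symm
    exact this.symm
  have a1 : (finrank K (C'.Bd (-1)) : K) = 1 := by
    have h := LinearMap.finrank_range_add_finrank_ker (π ∘ₗ (C'.Co (-1)).subtype)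
    have h2 : LinearMap.range (π ∘ₗ (C'.Co (-1)).subtype) = ⊤ := by
      obtain ⟨c, hc, hc'⟩ := surj
      rw [eq_top_iff]
      intro t _
      exact ⟨t • ⟨c, hc⟩, by simp [hc']⟩
    have h3 : finrank K (LinearMap.ker (π ∘ₗ (C'.Co (-1)).subtype)) = finrank K (C'.Bd (-1)) := by
      suffices h : (LinearMap.ker (π ∘ₗ (C'.Co (-1)).subtype)).map (C'.Co (-1)).subtype =
          C'.Bd (-1) by
        rw [← Submodule.finrank_map_subtype_eq, h]
      ext c
      simp only [Submodule.mem_map, LinearMap.mem_ker, LinearMap.comp_apply,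
        Submodule.subtype_apply]
      constructor
      · rintro ⟨x, hx, rfl⟩
        exact ker₁ _ x.2 hx
      · intro hc
        exact ⟨⟨c, (C'.Bd_le_Z _ hc).1⟩, ker₂ c hc, rfl⟩
    rw [h2, h3, finrank_top, finrank_self] at h
    have h4 := congrArg (Nat.cast : ℕ → K) h
    rw [hC', Nat.cast_add, Nat.cast_one] at h4
    exact two _ _ h4.symm
  have step : ∀ (D : DG K V) [∀ n, FiniteDimensional K (D.Co n)],
      (∀ n, (finrank K (D.Co n) : K) = 0) → ∀ n,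
      (finrank K (D.Bd (n + 1)) : K) = finrank K (D.Z n) := by
    intro D _ hD n
    have h4 := congrArg (Nat.cast : ℕ → K) (D.finrank_Co n)
    rw [hD, Nat.cast_add] at h4
    exact two _ _ h4
  have a2 : ∀ j : ℕ, (finrank K (C'.Z (-2 - j)) : K) = 1 := by
    intro j
    induction j with
    | zero => rw [← step C' hC', show -2 - ((0 : ℕ) : ℤ) + 1 = -1 by norm_num, a1]
    | succ j ih =>
      rw [← step C' hC', ← (van _ (by push_cast; omega)).Z_eq,
        show -2 - ((j + 1 : ℕ) : ℤ) + 1 = -2 - j by push_cast; ring, ih]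
  have a3 : ∀ j : ℕ, (finrank K (C.Z (-2 - k + j)) : K) = 1 := by
    intro j
    induction j with
    | zero => rw [Nat.cast_zero, add_zero, hk]; exact a2 k
    | succ j ih =>
      rw [Nat.cast_succ, ← add_assoc, (h1 _).Z_eq, step C hC, ih]
  have := a3 (k + 3)
  rwa [show -2 - (k : ℤ) + ((k + 3 : ℕ) : ℤ) = 1 by push_cast; ring] at this

end dim

end Crest.Agent.R186
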