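import Mathlib
import Crest.Agent.R178.Homological

/-!
`Ext` vanishing in positive degrees read off a complex of projective modules.
-/

set_option autoImplicit false

universe u

open CategoryTheory Abelian

namespace Crest.Agent.R186.BCh

open Crest.Agent.R178

variable {Λ : Type u} [Ring Λ]

lemma ev_one_iff {M₁ M₂ M₃ : Type u} [AddCommGroup M₁] [AddCommGroup M₂] [AddCommGroup M₃]
    [Module Λ M₁] [Module Λ M₂] [Module Λ M₃] {f : M₁ →ₗ[Λ] M₂} {g : M₂ →ₗ[Λ] M₃} (h : SES f g)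
    [Module.Projective Λ M₂] (N : Type u) [AddCommGroup N] [Module Λ N] :
    EV (ModuleCat.of Λ N) M₃ 1 ↔ ∀ φ : M₁ →ₗ[Λ] N, ∃ ψ : M₂ →ₗ[Λ] N, ψ ∘ₗ f = φ := by
  constructor
  · intro h₃ φ
    obtain ⟨x₂, hx⟩ := Ext.contravariant_sequence_exact₁ h.shortExact (ModuleCat.of Λ N)
      (Ext.mk₀ (ModuleCat.ofHom φ)) (add_comm 1 0) (h₃ _)
    obtain ⟨ψ, rfl⟩ := (Ext.mk₀_bijective _ _).2 x₂
    rw [Ext.mk₀_comp_mk₀] at hx
    have := (Ext.mk₀_bijective _ _).1 hx
    exact ⟨ψ.hom, congrArg ModuleCat.Hom.hom this⟩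
  · intro H x₃
    obtain ⟨x₁, rfl⟩ := Ext.contravariant_sequence_exact₃ h.shortExact (ModuleCat.of Λ N) x₃
      (ev_succ_of_projective _ 0 _) (add_comm 1 0)
    obtain ⟨φ, rfl⟩ := (Ext.mk₀_bijective _ _).2 x₁
    obtain ⟨ψ, hψ⟩ := H φ.hom
    have : φ = h.sc.f ≫ ModuleCat.ofHom ψ := by
      ext1; exact hψ.symm
    rw [this, ← Ext.mk₀_comp_mk₀]
    exact h.shortExact.extClass_comp_assoc _

section chain

variable {P : ℤ → Type u} [∀ n, AddCommGroup (P n)] [∀ n, Module Λ (P n)]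
  (d : ∀ n : ℤ, P (n + 1) →ₗ[Λ] P n)

/-- exactness of `Hom (P, N)` at the place `n + 1` -/
def HEx (N : Type u) [AddCommGroup N] [Module Λ N] (n : ℤ) : Prop :=
  ∀ g : P (n + 1) →ₗ[Λ] N, g ∘ₗ d (n + 1) = 0 → ∃ f : P n →ₗ[Λ] N, f ∘ₗ d n = g

/-- the inclusion of the next cokernel -/
def inc (hex : ∀ n, Function.Exact (d (n + 1)) (d n)) (n : ℤ) :
    (P (n + 1) ⧸ LinearMap.range (d (n + 1))) →ₗ[Λ] P n :=
  (LinearMap.range (d (n + 1))).liftQ (d n) (LinearMap.exact_iff.mp (hex n)).ge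

lemma ses_inc (hex : ∀ n, Function.Exact (d (n + 1)) (d n)) (n : ℤ) {Z : Type u} [AddCommGroup Z]
    [Module Λ Z] {π : P n →ₗ[Λ] Z} (hs : Function.Surjective π) (he : Function.Exact (d n) π) :
    SES (inc d hex n) π := by
  refine ⟨?_, hs, ?_⟩
  · rw [← LinearMap.ker_eq_bot]
    exact Submodule.ker_liftQ_eq_bot _ _ _ (LinearMap.exact_iff.mp (hex n)).le
  · rw [LinearMap.exact_iff, inc, Submodule.range_liftQ]
    exact LinearMap.exact_iff.mp he

lemma hex_iff (hex : ∀ n, Function.Exact (d (n + 1)) (d n)) (N : Type u) [AddCommGroup N]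
    [Module Λ N] (n : ℤ) :
    HEx d N n ↔ ∀ φ : (P (n + 1) ⧸ LinearMap.range (d (n + 1))) →ₗ[Λ] N,
      ∃ ψ : P n →ₗ[Λ] N, ψ ∘ₗ inc d hex n = φ := by
  constructor
  · intro H φ
    obtain ⟨f, hf⟩ := H (φ ∘ₗ (LinearMap.range (d (n + 1))).mkQ) (by
      rw [LinearMap.comp_assoc, LinearMap.range_mkQ_comp, LinearMap.comp_zero])
    refine ⟨f, Submodule.linearMap_qext _ ?_⟩
    rw [LinearMap.comp_assoc, inc, Submodule.liftQ_mkQ, hf]
  · intro H g hg
    obtain ⟨ψ, hψ⟩ := H ((LinearMap.range (d (n + 1))).liftQ g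
      (LinearMap.range_le_ker_iff.mpr hg))
    refine ⟨ψ, ?_⟩
    have := congrArg (fun φ => φ ∘ₗ (LinearMap.range (d (n + 1))).mkQ) hψ
    simpa only [LinearMap.comp_assoc, inc, Submodule.liftQ_mkQ] using this

lemma ev_of_hex (hp : ∀ n, Module.Projective Λ (P n)) (hex : ∀ n, Function.Exact (d (n + 1)) (d n))
    (N : Type u) [AddCommGroup N] [Module Λ N] (i : ℕ) :
    ∀ (n : ℤ) (Z : Type u) [AddCommGroup Z] [Module Λ Z] (π : P n →ₗ[Λ] Z),
      Function.Surjective π → Function.Exact (d n) π → (∀ m, n ≤ m → HEx d N m) →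
      EV (ModuleCat.of Λ N) Z (i + 1) := by
  induction i with
  | zero =>
    intro n Z _ _ π hs he H
    have := hp n
    exact (ev_one_iff (ses_inc d hex n hs he) N).mpr ((hex_iff d hex N n).mp (H n le_rfl))
  | succ i ih =>
    intro n Z _ _ π hs he H
    have := hp n
    refine (ses_inc d hex n hs he).ev₃_succ ?_ (ev_succ_of_projective _ _)
    exact ih (n + 1) _ (LinearMap.range (d (n + 1))).mkQ (Submodule.mkQ_surjective _)
      (LinearMap.exact_map_mkQ_range _) fun m hm => H m (by omega)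

lemma hex_of_ev (hp : ∀ n, Module.Projective Λ (P n)) (hex : ∀ n, Function.Exact (d (n + 1)) (d n))
    (N : Type u) [AddCommGroup N] [Module Λ N] (n : ℤ) {Z : Type u} [AddCommGroup Z] [Module Λ Z]
    {π : P n →ₗ[Λ] Z} (hs : Function.Surjective π) (he : Function.Exact (d n) π)
    (H : ∀ i, EV (ModuleCat.of Λ N) Z (i + 1)) : ∀ m, n ≤ m → HEx d N m := by
  have step : ∀ (n : ℤ) (Z : Type u) [AddCommGroup Z] [Module Λ Z] (π : P n →ₗ[Λ] Z),
      Function.Surjective π → Function.Exact (d n) π → (∀ i, EV (ModuleCat.of Λ N) Z (i + 1)) →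
      HEx d N n ∧
        ∀ i, EV (ModuleCat.of Λ N) (P (n + 1) ⧸ LinearMap.range (d (n + 1))) (i + 1) := by
    intro n Z _ _ π hs he H
    have := hp n
    exact ⟨(hex_iff d hex N n).mpr ((ev_one_iff (ses_inc d hex n hs he) N).mp (H 0)),
      fun i => (ses_inc d hex n hs he).ev₁ (ev_succ_of_projective _ _) (H (i + 1))⟩
  have main : ∀ m, n ≤ m → HEx d N m ∧
      ∀ i, EV (ModuleCat.of Λ N) (P (m + 1) ⧸ LinearMap.range (d (m + 1))) (i + 1) := by
    intro m hm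
    induction m, hm using Int.leInduction with
    | base => exact step n Z π hs he H
    | succ m _ ih =>
      exact step (m + 1) _ (LinearMap.range (d (m + 1))).mkQ (Submodule.mkQ_surjective _)
        (LinearMap.exact_map_mkQ_range _) ih.2
  exact fun m hm => (main m hm).1

lemma HEx.of_equiv {N N' : Type u} [AddCommGroup N] [Module Λ N] [AddCommGroup N'] [Module Λ N']
    (e : N ≃ₗ[Λ] N') {n : ℤ} (H : HEx d N n) : HEx d N' n := by
  intro g hg
  obtain ⟨f, hf⟩ := H (e.symm.toLinearMap ∘ₗ g) (by rw [LinearMap.comp_assoc, hg]; simp)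
  refine ⟨e.toLinearMap ∘ₗ f, ?_⟩
  rw [LinearMap.comp_assoc, hf]
  ext x; simp

end chain

lemma subsingleton_iff_ev (N Z : Type u) [AddCommGroup N] [Module Λ N] [AddCommGroup Z]
    [Module Λ Z] :
    (∀ i : ℕ, 0 < i → Subsingleton (Ext (ModuleCat.of Λ Z) (ModuleCat.of Λ N) i)) ↔
      ∀ i, EV (ModuleCat.of Λ N) Z (i + 1) := by
  constructor
  · intro h i e
    have := h (i + 1) (Nat.succ_pos i)
    exact Subsingleton.elim _ _
  · intro h i hi
    obtain ⟨j, rfl⟩ := Nat.exists_eq_succ_of_ne_zero hi.ne'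
    exact ⟨fun a b => by rw [h j a, h j b]⟩

end Crest.Agent.R186.BCh
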