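import Mathlib

/-!
Base change of modules over a (non-commutative) algebra along a field extension.
-/

set_option autoImplicit false

universe u v w w'

open scoped TensorProduct

namespace Crest.Agent.R186.BCh

/-- base change of an `L`-module -/
def BC (k : Type) [Field k] (E : Type u) [Field E] [Algebra k E] (_L : Type) (N : Type)
    [AddCommGroup N] [Module k N] : Type u := E ⊗[k] N

variable {k : Type} [Field k] {E : Type u} [Field E] [Algebra k E] {L : Type} [Ring L]
  [Algebra k L]

section basic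
variable {N N' N'' : Type} [AddCommGroup N] [Module k N] [Module L N] [IsScalarTower k L N]
  [AddCommGroup N'] [Module k N'] [Module L N'] [IsScalarTower k L N']
  [AddCommGroup N''] [Module k N''] [Module L N''] [IsScalarTower k L N'']

noncomputable instance : AddCommGroup (BC k E L N) := inferInstanceAs (AddCommGroup (E ⊗[k] N))

variable (k E L N) in
/-- the action as an algebra map -/
noncomputable def act : E ⊗[k] L →ₐ[k] Module.End k (E ⊗[k] N) :=
  (Module.endTensorEndAlgHom (R := k) (S := k) (A := k) (M := E) (N := N)).comp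
    (Algebra.TensorProduct.map (Algebra.lmul k E) (Algebra.lsmul k k N))

noncomputable instance : Module (E ⊗[k] L) (BC k E L N) :=
  Module.compHom (E ⊗[k] N) (act k E L N).toRingHom

/-- pure tensors -/
noncomputable def tm (a : E) (x : N) : BC k E L N := a ⊗ₜ[k] x

lemma smul_tm (a b : E) (r : L) (x : N) :
    (a ⊗ₜ[k] r) • (tm b x : BC k E L N) = tm (a * b) (r • x) := rfl

omit [Ring L] [Algebra k L] [Module L N] [IsScalarTower k L N] in
lemma tm_add (a : E) (x y : N) : (tm a (x + y) : BC k E L N) = tm a x + tm a y :=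
  TensorProduct.tmul_add a x y

omit [Ring L] [Algebra k L] [Module L N] [IsScalarTower k L N] in
lemma tm_zero (a : E) : (tm a (0 : N) : BC k E L N) = 0 := TensorProduct.tmul_zero N a

omit [Ring L] [Algebra k L] [Module L N] [IsScalarTower k L N] in
lemma tm_sum {ι : Type*} (s : Finset ι) (a : E) (x : ι → N) :
    (tm a (∑ i ∈ s, x i) : BC k E L N) = ∑ i ∈ s, tm a (x i) := TensorProduct.tmul_sum a s x

omit [Ring L] [Algebra k L] [Module L N] [IsScalarTower k L N] in
@[elab_as_elim]
lemma BC.induction {p : BC k E L N → Prop} (y : BC k E L N) (h0 : p 0) (ht : ∀ a x, p (tm a x))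
    (ha : ∀ y z, p y → p z → p (y + z)) : p y :=
  TensorProduct.induction_on (motive := p) y h0 ht ha

lemma smul_of_tmul {M : Type*} [AddCommGroup M] [Module (E ⊗[k] L) M] (f : BC k E L N →+ M)
    (h : ∀ (a b : E) (r : L) (x : N), f (tm (a * b) (r • x)) = (a ⊗ₜ[k] r) • f (tm b x))
    (c : E ⊗[k] L) (y : BC k E L N) : f (c • y) = c • f y := by
  induction c using TensorProduct.induction_on with
  | zero => simp
  | add c c' hc hc' => rw [add_smul, map_add, hc, hc', add_smul]
  | tmul a r =>
    induction y using BC.induction with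
    | h0 => simp
    | ht b x => rw [smul_tm, h]
    | ha y z hy hz => rw [smul_add, map_add, hy, hz, map_add, smul_add]

/-- base change of a linear map -/
noncomputable def bcMap (f : N →ₗ[L] N') : BC k E L N →ₗ[E ⊗[k] L] BC k E L N' where
  toFun := LinearMap.lTensor E (f.restrictScalars k)
  map_add' := (LinearMap.lTensor E (f.restrictScalars k)).map_add
  map_smul' := smul_of_tmul (M := BC k E L N')
    (LinearMap.lTensor E (f.restrictScalars k)).toAddMonoidHom fun a b r x => by
      change (tm (a * b) (f (r • x)) : BC k E L N') = (a ⊗ₜ[k] r) • (tm b (f x) : BC k E L N')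
      rw [smul_tm, map_smul]

lemma bcMap_tm (f : N →ₗ[L] N') (a : E) (x : N) :
    bcMap f (tm a x : BC k E L N) = tm a (f x) := rfl

lemma bcMap_exact {f : N →ₗ[L] N'} {g : N' →ₗ[L] N''} (h : Function.Exact f g) :
    Function.Exact (bcMap (k := k) (E := E) f) (bcMap (k := k) (E := E) g) :=
  Module.Flat.lTensor_exact E (f := f.restrictScalars k) (g := g.restrictScalars k) h

lemma bcMap_surjective {f : N →ₗ[L] N'} (h : Function.Surjective f) :
    Function.Surjective (bcMap (k := k) (E := E) f) :=
  LinearMap.lTensor_surjective E (g := f.restrictScalars k) h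

lemma bc_ext {M : Type*} [AddCommGroup M] [Module (E ⊗[k] L) M]
    {F G : BC k E L N →ₗ[E ⊗[k] L] M} (h : ∀ x, F (tm 1 x) = G (tm 1 x)) : F = G := by
  ext y
  induction y using BC.induction with
  | h0 => simp
  | ht a x =>
    have : (tm a x : BC k E L N) = (a ⊗ₜ[k] (1 : L)) • (tm 1 x : BC k E L N) := by
      rw [smul_tm, mul_one, one_smul]
    rw [this, map_smul, map_smul, h]
  | ha y z hy hz => rw [map_add, map_add, hy, hz]

variable (k E L) in
/-- the base change of the regular module -/
noncomputable def toR : BC k E L L ≃ₗ[E ⊗[k] L] E ⊗[k] L where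
  toFun := id
  invFun := id
  left_inv _ := rfl
  right_inv _ := rfl
  map_add' _ _ := rfl
  map_smul' := smul_of_tmul (M := E ⊗[k] L) (AddMonoidHom.id _) fun a b r x => by
    change (a * b) ⊗ₜ[k] (r * x) = (a ⊗ₜ[k] r) * (b ⊗ₜ[k] x)
    rw [Algebra.TensorProduct.tmul_mul_tmul]

lemma toR_tm (a : E) (r : L) : toR k E L (tm a r) = a ⊗ₜ[k] r := rfl

lemma bc_finite_projective [Module.Finite L N] [Module.Projective L N] :
    Module.Finite (E ⊗[k] L) (BC k E L N) ∧ Module.Projective (E ⊗[k] L) (BC k E L N) := by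
  obtain ⟨n, f, g, -, -, hfg⟩ := Module.Finite.exists_comp_eq_id_of_projective L N
  let G : BC k E L N →ₗ[E ⊗[k] L] (Fin n → E ⊗[k] L) :=
    LinearMap.pi fun j => (toR k E L).toLinearMap ∘ₗ bcMap (LinearMap.proj j ∘ₗ g)
  let F : (Fin n → E ⊗[k] L) →ₗ[E ⊗[k] L] BC k E L N :=
    Fintype.linearCombination (E ⊗[k] L) fun j => (tm 1 (f (Pi.single j 1)) : BC k E L N)
  have h : F ∘ₗ G = LinearMap.id := by
    refine bc_ext fun x => ?_
    have e1 : ∀ j, G (tm 1 x) j = (1 : E) ⊗ₜ[k] g x j := fun j => rfl
    have e2 : x = ∑ j, g x j • f (Pi.single j 1) := by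
      conv_lhs => rw [← LinearMap.congr_fun hfg x |>.trans (LinearMap.id_apply x)]
      rw [LinearMap.comp_apply]
      conv_lhs => rw [pi_eq_sum_univ' (g x)]
      simp only [map_sum, map_smul]
    rw [LinearMap.comp_apply, LinearMap.id_apply, Fintype.linearCombination_apply]
    simp only [e1, smul_tm, mul_one]
    rw [← tm_sum, ← e2]
  exact ⟨Module.Finite.of_surjective F (LinearMap.surjective_of_comp_eq_id G F h),
    Module.Projective.of_split G F h⟩

/-- contraction with a functional on `E` -/
noncomputable def ctr (ε : E →ₗ[k] k) : BC k E L N →+ N :=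
  ((TensorProduct.lid k N).toLinearMap ∘ₗ LinearMap.rTensor N ε).toAddMonoidHom

omit [Ring L] [Algebra k L] [Module L N] [IsScalarTower k L N] in
lemma ctr_tm (ε : E →ₗ[k] k) (a : E) (x : N) : ctr ε (tm a x : BC k E L N) = ε a • x := rfl

lemma ctr_smul (ε : E →ₗ[k] k) (r : L) (y : BC k E L N) :
    ctr ε (((1 : E) ⊗ₜ[k] r) • y) = r • ctr ε y := by
  induction y using BC.induction with
  | h0 => simp
  | ht a x => rw [smul_tm, ctr_tm, ctr_tm, one_mul, smul_comm]
  | ha y z hy hz => rw [smul_add, map_add, hy, hz, map_add, smul_add]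

lemma ctr_bcMap (ε : E →ₗ[k] k) (f : N →ₗ[L] N') (y : BC k E L N) :
    ctr ε (bcMap f y) = f (ctr ε y) := by
  induction y using BC.induction with
  | h0 => simp
  | ht a x => rw [bcMap_tm, ctr_tm, ctr_tm, LinearMap.map_smul_of_tower]
  | ha y z hy hz => rw [map_add, map_add, hy, hz, map_add, map_add]

/-- the component of a map between base changes -/
noncomputable def comp (ε : E →ₗ[k] k) (G : BC k E L N →ₗ[E ⊗[k] L] BC k E L N') : N →ₗ[L] N' where
  toFun x := ctr ε (G (tm 1 x))
  map_add' x y := by rw [tm_add, map_add, map_add]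
  map_smul' r x := by
    rw [RingHom.id_apply, ← ctr_smul, ← map_smul, smul_tm, mul_one]

lemma comp_apply (ε : E →ₗ[k] k) (G : BC k E L N →ₗ[E ⊗[k] L] BC k E L N') (x : N) :
    comp ε G x = ctr ε (G (tm 1 x)) := rfl

variable (k E) in
lemma exists_retraction : ∃ ε : E →ₗ[k] k, ε 1 = 1 := by
  obtain ⟨ε, hε⟩ := (Algebra.linearMap k E).exists_leftInverse_of_injective
    (LinearMap.ker_eq_bot.mpr (algebraMap k E).injective)
  refine ⟨ε, ?_⟩
  have := LinearMap.congr_fun hε 1
  simpa using this

lemma projective_of_bc [Module.Projective L N] {π : N →ₗ[L] N'} (hπ : Function.Surjective π)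
    (h : Module.Projective (E ⊗[k] L) (BC k E L N')) : Module.Projective L N' := by
  obtain ⟨ε, hε⟩ := exists_retraction k E
  obtain ⟨s, hs⟩ := Module.projective_lifting_property (bcMap (k := k) (E := E) π) LinearMap.id
    (bcMap_surjective hπ)
  refine Module.Projective.of_split (comp ε s) π ?_
  ext z
  have := LinearMap.congr_fun hs (tm 1 z)
  rw [LinearMap.comp_apply, LinearMap.id_apply] at this
  rw [LinearMap.comp_apply, comp_apply, ← ctr_bcMap, this, ctr_tm, hε, one_smul, LinearMap.id_apply]

/-- multiplication by a scalar of the extension field -/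
noncomputable def mulE (a : E) : BC k E L N →ₗ[E ⊗[k] L] BC k E L N where
  toFun y := (a ⊗ₜ[k] (1 : L)) • y
  map_add' := smul_add _
  map_smul' c y := by
    rw [RingHom.id_apply, smul_smul, smul_smul]
    congr 1
    induction c using TensorProduct.induction_on with
    | zero => simp
    | add c c' hc hc' => rw [mul_add, add_mul, hc, hc']
    | tmul b r => simp [mul_comm]

lemma mulE_tm (a b : E) (x : N) : mulE a (tm b x : BC k E L N) = tm (a * b) x := by
  change (a ⊗ₜ[k] (1 : L)) • (tm b x : BC k E L N) = _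
  rw [smul_tm, one_smul]

lemma hex_bc [Module.Finite L N'] {T : Type} [AddCommGroup T] [Module k T] [Module L T]
    [IsScalarTower k L T] (d₁ : N'' →ₗ[L] N') (d₀ : N' →ₗ[L] N)
    (H : ∀ g : N' →ₗ[L] T, g ∘ₗ d₁ = 0 → ∃ f : N →ₗ[L] T, f ∘ₗ d₀ = g)
    (G : BC k E L N' →ₗ[E ⊗[k] L] BC k E L T) (hG : G ∘ₗ bcMap d₁ = 0) :
    ∃ F : BC k E L N →ₗ[E ⊗[k] L] BC k E L T, F ∘ₗ bcMap d₀ = G := by
  classical
  let b := Module.Basis.ofVectorSpace k E
  have hg : ∀ i, comp (b.coord i) G ∘ₗ d₁ = 0 := by
    intro i
    ext x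
    have := LinearMap.congr_fun hG (tm 1 x)
    rw [LinearMap.comp_apply, bcMap_tm, LinearMap.zero_apply] at this
    rw [LinearMap.comp_apply, comp_apply, this, map_zero, LinearMap.zero_apply]
  choose f hf using fun i => H _ (hg i)
  obtain ⟨s, hs⟩ := Module.Finite.fg_top (R := L) (M := N')
  let e : BC k E L T → (_ →₀ T) := fun y => TensorProduct.equivFinsuppOfBasisLeft b y
  have he : ∀ y i, e y i = ctr (b.coord i) y := fun y i =>
    TensorProduct.equivFinsuppOfBasisLeft_apply b y i
  have he' : ∀ y : BC k E L T, y = (e y).sum fun i t => (tm (b i) t : BC k E L T) := by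
    intro y
    have := TensorProduct.equivFinsuppOfBasisLeft_symm_apply b (e y)
    rw [LinearEquiv.symm_apply_apply] at this
    exact this
  let I := s.biUnion fun x => (e (G (tm 1 x))).support
  have hI : ∀ i, i ∉ I → comp (b.coord i) G = 0 := by
    intro i hi
    refine LinearMap.ext_on hs fun x hx => ?_
    rw [comp_apply, ← he, LinearMap.zero_apply]
    by_contra hne
    exact hi (Finset.mem_biUnion.mpr ⟨x, hx, Finsupp.mem_support_iff.mpr hne⟩)
  refine ⟨∑ i ∈ I, mulE (b i) ∘ₗ bcMap (f i), bc_ext fun x => ?_⟩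
  rw [LinearMap.comp_apply, bcMap_tm, LinearMap.sum_apply]
  simp only [LinearMap.comp_apply, bcMap_tm, mulE_tm, mul_one]
  conv_rhs => rw [he' (G (tm 1 x))]
  rw [Finsupp.sum_of_support_subset _ (s := I) _ _ fun i _ => tm_zero _]
  · refine Finset.sum_congr rfl fun i _ => ?_
    rw [he, ← comp_apply, ← hf i, LinearMap.comp_apply]
  · intro i hi
    by_contra hn
    rw [Finsupp.mem_support_iff, he, ← comp_apply, hI i hn] at hi
    exact hi rfl

end basic

end Crest.Agent.R186.BCh
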