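import Mathlib
import Crest.Prelude.Def_GorProjVanishing
import Crest.Agent.R186.BaseChangeExt
import Crest.Agent.R186.BaseChangeMod

/-!
`GorProjVanishingData` is stable under extension of the base field.
-/

set_option autoImplicit false

universe u

open CategoryTheory Crest.AlgebraR
open scoped TensorProduct

namespace Crest.Agent.R186

namespace BCh

lemma jacobson_eq_ker_of_nil {R F : Type*} [Ring R] [Field F] {ι : Type*} [Finite ι]
    (ch : R →+* (ι → F)) (hs : Function.Surjective ch) (hn : ∀ x, ch x = 0 → IsNilpotent x) :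
    Ring.jacobson R = RingHom.ker ch := by
  apply le_antisymm
  · have : RingHomSurjective ch := ⟨hs⟩
    refine (Ring.le_comap_jacobson ch).trans ?_
    rw [IsSemisimpleRing.jacobson_eq_bot]
    exact le_rfl
  · rw [Ring.jacobson_eq_sInf_isMaximal]
    refine le_sInf fun m hm x hx => ?_
    by_contra hxm
    obtain ⟨y, i, hi, h⟩ := Ideal.IsMaximal.exists_inv hm hxm
    have h1 : IsNilpotent (y * x) := hn _ (by rw [map_mul, RingHom.mem_ker.mp hx, mul_zero])
    have h2 : IsUnit i := by
      rw [show i = 1 - y * x by rw [← h]; abel]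
      exact h1.isUnit_one_sub
    exact hm.ne_top (Ideal.eq_top_of_isUnit_mem _ hi h2)

variable {k : Type} [Field k] {E : Type u} [Field E] [Algebra k E] {L : Type} [Ring L]
  [Algebra k L]

lemma radical_bc [FiniteDimensional k L] (e : (L ⧸ Ring.jacobson L) ≃ₐ[k] (Fin 8 → k))
    (h4 : Ring.jacobson L ^ 4 ≠ ⊥) :
    Nonempty (((E ⊗[k] L) ⧸ Ring.jacobson (E ⊗[k] L)) ≃ₐ[E] (Fin 8 → E)) ∧
      Ring.jacobson (E ⊗[k] L) ^ 4 ≠ ⊥ := by
  set J := Ring.jacobson L with hJ
  let ch : L →ₐ[k] (Fin 8 → k) := (e : (L ⧸ J) →ₐ[k] (Fin 8 → k)).comp (Ideal.Quotient.mkₐ k J)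
  have hch : ∀ x, ch x = 0 ↔ x ∈ J := by
    intro x
    change e (Ideal.Quotient.mk J x) = 0 ↔ _
    rw [EmbeddingLike.map_eq_zero_iff, Ideal.Quotient.eq_zero_iff_mem]
  have hs : Function.Surjective ch := e.surjective.comp (Ideal.Quotient.mkₐ_surjective k J)
  let ch' : E ⊗[k] L →ₐ[E] (Fin 8 → E) :=
    (Algebra.TensorProduct.piScalarRight k E E (Fin 8) : _ →ₐ[E] _).comp
      (Algebra.TensorProduct.map (AlgHom.id E E) ch)
  have hmap : ∀ y : E ⊗[k] L, Algebra.TensorProduct.map (AlgHom.id E E) ch y =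
      LinearMap.lTensor E ch.toLinearMap y := by
    intro y
    induction y using TensorProduct.induction_on with
    | zero => simp
    | tmul a r => simp
    | add y z hy hz => rw [map_add, map_add, hy, hz]
  have hs' : Function.Surjective ch' := by
    refine (Algebra.TensorProduct.piScalarRight k E E (Fin 8)).surjective.comp ?_
    intro y
    obtain ⟨z, hz⟩ := LinearMap.lTensor_surjective E (g := ch.toLinearMap) hs y
    exact ⟨z, (hmap z).trans hz⟩
  let S : Ideal L → Submodule k (E ⊗[k] L) := fun I =>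
    LinearMap.range (LinearMap.lTensor E (I.restrictScalars k).subtype)
  have hS1 : ∀ y, ch' y = 0 → y ∈ S J := by
    intro y hy
    have h1 : LinearMap.lTensor E ch.toLinearMap y = 0 := by
      rw [← hmap]
      exact (Algebra.TensorProduct.piScalarRight k E E (Fin 8)).injective
        (hy.trans (map_zero _).symm)
    have h2 : Function.Exact (J.restrictScalars k).subtype ch.toLinearMap := by
      intro x
      simpa using hch x
    exact (Module.Flat.lTensor_exact E h2 y).mp h1
  have hSt : ∀ (I : Ideal L) (a : E) (x : L), x ∈ I → a ⊗ₜ[k] x ∈ S I := fun I a x hx =>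
    ⟨a ⊗ₜ[k] ⟨x, hx⟩, rfl⟩
  have hSmul : ∀ (I I' : Ideal L) (y z : E ⊗[k] L), y ∈ S I → z ∈ S I' → y * z ∈ S (I * I') := by
    rintro I I' _ _ ⟨y, rfl⟩ ⟨z, rfl⟩
    induction y using TensorProduct.induction_on with
    | zero => simp
    | add y y' hy hy' => rw [map_add, add_mul]; exact add_mem hy hy'
    | tmul a x =>
      induction z using TensorProduct.induction_on with
      | zero => simp
      | add z z' hz hz' => rw [map_add, mul_add]; exact add_mem hz hz'
      | tmul b w =>
        rw [LinearMap.lTensor_tmul, LinearMap.lTensor_tmul, Algebra.TensorProduct.tmul_mul_tmul]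
        exact hSt _ _ _ (Submodule.mul_mem_mul x.2 w.2)
  have hpow : ∀ y, ch' y = 0 → ∀ n : ℕ, y ^ n ∈ S (J ^ n) := by
    intro y hy n
    induction n with
    | zero =>
      rw [pow_zero, Algebra.TensorProduct.one_def]
      refine hSt _ _ _ ?_
      rw [Submodule.pow_zero, Ideal.one_eq_top]; trivial
    | succ n ih =>
      rw [pow_succ, Submodule.pow_succ]
      exact hSmul _ _ _ _ ih (hS1 y hy)
  have : IsArtinianRing L := IsArtinianRing.of_finite k L
  obtain ⟨N, hN⟩ : IsNilpotent J := by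
    rw [hJ, ← Ideal.jacobson_bot]; exact IsArtinianRing.isNilpotent_jacobson_bot
  have hnil : ∀ y, ch' y = 0 → IsNilpotent y := by
    intro y hy
    refine ⟨N, ?_⟩
    obtain ⟨z, hz⟩ := hpow y hy N
    have : (((J ^ N).restrictScalars k).subtype) = 0 := by
      ext x
      have := x.2
      simp only [hN, Submodule.zero_eq_bot, Submodule.restrictScalars_mem,
        Submodule.mem_bot] at this
      simpa using this
    rw [← hz, this]; simp
  have hjac : Ring.jacobson (E ⊗[k] L) = RingHom.ker ch' :=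
    jacobson_eq_ker_of_nil ch'.toRingHom hs' hnil
  refine ⟨⟨(Ideal.quotientEquivAlgOfEq E hjac).trans
    (Ideal.quotientKerAlgEquivOfSurjective hs')⟩, ?_⟩
  have hup : ∀ (n : ℕ) (x : L), x ∈ J ^ n → (1 : E) ⊗ₜ[k] x ∈ Ring.jacobson (E ⊗[k] L) ^ n := by
    intro n
    induction n with
    | zero => intro x _; rw [Submodule.pow_zero, Ideal.one_eq_top]; trivial
    | succ n ih =>
      intro x hx
      rw [Submodule.pow_succ] at hx ⊢
      refine Submodule.mul_induction_on hx (fun y hy z hz => ?_) (fun y z hy hz => ?_)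
      · rw [← mul_one (1 : E), ← Algebra.TensorProduct.tmul_mul_tmul]
        refine Submodule.mul_mem_mul (ih y hy) ?_
        rw [hjac, RingHom.mem_ker]
        simp [ch', (hch z).mpr hz]
      · rw [TensorProduct.tmul_add]; exact add_mem hy hz
  intro h
  apply h4
  rw [eq_bot_iff]
  intro x hx
  have h1 := hup 4 x hx
  rw [h, Submodule.mem_bot] at h1
  obtain ⟨ε, hε⟩ := exists_retraction k E
  have h2 : ctr ε (tm 1 x : BC k E L L) = 0 := by
    rw [show (tm 1 x : BC k E L L) = 0 from h1, map_zero]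
  rwa [ctr_tm, hε, one_smul] at h2

end BCh

open BCh in
theorem gpv_baseChange (k : Type) [Field k] (L : Type) [Ring L] [Algebra k L] (Z : Type)
    [AddCommGroup Z] [Module L Z] [Module k Z] [IsScalarTower k L Z]
    (h : GorProjVanishingData k L Z) (E : Type u) [Field E] [Algebra k E] :
    ∃ (_ : Module (E ⊗[k] L) (E ⊗[k] Z)),
      (∀ (a b : E) (r : L) (z : Z), (a ⊗ₜ[k] r) • (b ⊗ₜ[k] z) = (a * b) ⊗ₜ[k] (r • z)) ∧
      GorProjVanishingData E (E ⊗[k] L) (E ⊗[k] Z) := by
  obtain ⟨hfd, ⟨e⟩, h4, hZ, hnp, ⟨P, iA, iM, d, hP, hex, hhom, ⟨eZ⟩⟩, hZZ, hZL⟩ := h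
  refine ⟨(inferInstance : Module (E ⊗[k] L) (BC k E L Z)), fun _ _ _ _ => rfl, ?_⟩
  change GorProjVanishingData E (E ⊗[k] L) (BC k E L Z)
  let iK : ∀ n, Module k (P n) := fun n => Module.compHom (P n) (algebraMap k L)
  have iT : ∀ n, IsScalarTower k L (P n) := fun n =>
    ⟨fun c r x => by rw [Algebra.smul_def, mul_smul]; rfl⟩
  have hfin := fun n => (hP n).1
  have hproj := fun n => (hP n).2
  let π : P 0 →ₗ[L] Z := eZ.symm.toLinearMap ∘ₗ (LinearMap.range (d 0)).mkQ
  have hπs : Function.Surjective π := eZ.symm.surjective.comp (Submodule.mkQ_surjective _)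
  have hπe : Function.Exact (d 0) π := by
    intro x
    change eZ.symm (Submodule.Quotient.mk x) = 0 ↔ _
    rw [EmbeddingLike.map_eq_zero_iff, Submodule.Quotient.mk_eq_zero]
    rfl
  let d' : ∀ n : ℤ, BC k E L (P (n + 1)) →ₗ[E ⊗[k] L] BC k E L (P n) := fun n => bcMap (d n)
  have hP' : ∀ n, Module.Finite (E ⊗[k] L) (BC k E L (P n)) ∧
      Module.Projective (E ⊗[k] L) (BC k E L (P n)) := fun n => bc_finite_projective
  have hex' : ∀ n, Function.Exact (d' (n + 1)) (d' n) := fun n => bcMap_exact (hex n)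
  have hπs' : Function.Surjective (bcMap (k := k) (E := E) π) := bcMap_surjective hπs
  have hπe' : Function.Exact (d' 0) (bcMap (k := k) (E := E) π) := bcMap_exact hπe
  have up : ∀ (T : Type) [AddCommGroup T] [Module k T] [Module L T] [IsScalarTower k L T] (n : ℤ),
      HEx d T n → HEx (P := fun n => BC k E L (P n)) d' (BC k E L T) n :=
    fun T _ _ _ _ n H G hG => hex_bc (d (n + 1)) (d n) H G hG
  have hL : ∀ n, HEx (P := fun n => BC k E L (P n)) d' (E ⊗[k] L) n := fun n =>
    HEx.of_equiv (P := fun n => BC k E L (P n)) d' (toR k E L) (up L n fun g hg => (hhom n g).mp hg)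
  have hZ0 := hex_of_ev d hproj hex Z 0 hπs hπe ((subsingleton_iff_ev Z Z).mp hZZ)
  obtain ⟨r1, r2⟩ := radical_bc (E := E) e h4
  have := (hP' 0).1
  refine ⟨inferInstance, r1, r2, Module.Finite.of_surjective _ hπs',
    fun hp => hnp (projective_of_bc hπs hp), ⟨fun n => BC k E L (P n), inferInstance,
      inferInstance, d', hP', hex', fun n g => ⟨hL n g, ?_⟩, ⟨?_⟩⟩, ?_, ?_⟩
  · rintro ⟨f, rfl⟩
    change (f ∘ₗ d' n) ∘ₗ d' (n + 1) = 0
    rw [LinearMap.comp_assoc, (hex' n).linearMap_comp_eq_zero, LinearMap.comp_zero]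
  · exact (LinearMap.quotKerEquivOfSurjective _ hπs').symm.trans
      (Submodule.quotEquivOfEq _ _ (LinearMap.exact_iff.mp hπe'))
  · refine (subsingleton_iff_ev _ _).mpr fun i => ?_
    exact ev_of_hex (P := fun n => BC k E L (P n)) d' (fun n => (hP' n).2) hex' _ i 0 _ _ hπs' hπe'
      fun m hm => up Z m (hZ0 m hm)
  · refine (subsingleton_iff_ev _ _).mpr fun i => ?_
    exact ev_of_hex (P := fun n => BC k E L (P n)) d' (fun n => (hP' n).2) hex' _ i 0 _ _ hπs' hπe'
      fun m _ => hL m

end Crest.Agent.R186
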