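import Crest.Agent.R186.MD

/-!
Bimodules as pairs of commuting representations; cycle modules; trivial extensions.
-/

set_option autoImplicit false

namespace Crest.Agent.R186

open MulOpposite

variable {K : Type*} [Field K] {G G' : Type*} {Γ : GD G} {Γ' : GD G'}
variable {A B A₀ B₀ : Type*} [Ring A] [Algebra K A] [Ring B] [Algebra K B]
  [Ring A₀] [Algebra K A₀] [Ring B₀] [Algebra K B₀]
variable {Y Y₁ Y₂ Y₃ V : Type*} [AddCommGroup Y] [Module K Y]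
  [AddCommGroup Y₁] [Module K Y₁] [AddCommGroup Y₂] [Module K Y₂] [AddCommGroup Y₃] [Module K Y₃]
  [AddCommGroup V] [Module K V]

/-- build a representation from its action -/
def mkRep (f : A →ₗ[K] Module.End K Y) (h1 : ∀ y, f 1 y = y)
    (hm : ∀ a b y, f (a * b) y = f a (f b y)) : A →ₐ[K] Module.End K Y :=
  AlgHom.ofLinearMap f (LinearMap.ext h1) (fun a b => LinearMap.ext (hm a b))

@[simp] theorem mkRep_apply (f : A →ₗ[K] Module.End K Y) (h1 : ∀ y, f 1 y = y)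
    (hm : ∀ a b y, f (a * b) y = f a (f b y)) (a : A) : mkRep f h1 hm a = f a := rfl

theorem rep_mul (ρ : A →ₐ[K] Module.End K Y) (a b : A) (y : Y) : ρ (a * b) y = ρ a (ρ b y) := by
  rw [map_mul]; rfl

/-- left regular representation -/
def lrep (K A : Type*) [Field K] [Ring A] [Algebra K A] : A →ₐ[K] Module.End K A :=
  mkRep (LinearMap.mul K A) (by simp) (by simp [mul_assoc])

@[simp] theorem lrep_apply (a y : A) : lrep K A a y = a * y := rfl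

/-- right regular representation -/
def rrep (K A : Type*) [Field K] [Ring A] [Algebra K A] : Aᵐᵒᵖ →ₐ[K] Module.End K A :=
  mkRep ((LinearMap.mul K A).flip ∘ₗ (opLinearEquiv K (M := A)).symm.toLinearMap) (by simp)
    (by simp [mul_assoc])

@[simp] theorem rrep_apply (a : Aᵐᵒᵖ) (y : A) : rrep K A a y = y * unop a := rfl

/-- componentwise action on functions -/
def piRep (ρ : A →ₐ[K] Module.End K Y) (G : Type*) : A →ₐ[K] Module.End K (G → Y) :=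
  mkRep
    { toFun := fun a => (ρ a).compLeft G
      map_add' := fun a b => by ext c g; simp
      map_smul' := fun t a => by ext c g; simp }
    (fun c => by ext g; simp) (fun a b c => by ext g; simp)

@[simp] theorem piRep_apply (ρ : A →ₐ[K] Module.End K Y) (a : A) (c : G → Y) (g : G) :
    piRep ρ G a c g = ρ a (c g) := rfl

/-- action on a product -/
def prodRep (ρ₁ : A →ₐ[K] Module.End K Y₁) (ρ₂ : A →ₐ[K] Module.End K Y₂) :
    A →ₐ[K] Module.End K (Y₁ × Y₂) :=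
  mkRep
    { toFun := fun a => (ρ₁ a).prodMap (ρ₂ a)
      map_add' := fun a b => by ext <;> simp
      map_smul' := fun t a => by ext <;> simp }
    (fun c => by ext <;> simp) (fun a b c => by ext <;> simp)

@[simp] theorem prodRep_apply (ρ₁ : A →ₐ[K] Module.End K Y₁) (ρ₂ : A →ₐ[K] Module.End K Y₂)
    (a : A) (y : Y₁ × Y₂) : prodRep ρ₁ ρ₂ a y = (ρ₁ a y.1, ρ₂ a y.2) := rfl

/-- restriction to an invariant subspace -/
def subRep (ρ : A →ₐ[K] Module.End K Y) (S : Submodule K Y) (h : ∀ a y, y ∈ S → ρ a y ∈ S) :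
    A →ₐ[K] Module.End K S :=
  mkRep
    { toFun := fun a => (ρ a).restrict (h a)
      map_add' := fun a b => by ext; simp
      map_smul' := fun t a => by ext; simp }
    (fun c => by ext; simp) (fun a b c => by ext; simp)

@[simp] theorem subRep_apply (ρ : A →ₐ[K] Module.End K Y) (S : Submodule K Y)
    (h : ∀ a y, y ∈ S → ρ a y ∈ S) (a : A) (y : S) : (subRep ρ S h a y : Y) = ρ a y := rfl

/-- action on `Hom(Y, V)` through the source, left to right -/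
def trRep (ρ : A →ₐ[K] Module.End K Y) (V : Type*) [AddCommGroup V] [Module K V] :
    Aᵐᵒᵖ →ₐ[K] Module.End K (Y →ₗ[K] V) :=
  mkRep
    { toFun := fun a => LinearMap.lcomp K V (ρ (unop a))
      map_add' := fun a b => by ext; simp
      map_smul' := fun t a => by ext; simp }
    (fun c => by ext; simp) (fun a b c => by ext; simp)

@[simp] theorem trRep_apply (ρ : A →ₐ[K] Module.End K Y) (a : Aᵐᵒᵖ) (φ : Y →ₗ[K] V) (y : Y) :
    trRep ρ V a φ y = φ (ρ (unop a) y) := rfl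

/-- action on `Hom(Y, V)` through the source, right to left -/
def trRep' (ρ : Aᵐᵒᵖ →ₐ[K] Module.End K Y) (V : Type*) [AddCommGroup V] [Module K V] :
    A →ₐ[K] Module.End K (Y →ₗ[K] V) :=
  mkRep
    { toFun := fun a => LinearMap.lcomp K V (ρ (op a))
      map_add' := fun a b => by ext; simp
      map_smul' := fun t a => by ext; simp }
    (fun c => by ext; simp) (fun a b c => by ext; simp)

@[simp] theorem trRep'_apply (ρ : Aᵐᵒᵖ →ₐ[K] Module.End K Y) (a : A) (φ : Y →ₗ[K] V) (y : Y) :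
    trRep' ρ V a φ y = φ (ρ (op a) y) := rfl

/-- action on `Hom(V, Y)` through the target -/
def postRep (ρ : A →ₐ[K] Module.End K Y) (V : Type*) [AddCommGroup V] [Module K V] :
    A →ₐ[K] Module.End K (V →ₗ[K] Y) :=
  mkRep
    { toFun := fun a => LinearMap.llcomp K V Y Y (ρ a)
      map_add' := fun a b => by ext; simp
      map_smul' := fun t a => by ext; simp }
    (fun c => by ext; simp) (fun a b c => by ext; simp)

@[simp] theorem postRep_apply (ρ : A →ₐ[K] Module.End K Y) (a : A) (φ : V →ₗ[K] Y) (v : V) :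
    postRep ρ V a φ v = ρ a (φ v) := rfl

/-- action through a character -/
def chRep (χ : A →ₐ[K] K) : A →ₐ[K] Module.End K K := (lrep K K).comp χ

@[simp] theorem chRep_apply (χ : A →ₐ[K] K) (a : A) (y : K) : chRep χ a y = χ a * y := rfl

/-- Two commuting representations. An `(A, R)`-bimodule is a `Bi K A Rᵐᵒᵖ Y`. -/
structure Bi (K A B Y : Type*) [Field K] [Ring A] [Algebra K A] [Ring B] [Algebra K B]
    [AddCommGroup Y] [Module K Y] where
  l : A →ₐ[K] Module.End K Y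
  r : B →ₐ[K] Module.End K Y
  comm : ∀ a b y, l a (r b y) = r b (l a y)

namespace Bi

/-- the regular bimodule -/
def reg (K A : Type*) [Field K] [Ring A] [Algebra K A] : Bi K A Aᵐᵒᵖ A :=
  ⟨lrep K A, rrep K A, fun a b y => by simp [mul_assoc]⟩

@[simp] theorem reg_l : (reg K A).l = lrep K A := rfl
@[simp] theorem reg_r : (reg K A).r = rrep K A := rfl

def swap (β : Bi K A B Y) : Bi K B A Y := ⟨β.r, β.l, fun a b y => (β.comm b a y).symm⟩

@[simp] theorem swap_l (β : Bi K A B Y) : β.swap.l = β.r := rfl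
@[simp] theorem swap_r (β : Bi K A B Y) : β.swap.r = β.l := rfl

def res (β : Bi K A B Y) (f : A₀ →ₐ[K] A) (f' : B₀ →ₐ[K] B) : Bi K A₀ B₀ Y :=
  ⟨β.l.comp f, β.r.comp f', fun _ _ y => β.comm _ _ y⟩

@[simp] theorem res_l (β : Bi K A B Y) (f : A₀ →ₐ[K] A) (f' : B₀ →ₐ[K] B) (a : A₀) :
    (β.res f f').l a = β.l (f a) := rfl
@[simp] theorem res_r (β : Bi K A B Y) (f : A₀ →ₐ[K] A) (f' : B₀ →ₐ[K] B) (b : B₀) :
    (β.res f f').r b = β.r (f' b) := rfl

def prod (β₁ : Bi K A B Y₁) (β₂ : Bi K A B Y₂) : Bi K A B (Y₁ × Y₂) :=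
  ⟨prodRep β₁.l β₂.l, prodRep β₁.r β₂.r, fun a b y => by simp [β₁.comm, β₂.comm]⟩

@[simp] theorem prod_l (β₁ : Bi K A B Y₁) (β₂ : Bi K A B Y₂) :
    (β₁.prod β₂).l = prodRep β₁.l β₂.l := rfl
@[simp] theorem prod_r (β₁ : Bi K A B Y₁) (β₂ : Bi K A B Y₂) :
    (β₁.prod β₂).r = prodRep β₁.r β₂.r := rfl

def sub (β : Bi K A B Y) (S : Submodule K Y) (hl : ∀ a y, y ∈ S → β.l a y ∈ S)
    (hr : ∀ b y, y ∈ S → β.r b y ∈ S) : Bi K A B S :=
  ⟨subRep β.l S hl, subRep β.r S hr, fun a b y => Subtype.ext (β.comm a b y)⟩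

@[simp] theorem sub_l (β : Bi K A B Y) (S : Submodule K Y) (hl : ∀ a y, y ∈ S → β.l a y ∈ S)
    (hr : ∀ b y, y ∈ S → β.r b y ∈ S) (a : A) (y : S) :
    ((β.sub S hl hr).l a y : Y) = β.l a y := rfl
@[simp] theorem sub_r (β : Bi K A B Y) (S : Submodule K Y) (hl : ∀ a y, y ∈ S → β.l a y ∈ S)
    (hr : ∀ b y, y ∈ S → β.r b y ∈ S) (b : B) (y : S) :
    ((β.sub S hl hr).r b y : Y) = β.r b y := rfl

/-- the dual bimodule -/
def dual (β : Bi K A Bᵐᵒᵖ Y) : Bi K B Aᵐᵒᵖ (Y →ₗ[K] K) :=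
  ⟨trRep' β.r K, trRep β.l K, fun a b φ => by ext y; simp [β.comm]⟩

@[simp] theorem dual_l (β : Bi K A Bᵐᵒᵖ Y) : β.dual.l = trRep' β.r K := rfl
@[simp] theorem dual_r (β : Bi K A Bᵐᵒᵖ Y) : β.dual.r = trRep β.l K := rfl

/-- `Hom_K(Y₁, Y₂)` for right modules `Y₁`, `Y₂`. -/
def hom (ρ₁ : Aᵐᵒᵖ →ₐ[K] Module.End K Y₁) (ρ₂ : B →ₐ[K] Module.End K Y₂) :
    Bi K A B (Y₁ →ₗ[K] Y₂) :=
  ⟨trRep' ρ₁ Y₂, postRep ρ₂ Y₁, fun _ _ _ => rfl⟩

@[simp] theorem hom_l (ρ₁ : Aᵐᵒᵖ →ₐ[K] Module.End K Y₁) (ρ₂ : B →ₐ[K] Module.End K Y₂) :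
    (hom ρ₁ ρ₂).l = trRep' ρ₁ Y₂ := rfl
@[simp] theorem hom_r (ρ₁ : Aᵐᵒᵖ →ₐ[K] Module.End K Y₁) (ρ₂ : B →ₐ[K] Module.End K Y₂) :
    (hom ρ₁ ρ₂).r = postRep ρ₂ Y₁ := rfl

/-- the underlying left module -/
abbrev L (β : Bi K A B Y) : LM K A Y := LM.top β.l
/-- the underlying right module -/
abbrev R (β : Bi K A B Y) : LM K B Y := LM.top β.r

/-- the inner complex (the chains when `M'` is the transpose of some data) -/
abbrev inner (β : Bi K A B Y) (M' : MD Γ' B) : DG K (G' → Y) := M'.cx β.R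

theorem l_dl (β : Bi K A B Y) (M' : MD Γ' B) (a : A) (c : G' → Y) :
    M'.dl β.r (piRep β.l G' a c) = piRep β.l G' a (M'.dl β.r c) := by
  ext g
  simp [MD.dl_apply, β.comm]

theorem l_Co (β : Bi K A B Y) (M' : MD Γ' B) (n : ℤ) (a : A) (c : G' → Y)
    (hc : c ∈ (β.inner M').Co n) : piRep β.l G' a c ∈ (β.inner M').Co n := fun g =>
  ⟨fun h => by simp [(hc g).1 h], by
    have := (hc g).2.1
    simp only [LM.top_ρ, piRep_apply] at this ⊢
    rw [← β.comm, this], trivial⟩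

/-- terms of the inner complex as left modules -/
def Co (β : Bi K A B Y) (M' : MD Γ' B) (n : ℤ) : LM K A (G' → Y) :=
  ⟨piRep β.l G', (β.inner M').Co n, β.l_Co M' n⟩

/-- cocycles of the inner complex as left modules -/
def Z (β : Bi K A B Y) (M' : MD Γ' B) (n : ℤ) : LM K A (G' → Y) :=
  ⟨piRep β.l G', (β.inner M').Z n, fun a c hc => ⟨β.l_Co M' n a c hc.1, by
    show M'.dl β.r _ = 0
    rw [l_dl, show M'.dl β.r c = 0 from hc.2, map_zero]⟩⟩

/-- coboundaries of the inner complex as left modules -/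
def Bd (β : Bi K A B Y) (M' : MD Γ' B) (n : ℤ) : LM K A (G' → Y) :=
  ⟨piRep β.l G', (β.inner M').Bd n, by
    rintro a _ ⟨c, hc, rfl⟩
    exact ⟨_, β.l_Co M' _ a c hc, β.l_dl M' a c⟩⟩

@[simp] theorem Co_ρ (β : Bi K A B Y) (M' : MD Γ' B) (n : ℤ) : (β.Co M' n).ρ = piRep β.l G' := rfl
@[simp] theorem Z_ρ (β : Bi K A B Y) (M' : MD Γ' B) (n : ℤ) : (β.Z M' n).ρ = piRep β.l G' := rfl
@[simp] theorem Bd_ρ (β : Bi K A B Y) (M' : MD Γ' B) (n : ℤ) : (β.Bd M' n).ρ = piRep β.l G' := rfl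
theorem Co_W (β : Bi K A B Y) (M' : MD Γ' B) (n : ℤ) : (β.Co M' n).W = (β.inner M').Co n := rfl
theorem Z_W (β : Bi K A B Y) (M' : MD Γ' B) (n : ℤ) : (β.Z M' n).W = (β.inner M').Z n := rfl
theorem Bd_W (β : Bi K A B Y) (M' : MD Γ' B) (n : ℤ) : (β.Bd M' n).W = (β.inner M').Bd n := rfl

/-- bimodule maps -/
structure Hom (β₁ : Bi K A B Y₁) (β₂ : Bi K A B Y₂) (f : Y₁ →ₗ[K] Y₂) : Prop where
  l : ∀ a y, f (β₁.l a y) = β₂.l a (f y)
  r : ∀ b y, f (β₁.r b y) = β₂.r b (f y)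

theorem Hom.L {β₁ : Bi K A B Y₁} {β₂ : Bi K A B Y₂} {f : Y₁ →ₗ[K] Y₂} (h : Hom β₁ β₂ f) :
    LM.Hom β₁.L β₂.L f := ⟨fun _ _ => trivial, fun a y _ => h.l a y⟩

theorem Hom.R {β₁ : Bi K A B Y₁} {β₂ : Bi K A B Y₂} {f : Y₁ →ₗ[K] Y₂} (h : Hom β₁ β₂ f) :
    LM.Hom β₁.R β₂.R f := ⟨fun _ _ => trivial, fun a y _ => h.r a y⟩

/-- short exact sequences of bimodules -/
structure SES (β₁ : Bi K A B Y₁) (β₂ : Bi K A B Y₂) (β₃ : Bi K A B Y₃) (f : Y₁ →ₗ[K] Y₂)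
    (g : Y₂ →ₗ[K] Y₃) : Prop where
  hf : Hom β₁ β₂ f
  hg : Hom β₂ β₃ g
  inj : ∀ y, f y = 0 → y = 0
  comp : ∀ y, g (f y) = 0
  exact : ∀ y, g y = 0 → ∃ x, f x = y
  surj : ∀ y, ∃ x, g x = y

theorem SES.L {β₁ : Bi K A B Y₁} {β₂ : Bi K A B Y₂} {β₃ : Bi K A B Y₃} {f : Y₁ →ₗ[K] Y₂}
    {g : Y₂ →ₗ[K] Y₃} (S : SES β₁ β₂ β₃ f g) : LM.SES β₁.L β₂.L β₃.L f g :=
  ⟨S.hf.L, S.hg.L, fun y _ => S.inj y, fun y _ => S.comp y,
    fun y _ h => let ⟨x, hx⟩ := S.exact y h; ⟨x, trivial, hx⟩,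
    fun y _ => let ⟨x, hx⟩ := S.surj y; ⟨x, trivial, hx⟩⟩

theorem SES.R {β₁ : Bi K A B Y₁} {β₂ : Bi K A B Y₂} {β₃ : Bi K A B Y₃} {f : Y₁ →ₗ[K] Y₂}
    {g : Y₂ →ₗ[K] Y₃} (S : SES β₁ β₂ β₃ f g) : LM.SES β₁.R β₂.R β₃.R f g :=
  ⟨S.hf.R, S.hg.R, fun y _ => S.inj y, fun y _ => S.comp y,
    fun y _ h => let ⟨x, hx⟩ := S.exact y h; ⟨x, trivial, hx⟩,
    fun y _ => let ⟨x, hx⟩ := S.surj y; ⟨x, trivial, hx⟩⟩

theorem Hom.Z {β₁ : Bi K A B Y₁} {β₂ : Bi K A B Y₂} {f : Y₁ →ₗ[K] Y₂} (h : Hom β₁ β₂ f)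
    (M' : MD Γ' B) (n : ℤ) : LM.Hom (β₁.Z M' n) (β₂.Z M' n) (f.compLeft G') :=
  ⟨fun c hc => by simpa [Z_W] using (M'.cx_hom h.R).mem_Z hc,
    fun a c _ => funext fun g => h.l a (c g)⟩

/-- the short exact sequence of cycle modules -/
theorem SES.Z {β₁ : Bi K A B Y₁} {β₂ : Bi K A B Y₂} {β₃ : Bi K A B Y₃} {f : Y₁ →ₗ[K] Y₂}
    {g : Y₂ →ₗ[K] Y₃} (S : SES β₁ β₂ β₃ f g) (M' : MD Γ' B) (n : ℤ)
    (h : (β₁.inner M').Van (n + 1)) :
    LM.SES (β₁.Z M' n) (β₂.Z M' n) (β₃.Z M' n) (f.compLeft G') (g.compLeft G') := by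
  have T := M'.cx_ses S.R
  refine ⟨S.hf.Z M' n, S.hg.Z M' n, fun c hc => T.inj n c hc.1, fun c hc => T.comp n c hc.1,
    fun c hc h0 => ?_, fun c hc => ?_⟩
  · obtain ⟨a, ha, rfl⟩ := T.exact n c hc.1 h0
    refine ⟨a, ⟨ha, T.inj _ _ (DG.mem _ _ _ ha) ?_⟩, rfl⟩
    rw [T.f_comm _ _ ha]
    exact hc.2
  · obtain ⟨b, hb, a, ha, h1, h2⟩ := T.conn hc
    obtain ⟨c', hc', h3⟩ := T.ex₃ hb h2 (h _ ha)
    exact ⟨c', hc', h3.trans h1⟩

theorem ses_Z_Co_Bd (β : Bi K A B Y) (M' : MD Γ' B) (n : ℤ) :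
    LM.SES (β.Z M' n) (β.Co M' n) (β.Bd M' (n + 1)) LinearMap.id (M'.dl β.r) :=
  ⟨⟨fun _ hc => hc.1, fun _ _ _ => rfl⟩,
    ⟨fun _ hc => (β.inner M').δ_mem_Bd hc, fun a c _ => β.l_dl M' a c⟩,
    fun _ _ h => h, fun _ hc => hc.2, fun c hc h => ⟨c, ⟨hc, h⟩, rfl⟩, by
      rintro _ ⟨c, hc, rfl⟩
      exact ⟨c, by rwa [add_sub_cancel_right] at hc, rfl⟩⟩

theorem van_Co (β : Bi K A B Y) (M : MD Γ A) (M' : MD Γ' B) (n : ℤ) {j : ℤ}
    (h : (M.cx β.L).Van j) : (M.cx (β.Co M' n)).Van j := by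
  intro c hc
  have h1 : ∀ g', (fun g => c g g') ∈ (M.cx β.L).Z j := by
    intro g'
    refine ⟨fun g => ⟨fun h => by simp [(hc.1 g).1 h], congrFun (hc.1 g).2.1 g', trivial⟩, ?_⟩
    ext g
    have := congrFun (congrFun hc.2 g) g'
    simpa [MD.δ_apply, Finset.sum_apply] using this
  choose b hb1 hb2 using fun g' => h _ (h1 g')
  refine ⟨fun g => M'.pr β.r n (fun g' => b g' g), fun g => ⟨fun h => ?_, ?_, ?_⟩, ?_⟩
  · have : (fun g' => b g' g) = 0 := funext fun g' => (hb1 g' g).1 h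
    simp only [this, map_zero]
  · ext g'
    by_cases hg' : Γ'.deg g' = n
    · simp only [Co_ρ, piRep_apply, MD.pr_pos _ _ _ hg', β.comm]
      exact congrArg _ (hb1 g' g).2.1
    · simp [MD.pr_neg _ _ _ hg']
  · exact M'.pr_mem β.R n fun _ _ => trivial
  · ext g g'
    by_cases hg' : Γ'.deg g' = n
    · have h2 := congrFun (hb2 g') g
      have h3 := ((hc.1 g).2.2 g').2.1
      simp only [MD.δ_apply, LM.top_ρ] at h2 h3
      simp only [MD.δ_apply, Co_ρ, Finset.sum_apply, piRep_apply, MD.pr_pos _ _ _ hg', β.comm]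
      rw [← map_sum, h2, h3]
    · simp [MD.δ_apply, Finset.sum_apply, MD.pr_neg _ _ _ hg', ((hc.1 g).2.2 g').1 hg']

theorem rel_Bd_iff (β : Bi K A B Y) (M : MD Γ A) (M' : MD Γ' B) (h : (M.cx β.L).Acyc) (n j : ℤ)
    (r : ℕ) : (M.cx (β.Bd M' (n + 1))).Rel j r ↔ (M.cx (β.Z M' n)).Rel (j + 1) r :=
  (M.cx_ses (β.ses_Z_Co_Bd M' n)).shift fun _ => β.van_Co M M' n (h _)

theorem rel_Z_succ (β : Bi K A B Y) (M : MD Γ A) (M' : MD Γ' B) (h : (M.cx β.L).Acyc) {n : ℤ}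
    (h' : (β.inner M').Van (n + 1)) (j : ℤ) (r : ℕ) :
    (M.cx (β.Z M' (n + 1))).Rel j r ↔ (M.cx (β.Z M' n)).Rel (j + 1) r := by
  rw [← β.rel_Bd_iff M M' h]
  exact M.rel_of_eq (N₁ := β.Z M' (n + 1)) (N₂ := β.Bd M' (n + 1)) rfl h'.Z_eq

/-- dimension shifting downwards -/
theorem rel_Z_sub (β : Bi K A B Y) (M : MD Γ A) (M' : MD Γ' B) (h : (M.cx β.L).Acyc) (n : ℤ)
    (h' : ∀ m, m ≤ n → (β.inner M').Van m) (k : ℕ) (j : ℤ) (r : ℕ) :
    (M.cx (β.Z M' n)).Rel j r ↔ (M.cx (β.Z M' (n - k))).Rel (j + k) r := by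
  induction k with
  | zero => simp
  | succ k ih =>
    rw [ih]
    have := β.rel_Z_succ M M' h (n := n - (k + 1 : ℕ)) (h' _ (by push_cast; omega)) (j + k) r
    rw [show n - ((k + 1 : ℕ) : ℤ) + 1 = n - k by push_cast; ring,
      show j + k + 1 = j + ((k + 1 : ℕ) : ℤ) by push_cast; ring] at this
    exact this

/-- dimension shifting -/
theorem rel_Z_shift (β : Bi K A B Y) (M : MD Γ A) (M' : MD Γ' B) (h : (M.cx β.L).Acyc)
    (h' : (β.inner M').Acyc) {n j n' j' : ℤ} (hn : n + j = n' + j') (r : ℕ) :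
    (M.cx (β.Z M' n)).Rel j r ↔ (M.cx (β.Z M' n')).Rel j' r := by
  rcases le_total n n' with h1 | h1
  · obtain ⟨k, hk⟩ := Int.eq_ofNat_of_zero_le (sub_nonneg.2 h1)
    rw [β.rel_Z_sub M M' h n' (fun m _ => h' m) k, show n' - k = n by omega,
      show j' + k = j by omega]
  · obtain ⟨k, hk⟩ := Int.eq_ofNat_of_zero_le (sub_nonneg.2 h1)
    rw [β.rel_Z_sub M M' h n (fun m _ => h' m) k, show n - k = n' by omega,
      show j + k = j' by omega]

end Bi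

/-- The trivial extension of `A` by a bimodule. -/
def TE (_β : Bi K A Aᵐᵒᵖ Y) : Type _ := A × Y

namespace TE

variable {β : Bi K A Aᵐᵒᵖ Y}

instance : AddCommGroup (TE β) := inferInstanceAs (AddCommGroup (A × Y))
instance : Module K (TE β) := inferInstanceAs (Module K (A × Y))

/-- constructor -/
def mk (β : Bi K A Aᵐᵒᵖ Y) (a : A) (y : Y) : TE β := (a, y)
/-- first component -/
def fst (x : TE β) : A := Prod.fst x
/-- second component -/
def snd (x : TE β) : Y := Prod.snd x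

@[simp] theorem fst_mk (a : A) (y : Y) : (mk β a y).fst = a := rfl
@[simp] theorem snd_mk (a : A) (y : Y) : (mk β a y).snd = y := rfl
@[ext] theorem ext {x x' : TE β} (h1 : x.fst = x'.fst) (h2 : x.snd = x'.snd) : x = x' :=
  Prod.ext h1 h2
@[simp] theorem fst_add (x x' : TE β) : (x + x').fst = x.fst + x'.fst := rfl
@[simp] theorem snd_add (x x' : TE β) : (x + x').snd = x.snd + x'.snd := rfl
@[simp] theorem fst_sub (x x' : TE β) : (x - x').fst = x.fst - x'.fst := rfl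
@[simp] theorem snd_sub (x x' : TE β) : (x - x').snd = x.snd - x'.snd := rfl
@[simp] theorem fst_zero : (0 : TE β).fst = 0 := rfl
@[simp] theorem snd_zero : (0 : TE β).snd = 0 := rfl
@[simp] theorem fst_smul (t : K) (x : TE β) : (t • x).fst = t • x.fst := rfl
@[simp] theorem snd_smul (t : K) (x : TE β) : (t • x).snd = t • x.snd := rfl

instance : Mul (TE β) :=
  ⟨fun x x' => mk β (x.fst * x'.fst) (β.l x.fst x'.snd + β.r (op x'.fst) x.snd)⟩
instance : One (TE β) := ⟨mk β 1 0⟩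

@[simp] theorem fst_mul (x x' : TE β) : (x * x').fst = x.fst * x'.fst := rfl
@[simp] theorem snd_mul (x x' : TE β) :
    (x * x').snd = β.l x.fst x'.snd + β.r (op x'.fst) x.snd := rfl
@[simp] theorem fst_one : (1 : TE β).fst = 1 := rfl
@[simp] theorem snd_one : (1 : TE β).snd = 0 := rfl

instance : Ring (TE β) where
  __ := (inferInstance : AddCommGroup (TE β))
  mul_assoc x y z := by
    ext
    · simp [mul_assoc]
    · simp [β.comm, add_assoc]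
  one_mul x := by ext <;> simp
  mul_one x := by ext <;> simp
  zero_mul x := by ext <;> simp
  mul_zero x := by ext <;> simp
  left_distrib x y z := by
    ext
    · simp [mul_add]
    · simp only [snd_mul, snd_add, fst_add, map_add, op_add, LinearMap.add_apply]; abel
  right_distrib x y z := by
    ext
    · simp [add_mul]
    · simp only [snd_mul, snd_add, fst_add, map_add, LinearMap.add_apply]; abel

instance : Algebra K (TE β) :=
  Algebra.ofModule (fun t x y => by ext <;> simp) (fun t x y => by ext <;> simp)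

/-- the linear identification with the product -/
def equiv (β : Bi K A Aᵐᵒᵖ Y) : TE β ≃ₗ[K] A × Y := LinearEquiv.refl K (A × Y)

instance [FiniteDimensional K A] [FiniteDimensional K Y] : FiniteDimensional K (TE β) :=
  inferInstanceAs (FiniteDimensional K (A × Y))

/-- first projection, linear -/
def fstL (β : Bi K A Aᵐᵒᵖ Y) : TE β →ₗ[K] A := LinearMap.fst K A Y
/-- second projection, linear -/
def sndL (β : Bi K A Aᵐᵒᵖ Y) : TE β →ₗ[K] Y := LinearMap.snd K A Y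
/-- inclusion of the bimodule -/
def inr (β : Bi K A Aᵐᵒᵖ Y) : Y →ₗ[K] TE β := LinearMap.inr K A Y
/-- inclusion of the ring, linear -/
def inlL (β : Bi K A Aᵐᵒᵖ Y) : A →ₗ[K] TE β := LinearMap.inl K A Y

@[simp] theorem fstL_apply (x : TE β) : fstL β x = x.fst := rfl
@[simp] theorem sndL_apply (x : TE β) : sndL β x = x.snd := rfl
@[simp] theorem fst_inr (y : Y) : (inr β y).fst = 0 := rfl
@[simp] theorem snd_inr (y : Y) : (inr β y).snd = y := rfl
@[simp] theorem fst_inlL (a : A) : (inlL β a).fst = a := rfl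
@[simp] theorem snd_inlL (a : A) : (inlL β a).snd = 0 := rfl

@[simp] theorem fst_sum {ι : Type*} (s : Finset ι) (f : ι → TE β) :
    (∑ i ∈ s, f i).fst = ∑ i ∈ s, (f i).fst := map_sum (fstL β) f s
@[simp] theorem snd_sum {ι : Type*} (s : Finset ι) (f : ι → TE β) :
    (∑ i ∈ s, f i).snd = ∑ i ∈ s, (f i).snd := map_sum (sndL β) f s

/-- projection to the base ring -/
def fstA (β : Bi K A Aᵐᵒᵖ Y) : TE β →ₐ[K] A := AlgHom.ofLinearMap (fstL β) rfl fun _ _ => rfl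
/-- inclusion of the base ring -/
def inl (β : Bi K A Aᵐᵒᵖ Y) : A →ₐ[K] TE β :=
  AlgHom.ofLinearMap (inlL β) rfl fun _ _ => by ext <;> simp

@[simp] theorem fstA_apply (x : TE β) : fstA β x = x.fst := rfl
@[simp] theorem fst_inl (a : A) : (inl β a).fst = a := rfl
@[simp] theorem snd_inl (a : A) : (inl β a).snd = 0 := rfl

/-- functoriality -/
def map {β₁ : Bi K A Aᵐᵒᵖ Y₁} {β₂ : Bi K A Aᵐᵒᵖ Y₂} {f : Y₁ →ₗ[K] Y₂} (h : Bi.Hom β₁ β₂ f) :
    TE β₁ →ₐ[K] TE β₂ :=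
  AlgHom.ofLinearMap (inlL β₂ ∘ₗ fstL β₁ + inr β₂ ∘ₗ f ∘ₗ sndL β₁) (by ext <;> simp)
    fun _ _ => by ext <;> simp [h.l, h.r]

@[simp] theorem fst_map {β₁ : Bi K A Aᵐᵒᵖ Y₁} {β₂ : Bi K A Aᵐᵒᵖ Y₂} {f : Y₁ →ₗ[K] Y₂}
    (h : Bi.Hom β₁ β₂ f) (x : TE β₁) : (map h x).fst = x.fst := by simp [map]
@[simp] theorem snd_map {β₁ : Bi K A Aᵐᵒᵖ Y₁} {β₂ : Bi K A Aᵐᵒᵖ Y₂} {f : Y₁ →ₗ[K] Y₂}
    (h : Bi.Hom β₁ β₂ f) (x : TE β₁) : (map h x).snd = f x.snd := by simp [map]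

end TE

end Crest.Agent.R186
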