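import Crest.Agent.R186.Setup

/-!
Complexes indexed by `ℕ` with one generator in each degree.
-/

set_option autoImplicit false

namespace Crest.Agent.R186

variable {K Y : Type*} [Field K] [AddCommGroup Y] [Module K Y]

/-- generator `i` in degree `i` -/
def GD.up : GD ℕ where
  deg i := i
  fib n := if 0 ≤ n then {n.toNat} else ∅
  mem_fib g n := by
    split_ifs with h
    · simp only [Finset.mem_singleton]
      omega
    · simp only [Finset.notMem_empty, false_iff]
      omega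

/-- generator `i` in degree `-i` -/
def GD.down : GD ℕ := GD.up.op

@[simp] theorem GD.up_deg (i : ℕ) : GD.up.deg i = i := rfl
@[simp] theorem GD.down_deg (i : ℕ) : GD.down.deg i = -(i : ℤ) := rfl

theorem GD.fib_eq_singleton {G : Type*} (Γ : GD G) {n : ℤ} {g : G} (hg : Γ.deg g = n)
    (h : ∀ g', Γ.deg g' = n → g' = g) : Γ.fib n = {g} := by
  ext g'
  rw [Γ.mem_fib, Finset.mem_singleton]
  exact ⟨h g', fun h' => h' ▸ hg⟩

theorem GD.fib_eq_empty {G : Type*} (Γ : GD G) {n : ℤ} (h : ∀ g', Γ.deg g' ≠ n) :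
    Γ.fib n = ∅ := by
  ext g'
  rw [Γ.mem_fib]
  simpa using h g'

theorem GD.up_fib {n : ℤ} (g : ℕ) (h : (g : ℤ) = n) : GD.up.fib n = {g} :=
  GD.up.fib_eq_singleton h fun g' h' => by rw [GD.up_deg] at h'; omega

theorem GD.up_fib_neg {n : ℤ} (h : n < 0) : GD.up.fib n = ∅ :=
  GD.up.fib_eq_empty fun g' => by rw [GD.up_deg]; omega

theorem GD.down_fib {n : ℤ} (g : ℕ) (h : -(g : ℤ) = n) : GD.down.fib n = {g} :=
  GD.down.fib_eq_singleton h fun g' h' => by rw [GD.down_deg] at h'; omega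

theorem GD.down_fib_pos {n : ℤ} (h : 0 < n) : GD.down.fib n = ∅ :=
  GD.down.fib_eq_empty fun g' => by rw [GD.down_deg]; omega

/-- ascending complexes with cohomology in degree `d + 1` -/
theorem one_up (inst : DecidableEq ℕ) (A : DG K (ℕ → Y)) (S : ℕ → Y → Prop)
    (S0 : ∀ g, S g 0) (φ : ℕ → Y →ₗ[K] Y)
    (hCo : ∀ n c, c ∈ A.Co n ↔ ∀ g : ℕ, ((g : ℤ) ≠ n → c g = 0) ∧ S g (c g))
    (hδ0 : ∀ c, A.δ c 0 = 0) (hδ : ∀ c g, A.δ c (g + 1) = φ g (c g))
    (d : ℕ) (z : Y) (π : Y →ₗ[K] K) (hz : S (d + 1) z) (hz' : φ (d + 1) z = 0) (hπ : π z = 1)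
    (hπ' : ∀ y, π (φ d y) = 0) (h0 : ∀ y, S 0 y → φ 0 y = 0 → y = 0)
    (h1 : ∀ g y, S (g + 1) y → φ (g + 1) y = 0 → (g = d → π y = 0) → ∃ u, S g u ∧ φ g u = y) :
    A.One ((d + 1 : ℕ) : ℤ) (@Pi.single ℕ (fun _ => Y) _ inst (d + 1) z)
      (π ∘ₗ LinearMap.proj (d + 1)) := by
  have single_mem : ∀ (g : ℕ) (u : Y), S g u →
      @Pi.single ℕ (fun _ => Y) _ inst g u ∈ A.Co g := by
    intro g u hu
    rw [hCo]
    intro g'
    by_cases hg : g' = g
    · subst hg
      simpa using hu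
    · simp [hg, S0]
  refine ⟨⟨single_mem _ _ hz, ?_⟩, by simpa using hπ, fun n c hc hn => ?_, fun n c _ => ?_,
    fun n c hc hp => ?_⟩
  · show A.δ _ = 0
    funext g
    cases g with
    | zero => exact hδ0 _
    | succ g =>
      rw [hδ]
      by_cases hg : g = d + 1
      · subst hg
        simpa using hz'
      · simp [hg]
  · have := ((hCo n c).1 hc (d + 1)).1 (fun h => hn h.symm)
    simp [this]
  · simp [hδ, hπ']
  · have hc1 := (hCo n c).1 hc.1
    have hc2 : ∀ g, φ g (c g) = 0 := fun g => by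
      rw [← hδ, show A.δ c = 0 from hc.2]
      rfl
    by_cases hn : n ≤ 0
    · have : c = 0 := by
        funext g
        cases g with
        | zero => exact h0 _ (hc1 0).2 (hc2 0)
        | succ g => exact (hc1 _).1 (by omega)
      rw [this]
      exact Submodule.zero_mem _
    · obtain ⟨g, rfl⟩ : ∃ g : ℕ, n = ((g + 1 : ℕ) : ℤ) := ⟨(n - 1).toNat, by omega⟩
      obtain ⟨u, hu, hu'⟩ := h1 g _ (hc1 (g + 1)).2 (hc2 _) (by
        rintro rfl
        simpa using hp)
      refine ⟨@Pi.single ℕ (fun _ => Y) _ inst g u, ?_, ?_⟩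
      · rw [show ((g + 1 : ℕ) : ℤ) - 1 = g by omega]
        exact single_mem g u hu
      · funext g'
        cases g' with
        | zero => rw [hδ0, (hc1 0).1 (by omega)]
        | succ g' =>
          rw [hδ]
          by_cases hg : g' = g
          · subst hg
            simpa using hu'
          · rw [(hc1 _).1 (by omega)]
            simp [hg]

/-- descending complexes with cohomology in degree `0` -/
theorem one_down (inst : DecidableEq ℕ) (A : DG K (ℕ → Y)) (S : ℕ → Y → Prop)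
    (S0 : ∀ g, S g 0) (φ : ℕ → Y →ₗ[K] Y)
    (hCo : ∀ n c, c ∈ A.Co n ↔ ∀ g : ℕ, (-(g : ℤ) ≠ n → c g = 0) ∧ S g (c g))
    (hδ : ∀ c g, A.δ c g = φ g (c (g + 1)))
    (z : Y) (π : Y →ₗ[K] K) (hz : S 0 z) (hπ : π z = 1)
    (hπ' : ∀ y, π (φ 0 y) = 0) (h0 : ∀ y, S 0 y → π y = 0 → ∃ u, S 1 u ∧ φ 0 u = y)
    (h1 : ∀ g y, S (g + 1) y → φ g y = 0 → ∃ u, S (g + 2) u ∧ φ (g + 1) u = y) :
    A.One 0 (@Pi.single ℕ (fun _ => Y) _ inst 0 z) (π ∘ₗ LinearMap.proj 0) := by
  have single_mem : ∀ (g : ℕ) (u : Y), S g u →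
      @Pi.single ℕ (fun _ => Y) _ inst g u ∈ A.Co (-(g : ℤ)) := by
    intro g u hu
    rw [hCo]
    intro g'
    by_cases hg : g' = g
    · subst hg
      simpa using hu
    · simp [hg, S0]
  refine ⟨⟨by simpa using single_mem _ _ hz, ?_⟩, by simpa using hπ, fun n c hc hn => ?_,
    fun n c _ => ?_, fun n c hc hp => ?_⟩
  · show A.δ _ = 0
    funext g
    simp [hδ]
  · have := ((hCo n c).1 hc 0).1 (fun h => hn (by simpa using h.symm))
    simp [this]
  · simp [hδ, hπ']
  · have hc1 := (hCo n c).1 hc.1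
    have hc2 : ∀ g, φ g (c (g + 1)) = 0 := fun g => by
      rw [← hδ, show A.δ c = 0 from hc.2]
      rfl
    by_cases hn : 0 < n
    · have : c = 0 := funext fun g => (hc1 _).1 (by omega)
      rw [this]
      exact Submodule.zero_mem _
    · obtain ⟨g, rfl⟩ : ∃ g : ℕ, n = -(g : ℤ) := ⟨(-n).toNat, by omega⟩
      obtain ⟨u, hu, hu'⟩ : ∃ u, S (g + 1) u ∧ φ g u = c g := by
        cases g with
        | zero => exact h0 _ (hc1 0).2 (by simpa using hp)
        | succ g => exact h1 g _ (hc1 _).2 (hc2 g)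
      refine ⟨@Pi.single ℕ (fun _ => Y) _ inst (g + 1) u, ?_, ?_⟩
      · rw [show -(g : ℤ) - 1 = -((g + 1 : ℕ) : ℤ) by omega]
        exact single_mem _ u hu
      · funext g'
        rw [hδ]
        by_cases hg : g' = g
        · subst hg
          simpa using hu'
        · rw [(hc1 g').1 (by omega)]
          simp [hg]

end Crest.Agent.R186
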