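import Crest.Agent.R186.CAlgEx
import Crest.Agent.R186.CAlgOne

/-!
The data `SD` for the ten-dimensional algebra `C`.
-/

set_option autoImplicit false

namespace Crest.Agent.R186

universe u

namespace CA

variable {K : Type u} [Field K] {q : K}

/-- the idempotents -/
def idem (q : K) : ℕ → CA K q
  | 0 => eS q
  | _ + 1 => eE q

/-- the differentials of `P` -/
def dP (q : K) : ℕ → CA K q
  | 0 => eA q
  | i + 1 => w q (q ^ (i + 1))

/-- the differentials of `Q` -/
def dQ (q : K) : ℕ → CA K q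
  | 0 => eB q
  | j + 1 => w q (q ^ (j + 1))⁻¹

theorem idem_idem (g : ℕ) : idem q g * idem q g = idem q g := by
  cases g <;> ext <;> simp [idem, eS, eE]

theorem dP_dP (g : ℕ) : dP q (g + 1) * dP q g = 0 := by
  cases g with
  | zero => ext <;> simp [dP, w, eA]
  | succ g =>
    simp only [dP]
    rw [pow_succ' q (g + 1)]
    exact w_mul_w _

theorem dQ_dQ (hq : q ≠ 0) (g : ℕ) : dQ q g * dQ q (g + 1) = 0 := by
  cases g with
  | zero => ext <;> simp [dQ, w, eB, hq]
  | succ g =>
    simp only [dQ]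
    rw [show (q ^ (g + 1))⁻¹ = q * (q ^ (g + 1 + 1))⁻¹ by field_simp; ring]
    exact w_mul_w _

/-- the resolution `P` -/
def mdP (q : K) : MD GD.up (CA K q) where
  e := idem q
  D g g' := if g = g' + 1 then dP q g' else 0
  ee := idem_idem
  eD g g' := by
    split_ifs with h
    · subst h
      cases g' <;> ext <;> simp [idem, dP, eE, eA, w]
    · simp
  De g g' := by
    split_ifs with h
    · cases g' <;> ext <;> simp [idem, dP, eE, eS, eA, w]
    · simp
  sq g g'' h := by
    simp only [GD.up_deg] at h ⊢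
    rw [GD.up_fib (g'' + 1) (by omega), Finset.sum_singleton, if_pos (by omega), if_pos rfl,
      dP_dP]

/-- the complex `Q` -/
def mdQ (hq : q ≠ 0) : MD GD.down (CA K q) where
  e := idem q
  D g g' := if g' = g + 1 then dQ q g else 0
  ee := idem_idem
  eD g g' := by
    split_ifs with h
    · cases g <;> ext <;> simp [idem, dQ, eE, eS, eB, w]
    · simp
  De g g' := by
    split_ifs with h
    · subst h
      cases g <;> ext <;> simp [idem, dQ, eE, eB, w]
    · simp
  sq g g'' h := by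
    simp only [GD.down_deg] at h ⊢
    rw [GD.down_fib (g + 1) (by omega), Finset.sum_singleton, if_pos rfl, if_pos (by omega),
      dQ_dQ hq]

/-- the comparison map -/
def al (q : K) (g g' : ℕ) : CA K q :=
  if g = 0 ∧ g' = 2 then eB' q else if g = 1 ∧ g' = 1 then eY q else
    if g = 2 ∧ g' = 0 then eA' q else 0

/-- the `b'` coordinate -/
def piQ (q : K) : CA K q →ₗ[K] K where
  toFun u := u.b'
  map_add' _ _ := rfl
  map_smul' _ _ := rfl

/-- the normalised `a'` coordinate -/
def piP (q : K) : CA K q →ₗ[K] K where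
  toFun u := (-q)⁻¹ * u.a'
  map_add' _ _ := by simp [mul_add]
  map_smul' _ _ := by simp [mul_left_comm]

section
variable (hq : q ≠ 0) (hq' : ∀ n : ℤ, n ≠ 0 → q ^ n ≠ 1)
include hq'

theorem pow_ne_one' (n : ℕ) : q ^ (n + 1) ≠ 1 := by
  have := hq' ((n + 1 : ℕ) : ℤ) (by omega)
  rwa [zpow_natCast] at this

theorem ne_one' : q ≠ 1 := by simpa using pow_ne_one' hq' 0

theorem pch (inst : DecidableEq ℕ) : ((mdP q).op.cx (Bi.reg K (CA K q)).R).One 0
    (@Pi.single ℕ (fun _ => CA K q) _ inst 0 (eS q))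
    ((chS K q).toLinearMap ∘ₗ LinearMap.proj 0) := by
  refine one_down inst _ (fun g u => u * idem q g = u) (fun _ => zero_mul _)
    (fun g => LinearMap.mulRight K (dP q g)) (fun n c => ?_) (fun c g => ?_) _ _ (idem_idem 0) rfl
    (fun y => by simp [dP, eA]) (fun y hy h => surj_mul_eA (ne_one' hq') hy h) fun g y hy h => ?_
  · simp [MD.mem_Co, mdP]
  · rw [MD.op_δ_apply, GD.up_fib (g + 1) (by simp)]
    simp [mdP]
  · cases g with
    | zero =>
      obtain ⟨h1, h2, h3⟩ := ker_mul_eA (ne_one' hq') hy h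
      refine surj_mul_w hy h1 (by simpa using h2) h3 fun h4 => ?_
      exact (pow_ne_one' hq' 1 (by rw [← h4]; ring)).elim
    | succ g =>
      obtain ⟨h1, h2, h3⟩ := ker_mul_w h
      refine surj_mul_w hy h1 (by rw [h2]; ring) ?_ fun h4 => ?_
      · refine (mul_eq_zero.1 h3).resolve_left fun h5 => pow_ne_one' hq' (g + 1) ?_
        linear_combination -h5
      · exact (pow_ne_one' hq' (g + 2) (by rw [← h4]; ring)).elim

include hq

theorem qco (inst : DecidableEq ℕ) : ((mdQ hq).cx (Bi.reg K (CA K q)).L).One 0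
    (@Pi.single ℕ (fun _ => CA K q) _ inst 0 (eS q))
    ((chS K q).toLinearMap ∘ₗ LinearMap.proj 0) := by
  have key : ∀ n : ℕ, (q ^ (n + 1))⁻¹ ≠ q := fun n h => pow_ne_one' hq' (n + 1) (by
    have h1 : q ^ (n + 1) ≠ 0 := pow_ne_zero _ hq
    rw [pow_succ]
    exact (congrArg (q ^ (n + 1) * ·) h).symm.trans (mul_inv_cancel₀ h1))
  refine one_down inst _ (fun g u => idem q g * u = u) (fun _ => mul_zero _)
    (fun g => LinearMap.mulLeft K (dQ q g)) (fun n c => ?_) (fun c g => ?_) _ _ (idem_idem 0) rfl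
    (fun y => by simp [dQ, eB]) (fun y hy h => surj_eB_mul (ne_one' hq') hy h) fun g y hy h => ?_
  · simp [MD.mem_Co, mdQ]
  · rw [MD.δ_apply, GD.down_fib (g + 1) (by simp; ring)]
    simp [mdQ]
  · cases g with
    | zero =>
      obtain ⟨h1, h2, h3⟩ := ker_eB_mul (ne_one' hq') h
      exact surj_w_mul hq hy h1 (by rw [h2]; field_simp; ring) h3 fun h4 => (key _ h4).elim
    | succ g =>
      obtain ⟨h1, h2, h3⟩ := ker_w_mul h
      refine surj_w_mul hq hy h1 ?_ ?_ fun h4 => (key _ h4).elim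
      · apply mul_left_cancel₀ hq
        rw [← h2]
        field_simp
        ring
      · exact (mul_eq_zero.1 h3).resolve_left (sub_ne_zero.2 (key g))

theorem qch (inst : DecidableEq ℕ) : ((mdQ hq).op.cx (Bi.reg K (CA K q)).R).One 2
    (@Pi.single ℕ (fun _ => CA K q) _ inst 2 (eB' q)) (piQ q ∘ₗ LinearMap.proj 2) := by
  have key : ∀ n : ℕ, q * (q ^ (n + 1 + 1))⁻¹ ≠ 1 := fun n h => pow_ne_one' hq' n (by
    have h1 : q ^ (n + 1) ≠ 0 := pow_ne_zero _ hq
    field_simp at h
    apply mul_right_cancel₀ hq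
    rw [← pow_succ, ← h, one_mul])
  refine one_up inst _ (fun g u => u * idem q g = u) (fun _ => zero_mul _)
    (fun g => LinearMap.mulRight K (dQ q g)) (fun n c => ?_) (fun c => ?_) (fun c g => ?_) 1 _ _
    ?_ ?_ rfl (fun y => ?_) (fun y hy h => inj_mul_eB hy h) fun g y hy h hπ => ?_
  · simp [MD.mem_Co, mdQ]
  · rw [MD.op_δ_apply, GD.down_fib_pos (by simp)]
    simp
  · rw [MD.op_δ_apply, GD.down_fib g (by simp)]
    simp [mdQ]
  · ext <;> simp [idem, eB', eE]
  · ext <;> simp [dQ, eB', w]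
  · simp [piQ, dQ, w]
    field_simp
    ring
  · obtain ⟨h1, h2, h3⟩ := ker_mul_w h
    cases g with
    | zero => exact surj_mul_eB hy h1 (by rw [h2]; field_simp; ring)
    | succ g =>
      refine surj_mul_w hy h1 (by rw [h2]; field_simp; ring) ?_ fun h4 => ?_
      · exact (mul_eq_zero.1 h3).resolve_left (sub_ne_zero.2 (key g).symm)
      · cases g with
        | zero => exact hπ rfl
        | succ g => exact (key g h4).elim

theorem pco (inst : DecidableEq ℕ) : ((mdP q).cx (Bi.reg K (CA K q)).L).One 2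
    (@Pi.single ℕ (fun _ => CA K q) _ inst 2 (eA' q)) (piP q ∘ₗ LinearMap.proj 2) := by
  have key : ∀ n : ℕ, q ^ (n + 1 + 1) ≠ q := fun n h => pow_ne_one' hq' n (by
    apply mul_right_cancel₀ hq
    rw [← pow_succ, h, one_mul])
  refine one_up inst _ (fun g u => idem q g * u = u) (fun _ => mul_zero _)
    (fun g => LinearMap.mulLeft K (dP q g)) (fun n c => ?_) (fun c => ?_) (fun c g => ?_) 1 _ _
    ?_ ?_ ?_ (fun y => ?_) (fun y hy h => inj_eA_mul hy h) fun g y hy h hπ => ?_
  · simp [MD.mem_Co, mdP]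
  · rw [MD.δ_apply, GD.up_fib_neg (by simp)]
    simp
  · rw [MD.δ_apply, GD.up_fib g (by simp)]
    simp [mdP]
  · ext <;> simp [idem, eA', eE]
  · ext <;> simp [dP, eA', w]
  · simp [piP, eA', hq]
  · simp [piP, dP, w]
  · obtain ⟨h1, h2, h3⟩ := ker_w_mul h
    cases g with
    | zero => exact surj_eA_mul hy h1 (mul_left_cancel₀ hq (by rw [← h2]; ring))
    | succ g =>
      refine surj_w_mul hq hy h1 (mul_left_cancel₀ hq (by rw [← h2]; ring)) ?_ fun h4 => ?_
      · exact (mul_eq_zero.1 h3).resolve_left (sub_ne_zero.2 (key g))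
      · cases g with
        | zero => simpa [piP, hq] using hπ rfl
        | succ g => exact (key g h4).elim

end

/-- the data for the simple module at the vertex `s` -/
noncomputable def sd (hq : q ≠ 0) (hq' : ∀ n : ℤ, n ≠ 0 → q ^ n ≠ 1) :
    SD K (CA K q) GD.up GD.down where
  P := mdP q
  Q := mdQ hq
  d := 2
  α := al q
  χ := chS K q
  p₀ := 0
  p₁ := 2
  q₀ := 0
  q₁ := 2
  πP := piP q
  πQ := piQ q
  degP g := by simp
  degQ g := by simp
  deg_p₀ := rfl
  deg_q₀ := rfl
  deg_p₁ := rfl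
  deg_q₁ := rfl
  eα g g' := by
    unfold al
    split_ifs with h1 h2 h3
    · obtain ⟨rfl, rfl⟩ := h1
      ext <;> simp [mdP, idem, eS, eB']
    · obtain ⟨rfl, rfl⟩ := h2
      ext <;> simp [mdP, idem, eE, eY]
    · obtain ⟨rfl, rfl⟩ := h3
      ext <;> simp [mdP, idem, eE, eA']
    · simp
  αe g g' := by
    unfold al
    split_ifs with h1 h2 h3
    · obtain ⟨rfl, rfl⟩ := h1
      ext <;> simp [mdQ, idem, eE, eB']
    · obtain ⟨rfl, rfl⟩ := h2
      ext <;> simp [mdQ, idem, eE, eY]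
    · obtain ⟨rfl, rfl⟩ := h3
      ext <;> simp [mdQ, idem, eS, eA']
    · simp
  α_deg g g' h := by
    simp only [GD.up_deg, GD.down_deg] at h
    unfold al
    rw [if_neg (by omega), if_neg (by omega), if_neg (by omega)]
  α_chain g g'' h := by
    simp only [GD.up_deg, GD.down_deg] at h ⊢
    have : (g = 0 ∧ g'' = 3) ∨ (g = 1 ∧ g'' = 2) ∨ (g = 2 ∧ g'' = 1) ∨ (g = 3 ∧ g'' = 0) := by omega
    rcases this with ⟨rfl, rfl⟩ | ⟨rfl, rfl⟩ | ⟨rfl, rfl⟩ | ⟨rfl, rfl⟩
    · rw [GD.up_fib_neg (by simp), GD.down_fib 2 (by simp)]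
      ext <;> simp [mdQ, al, dQ, eB', w]
    · rw [GD.up_fib 0 (by simp), GD.down_fib 1 (by simp)]
      ext <;> simp [mdP, mdQ, al, dP, dQ, eB', eA, eY, w]
    · rw [GD.up_fib 1 (by simp), GD.down_fib 0 (by simp)]
      ext <;> simp [mdP, mdQ, al, dP, dQ, eB, eA', eY, w]
    · rw [GD.up_fib 2 (by simp), GD.down_fib_pos (by simp)]
      ext <;> simp [mdP, al, dP, eA', w]
  α_p₀ g' h := by simp [al, h]
  α_q₀ g h := by simp [al, h]
  χP g g' := by
    simp only [mdP]
    split_ifs
    · cases g' <;> rfl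
    · rfl
  χQ g g' := by
    simp only [mdQ]
    split_ifs
    · cases g <;> rfl
    · rfl
  χα g g' := by
    unfold al
    split_ifs <;> rfl
  χ_p₀ := rfl
  χ_q₀ := rfl
  χ_eP g h := by
    cases g with
    | zero => exact (h rfl).elim
    | succ g => rfl
  χ_eQ g h := by
    cases g with
    | zero => exact (h rfl).elim
    | succ g => rfl
  Pch := pch hq' _
  Qco := qco hq hq' _
  Qch := qch hq hq' _
  Pco := pco hq hq' _

end CA

theorem cdata (K : Type u) [Field K] [CharP K 2] (q : K) (hq : q ≠ 0)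
    (hq' : ∀ n : ℤ, n ≠ 0 → q ^ n ≠ 1) : CData K :=
  ⟨CA K q, inferInstance, inferInstance, inferInstance, CA.trace_mulRight_eq_zero, CA.splitBasic,
    CA.exists_nilpotent, GD.up, GD.down, CA.sd hq hq', rfl⟩

end Crest.Agent.R186
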