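import Crest.Agent.R186.CIface

/-!
The ten-dimensional algebra `C`.
-/

set_option autoImplicit false

namespace Crest.Agent.R186

universe u

/-- The algebra with basis `e, x, y, p, a, a', b, b', s, ε`. -/
@[ext] structure CA (K : Type u) (q : K) : Type u where
  e : K
  x : K
  y : K
  p : K
  a : K
  a' : K
  b : K
  b' : K
  s : K
  n : K

namespace CA

variable {K : Type u} [Field K] {q : K}

instance : Zero (CA K q) := ⟨⟨0, 0, 0, 0, 0, 0, 0, 0, 0, 0⟩⟩
instance : One (CA K q) := ⟨⟨1, 0, 0, 0, 0, 0, 0, 0, 1, 0⟩⟩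
instance : Add (CA K q) := ⟨fun u v => ⟨u.e + v.e, u.x + v.x, u.y + v.y, u.p + v.p, u.a + v.a,
  u.a' + v.a', u.b + v.b, u.b' + v.b', u.s + v.s, u.n + v.n⟩⟩
instance : Neg (CA K q) := ⟨fun u => ⟨-u.e, -u.x, -u.y, -u.p, -u.a, -u.a', -u.b, -u.b', -u.s, -u.n⟩⟩
instance : SMul K (CA K q) := ⟨fun t u => ⟨t * u.e, t * u.x, t * u.y, t * u.p, t * u.a,
  t * u.a', t * u.b, t * u.b', t * u.s, t * u.n⟩⟩
instance : Mul (CA K q) := ⟨fun u v =>
  ⟨u.e * v.e,
   u.e * v.x + u.x * v.e + u.a * v.b,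
   u.e * v.y + u.y * v.e + u.a * v.b,
   u.e * v.p + u.p * v.e - q * (u.x * v.y) + u.y * v.x + u.a * v.b' + u.a' * v.b,
   u.e * v.a + u.a * v.s,
   u.e * v.a' + u.a' * v.s - q * (u.x * v.a) + u.y * v.a + u.a * v.n,
   u.s * v.b + u.b * v.e,
   u.s * v.b' + u.b' * v.e + u.b * v.x - q * (u.b * v.y) + u.n * v.b,
   u.s * v.s,
   u.s * v.n + u.n * v.s + (1 - q) * (u.b * v.a)⟩⟩

@[simp] theorem zero_e : (0 : CA K q).e = 0 := rfl
@[simp] theorem zero_x : (0 : CA K q).x = 0 := rfl
@[simp] theorem zero_y : (0 : CA K q).y = 0 := rfl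
@[simp] theorem zero_p : (0 : CA K q).p = 0 := rfl
@[simp] theorem zero_a : (0 : CA K q).a = 0 := rfl
@[simp] theorem zero_a' : (0 : CA K q).a' = 0 := rfl
@[simp] theorem zero_b : (0 : CA K q).b = 0 := rfl
@[simp] theorem zero_b' : (0 : CA K q).b' = 0 := rfl
@[simp] theorem zero_s : (0 : CA K q).s = 0 := rfl
@[simp] theorem zero_n : (0 : CA K q).n = 0 := rfl

@[simp] theorem one_e : (1 : CA K q).e = 1 := rfl
@[simp] theorem one_x : (1 : CA K q).x = 0 := rfl
@[simp] theorem one_y : (1 : CA K q).y = 0 := rfl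
@[simp] theorem one_p : (1 : CA K q).p = 0 := rfl
@[simp] theorem one_a : (1 : CA K q).a = 0 := rfl
@[simp] theorem one_a' : (1 : CA K q).a' = 0 := rfl
@[simp] theorem one_b : (1 : CA K q).b = 0 := rfl
@[simp] theorem one_b' : (1 : CA K q).b' = 0 := rfl
@[simp] theorem one_s : (1 : CA K q).s = 1 := rfl
@[simp] theorem one_n : (1 : CA K q).n = 0 := rfl

section
variable (u v : CA K q) (t : K)

@[simp] theorem add_e : (u + v).e = u.e + v.e := rfl
@[simp] theorem add_x : (u + v).x = u.x + v.x := rfl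
@[simp] theorem add_y : (u + v).y = u.y + v.y := rfl
@[simp] theorem add_p : (u + v).p = u.p + v.p := rfl
@[simp] theorem add_a : (u + v).a = u.a + v.a := rfl
@[simp] theorem add_a' : (u + v).a' = u.a' + v.a' := rfl
@[simp] theorem add_b : (u + v).b = u.b + v.b := rfl
@[simp] theorem add_b' : (u + v).b' = u.b' + v.b' := rfl
@[simp] theorem add_s : (u + v).s = u.s + v.s := rfl
@[simp] theorem add_n : (u + v).n = u.n + v.n := rfl

@[simp] theorem neg_e : (-u).e = -u.e := rfl
@[simp] theorem neg_x : (-u).x = -u.x := rfl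
@[simp] theorem neg_y : (-u).y = -u.y := rfl
@[simp] theorem neg_p : (-u).p = -u.p := rfl
@[simp] theorem neg_a : (-u).a = -u.a := rfl
@[simp] theorem neg_a' : (-u).a' = -u.a' := rfl
@[simp] theorem neg_b : (-u).b = -u.b := rfl
@[simp] theorem neg_b' : (-u).b' = -u.b' := rfl
@[simp] theorem neg_s : (-u).s = -u.s := rfl
@[simp] theorem neg_n : (-u).n = -u.n := rfl

@[simp] theorem smul_e : (t • u).e = t * u.e := rfl
@[simp] theorem smul_x : (t • u).x = t * u.x := rfl
@[simp] theorem smul_y : (t • u).y = t * u.y := rfl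
@[simp] theorem smul_p : (t • u).p = t * u.p := rfl
@[simp] theorem smul_a : (t • u).a = t * u.a := rfl
@[simp] theorem smul_a' : (t • u).a' = t * u.a' := rfl
@[simp] theorem smul_b : (t • u).b = t * u.b := rfl
@[simp] theorem smul_b' : (t • u).b' = t * u.b' := rfl
@[simp] theorem smul_s : (t • u).s = t * u.s := rfl
@[simp] theorem smul_n : (t • u).n = t * u.n := rfl

@[simp] theorem mul_e : (u * v).e = u.e * v.e := rfl
@[simp] theorem mul_x : (u * v).x = u.e * v.x + u.x * v.e + u.a * v.b := rfl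
@[simp] theorem mul_y : (u * v).y = u.e * v.y + u.y * v.e + u.a * v.b := rfl
@[simp] theorem mul_p : (u * v).p =
    u.e * v.p + u.p * v.e - q * (u.x * v.y) + u.y * v.x + u.a * v.b' + u.a' * v.b := rfl
@[simp] theorem mul_a : (u * v).a = u.e * v.a + u.a * v.s := rfl
@[simp] theorem mul_a' : (u * v).a' =
    u.e * v.a' + u.a' * v.s - q * (u.x * v.a) + u.y * v.a + u.a * v.n := rfl
@[simp] theorem mul_b : (u * v).b = u.s * v.b + u.b * v.e := rfl
@[simp] theorem mul_b' : (u * v).b' =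
    u.s * v.b' + u.b' * v.e + u.b * v.x - q * (u.b * v.y) + u.n * v.b := rfl
@[simp] theorem mul_s : (u * v).s = u.s * v.s := rfl
@[simp] theorem mul_n : (u * v).n = u.s * v.n + u.n * v.s + (1 - q) * (u.b * v.a) := rfl

end

instance : Ring (CA K q) :=
  Ring.ofMinimalAxioms
    (fun u v w => by ext <;> simp [add_assoc])
    (fun u => by ext <;> simp)
    (fun u => by ext <;> simp)
    (fun u v w => by ext <;> simp only [mul_e, mul_x, mul_y, mul_p, mul_a, mul_a', mul_b, mul_b',
      mul_s, mul_n] <;> ring)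
    (fun u => by ext <;> simp)
    (fun u => by ext <;> simp)
    (fun u v w => by ext <;> simp <;> ring)
    (fun u v w => by ext <;> simp <;> ring)

instance : Module K (CA K q) :=
  Module.ofMinimalAxioms
    (fun t u v => by ext <;> simp [mul_add])
    (fun t t' u => by ext <;> simp [add_mul])
    (fun t t' u => by ext <;> simp [mul_assoc])
    (fun u => by ext <;> simp)

instance : Algebra K (CA K q) :=
  Algebra.ofModule
    (fun t u v => by ext <;> simp <;> ring)
    (fun t u v => by ext <;> simp <;> ring)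

/-- coordinates -/
def coord (K : Type u) [Field K] (q : K) : CA K q ≃ₗ[K] (Fin 10 → K) where
  toFun u := ![u.e, u.x, u.y, u.p, u.a, u.a', u.b, u.b', u.s, u.n]
  invFun f := ⟨f 0, f 1, f 2, f 3, f 4, f 5, f 6, f 7, f 8, f 9⟩
  map_add' u v := by
    funext i
    fin_cases i <;> rfl
  map_smul' t u := by
    funext i
    fin_cases i <;> rfl
  left_inv u := rfl
  right_inv f := by
    funext i
    fin_cases i <;> rfl

instance : FiniteDimensional K (CA K q) := (coord K q).symm.finiteDimensional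

theorem trace_mulRight (c : CA K q) :
    LinearMap.trace K (CA K q) (LinearMap.mulRight K c) = 6 * c.e + 4 * c.s := by
  rw [LinearMap.trace_eq_matrix_trace K (Module.Basis.ofEquivFun (coord K q)), Matrix.trace]
  simp only [Matrix.diag, LinearMap.toMatrix_apply, Module.Basis.ofEquivFun_repr_apply,
    Module.Basis.coe_ofEquivFun, LinearMap.mulRight_apply]
  simp [Fin.sum_univ_succ, coord]
  ring

theorem trace_mulRight_eq_zero [CharP K 2] (c : CA K q) :
    LinearMap.trace K (CA K q) (LinearMap.mulRight K c) = 0 := by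
  rw [trace_mulRight]
  have h2 : (2 : K) = 0 := CharP.cast_eq_zero K 2
  linear_combination (3 * c.e + 2 * c.s) * h2

/-- the character at the vertex `s` -/
def chS (K : Type u) [Field K] (q : K) : CA K q →ₐ[K] K :=
  AlgHom.ofLinearMap
    { toFun := fun u => u.s, map_add' := fun _ _ => rfl, map_smul' := fun _ _ => rfl }
    rfl fun _ _ => rfl

@[simp] theorem chS_apply (u : CA K q) : chS K q u = u.s := rfl

/-- both characters -/
def ch (K : Type u) [Field K] (q : K) : CA K q →ₐ[K] (Fin 2 → K) :=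
  AlgHom.ofLinearMap
    { toFun := fun u => ![u.e, u.s]
      map_add' := fun _ _ => by funext i; fin_cases i <;> rfl
      map_smul' := fun _ _ => by funext i; fin_cases i <;> rfl }
    (by funext i; fin_cases i <;> rfl) fun _ _ => by funext i; fin_cases i <;> rfl

theorem ch_eq_zero {u : CA K q} (h : ch K q u = 0) : u.e = 0 ∧ u.s = 0 :=
  ⟨congrFun h 0, congrFun h 1⟩

theorem splitBasic : SplitBasic K (CA K q) (Fin 2) := by
  refine ⟨ch K q, fun f => ⟨⟨f 0, 0, 0, 0, 0, 0, 0, 0, f 1, 0⟩, ?_⟩, ?_⟩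
  · funext i
    fin_cases i <;> rfl
  · refine isNilpotent_ker_of_list _ 4 fun l hl hx => ?_
    match l, hl, hx with
    | [u₁, u₂, u₃, u₄, u₅], _, hx =>
      obtain ⟨h1, h1'⟩ := ch_eq_zero (hx u₁ (by simp))
      obtain ⟨h2, h2'⟩ := ch_eq_zero (hx u₂ (by simp))
      obtain ⟨h3, h3'⟩ := ch_eq_zero (hx u₃ (by simp))
      obtain ⟨h4, h4'⟩ := ch_eq_zero (hx u₄ (by simp))
      obtain ⟨h5, h5'⟩ := ch_eq_zero (hx u₅ (by simp))
      simp only [List.prod_cons, List.prod_nil, mul_one]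
      ext <;> simp [h1, h1', h2, h2', h3, h3', h4, h4', h5, h5']

theorem exists_nilpotent : ∃ x y : CA K q, IsNilpotent x ∧ IsNilpotent y ∧ y * x ≠ 0 := by
  refine ⟨⟨0, 1, 0, 0, 0, 0, 0, 0, 0, 0⟩, ⟨0, 0, 1, 0, 0, 0, 0, 0, 0, 0⟩, ⟨2, ?_⟩, ⟨2, ?_⟩, ?_⟩
  · rw [pow_two]
    ext <;> simp
  · rw [pow_two]
    ext <;> simp
  · intro h
    simpa using congrArg CA.p h

end CA

end Crest.Agent.R186
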