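import Crest.Agent.R186.CAlgDef

/-!
Kernels and images of multiplication operators in the algebra `C`.
-/

set_option autoImplicit false

namespace Crest.Agent.R186

universe u

namespace CA

variable {K : Type u} [Field K] {q : K}

def eE (q : K) : CA K q := ⟨1, 0, 0, 0, 0, 0, 0, 0, 0, 0⟩
def eS (q : K) : CA K q := ⟨0, 0, 0, 0, 0, 0, 0, 0, 1, 0⟩
def eA (q : K) : CA K q := ⟨0, 0, 0, 0, 1, 0, 0, 0, 0, 0⟩
def eA' (q : K) : CA K q := ⟨0, 0, 0, 0, 0, -q, 0, 0, 0, 0⟩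
def eB (q : K) : CA K q := ⟨0, 0, 0, 0, 0, 0, 1, 0, 0, 0⟩
def eB' (q : K) : CA K q := ⟨0, 0, 0, 0, 0, 0, 0, 1, 0, 0⟩
def eY (q : K) : CA K q := ⟨0, 0, 1, 0, 0, 0, 0, 0, 0, 0⟩
/-- `x + m y` -/
def w (q m : K) : CA K q := ⟨0, 1, m, 0, 0, 0, 0, 0, 0, 0⟩

theorem mul_eE_iff {u : CA K q} : u * eE q = u ↔ u.a = 0 ∧ u.a' = 0 ∧ u.s = 0 ∧ u.n = 0 := by
  simp [CA.ext_iff, eE, eq_comm]

theorem mul_eS_iff {u : CA K q} :
    u * eS q = u ↔ u.e = 0 ∧ u.x = 0 ∧ u.y = 0 ∧ u.p = 0 ∧ u.b = 0 ∧ u.b' = 0 := by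
  simp [CA.ext_iff, eS, eq_comm]

theorem eE_mul_iff {u : CA K q} : eE q * u = u ↔ u.b = 0 ∧ u.b' = 0 ∧ u.s = 0 ∧ u.n = 0 := by
  simp [CA.ext_iff, eE, eq_comm]

theorem eS_mul_iff {u : CA K q} :
    eS q * u = u ↔ u.e = 0 ∧ u.x = 0 ∧ u.y = 0 ∧ u.p = 0 ∧ u.a = 0 ∧ u.a' = 0 := by
  simp [CA.ext_iff, eS, eq_comm]

theorem w_mul_w (m : K) : w q (q * m) * w q m = 0 := by
  ext <;> simp [w]

/-! ### right multiplications -/

theorem surj_mul_eA (h1 : q ≠ 1) {u : CA K q} (hu : u * eS q = u) (h : u.s = 0) :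
    ∃ v, v * eE q = v ∧ v * eA q = u := by
  obtain ⟨a1, a2, a3, a4, a5, a6⟩ := mul_eS_iff.1 hu
  have h1' : 1 - q ≠ 0 := sub_ne_zero.2 h1.symm
  refine ⟨⟨u.a, 0, u.a', 0, 0, 0, (1 - q)⁻¹ * u.n, 0, 0, 0⟩, by simp [mul_eE_iff], ?_⟩
  ext <;> simp [eA, *]

theorem ker_mul_eA (h1 : q ≠ 1) {u : CA K q} (hu : u * eE q = u) (h : u * eA q = 0) :
    u.e = 0 ∧ u.y = q * u.x ∧ u.b = 0 := by
  obtain ⟨a1, a2, a3, a4⟩ := mul_eE_iff.1 hu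
  have h1' : 1 - q ≠ 0 := sub_ne_zero.2 h1.symm
  have e1 := congrArg CA.a h
  have e2 := congrArg CA.a' h
  have e3 := congrArg CA.n h
  simp [eA, h1'] at e1 e2 e3
  exact ⟨e1, by linear_combination e2, e3⟩

theorem ker_mul_w {m : K} {u : CA K q} (h : u * w q m = 0) :
    u.e = 0 ∧ u.y = q * m * u.x ∧ (1 - q * m) * u.b = 0 := by
  have e1 := congrArg CA.x h
  have e2 := congrArg CA.p h
  have e3 := congrArg CA.b' h
  simp [w] at e1 e2 e3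
  exact ⟨e1, by linear_combination e2, by linear_combination e3⟩

theorem surj_mul_w {m : K} {u : CA K q} (hu : u * eE q = u) (h1 : u.e = 0) (h2 : u.y = m * u.x)
    (h3 : u.b = 0) (h4 : q * m = 1 → u.b' = 0) : ∃ v, v * eE q = v ∧ v * w q m = u := by
  obtain ⟨a1, a2, a3, a4⟩ := mul_eE_iff.1 hu
  refine ⟨⟨u.x, 0, u.p, 0, 0, 0, (1 - q * m)⁻¹ * u.b', 0, 0, 0⟩, by simp [mul_eE_iff], ?_⟩
  by_cases h : q * m = 1
  · ext <;> simp [w, mul_comm, *]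
  · have h' : 1 - q * m ≠ 0 := sub_ne_zero.2 (Ne.symm h)
    ext <;> simp [w, mul_comm, *]
    field_simp

theorem inj_mul_eB {u : CA K q} (hu : u * eS q = u) (h : u * eB q = 0) : u = 0 := by
  obtain ⟨a1, a2, a3, a4, a5, a6⟩ := mul_eS_iff.1 hu
  have e1 := congrArg CA.x h
  have e2 := congrArg CA.p h
  have e3 := congrArg CA.b h
  have e4 := congrArg CA.b' h
  simp [eB] at e1 e2 e3 e4
  ext <;> simp [*]

theorem surj_mul_eB {u : CA K q} (hu : u * eE q = u) (h1 : u.e = 0) (h2 : u.y = u.x) :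
    ∃ v, v * eS q = v ∧ v * eB q = u := by
  obtain ⟨a1, a2, a3, a4⟩ := mul_eE_iff.1 hu
  refine ⟨⟨0, 0, 0, 0, u.x, u.p, 0, 0, u.b, u.b'⟩, by simp [mul_eS_iff], ?_⟩
  ext <;> simp [eB, *]

/-! ### left multiplications -/

theorem surj_eB_mul (h1 : q ≠ 1) {u : CA K q} (hu : eS q * u = u) (h : u.s = 0) :
    ∃ v, eE q * v = v ∧ eB q * v = u := by
  obtain ⟨a1, a2, a3, a4, a5, a6⟩ := eS_mul_iff.1 hu
  have h1' : 1 - q ≠ 0 := sub_ne_zero.2 h1.symm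
  refine ⟨⟨u.b, u.b', 0, 0, (1 - q)⁻¹ * u.n, 0, 0, 0, 0, 0⟩, by simp [eE_mul_iff], ?_⟩
  ext <;> simp [eB, *]

theorem ker_eB_mul (h1 : q ≠ 1) {u : CA K q} (h : eB q * u = 0) :
    u.e = 0 ∧ u.x = q * u.y ∧ u.a = 0 := by
  have h1' : 1 - q ≠ 0 := sub_ne_zero.2 h1.symm
  have e1 := congrArg CA.b h
  have e2 := congrArg CA.b' h
  have e3 := congrArg CA.n h
  simp [eB, h1'] at e1 e2 e3
  exact ⟨e1, by linear_combination e2, e3⟩

theorem ker_w_mul {m : K} {u : CA K q} (h : w q m * u = 0) :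
    u.e = 0 ∧ m * u.x = q * u.y ∧ (m - q) * u.a = 0 := by
  have e1 := congrArg CA.x h
  have e2 := congrArg CA.p h
  have e3 := congrArg CA.a' h
  simp [w] at e1 e2 e3
  exact ⟨e1, by linear_combination e2, by linear_combination e3⟩

theorem surj_w_mul (hq : q ≠ 0) {m : K} {u : CA K q} (hu : eE q * u = u) (h1 : u.e = 0)
    (h2 : u.y = m * u.x) (h3 : u.a = 0) (h4 : m = q → u.a' = 0) :
    ∃ v, eE q * v = v ∧ w q m * v = u := by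
  obtain ⟨a1, a2, a3, a4⟩ := eE_mul_iff.1 hu
  refine ⟨⟨u.x, 0, -(q⁻¹ * u.p), 0, (m - q)⁻¹ * u.a', 0, 0, 0, 0, 0⟩, by simp [eE_mul_iff], ?_⟩
  by_cases h : m = q
  · ext <;> simp [w, *]
  · have h' : m - q ≠ 0 := sub_ne_zero.2 h
    ext <;> simp [w, *]
    field_simp
    ring

theorem inj_eA_mul {u : CA K q} (hu : eS q * u = u) (h : eA q * u = 0) : u = 0 := by
  obtain ⟨a1, a2, a3, a4, a5, a6⟩ := eS_mul_iff.1 hu
  have e1 := congrArg CA.x h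
  have e2 := congrArg CA.p h
  have e3 := congrArg CA.a h
  have e4 := congrArg CA.a' h
  simp [eA] at e1 e2 e3 e4
  ext <;> simp [*]

theorem surj_eA_mul {u : CA K q} (hu : eE q * u = u) (h1 : u.e = 0) (h2 : u.y = u.x) :
    ∃ v, eS q * v = v ∧ eA q * v = u := by
  obtain ⟨a1, a2, a3, a4⟩ := eE_mul_iff.1 hu
  refine ⟨⟨0, 0, 0, 0, 0, 0, u.x, u.p, u.a, u.a'⟩, by simp [eS_mul_iff], ?_⟩
  ext <;> simp [eA, *]

end CA

end Crest.Agent.R186
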