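import Mathlib

/-!
# Split basic algebras

`SplitBasic K A ι` says that the `K`-algebra `A` surjects onto `ι → K` with a nilpotent kernel.
Closure under tensor products, products, nilpotent extensions; the Jacobson radical is the kernel.
-/

set_option autoImplicit false

open scoped TensorProduct

namespace Crest.Agent.R186

/-- `A` maps onto the split semisimple algebra `ι → K` with nilpotent kernel. -/
def SplitBasic (K A : Type*) (ι : Type*) [Field K] [Ring A] [Algebra K A] : Prop :=
  ∃ ch : A →ₐ[K] (ι → K), Function.Surjective ch ∧ IsNilpotent (RingHom.ker ch)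

section IdealPow

variable {A A' : Type*} [Ring A] [Ring A']

theorem sp_pow_le_comap {F : Type*} [FunLike F A A'] [RingHomClass F A A'] (f : F)
    {I : Ideal A} {J : Ideal A'} (h : I ≤ J.comap f) (n : ℕ) :
    I ^ n ≤ (J ^ n).comap f := by
  induction n with
  | zero =>
    rw [Submodule.pow_zero, Submodule.pow_zero, Ideal.one_eq_top, Ideal.one_eq_top]
    intro x _
    simp
  | succ n ih =>
    rw [Submodule.pow_succ, Submodule.pow_succ]
    refine Ideal.mul_le.2 fun r hr s hs => ?_
    rw [Ideal.mem_comap, map_mul]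
    exact Ideal.mul_mem_mul (ih hr) (h hs)

theorem sp_pow_mul (I : Ideal A) [I.IsTwoSided] (n m : ℕ) : I ^ (n * m) = (I ^ n) ^ m := by
  induction m with
  | zero => rw [Nat.mul_zero, Submodule.pow_zero, Submodule.pow_zero]
  | succ m ih => rw [Nat.mul_succ, Ideal.IsTwoSided.pow_add, ih, Submodule.pow_succ]

theorem sp_nilpotent_of_pow_le {I J : Ideal A} [I.IsTwoSided] {n : ℕ} (h : I ^ n ≤ J)
    (hJ : IsNilpotent J) : IsNilpotent I := by
  obtain ⟨m, hm⟩ := hJ
  refine ⟨n * m, ?_⟩
  rw [sp_pow_mul, Ideal.zero_eq_bot, eq_bot_iff]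
  rw [Ideal.zero_eq_bot] at hm
  exact (Ideal.pow_right_mono h m).trans hm.le

theorem sp_nilpotent_bot : IsNilpotent (⊥ : Ideal A) :=
  ⟨1, by rw [Submodule.pow_one, Ideal.zero_eq_bot]⟩

/-- A nilpotent left ideal lies in the Jacobson radical. -/
theorem le_jacobson_of_isNilpotent {I : Ideal A} (hI : IsNilpotent I) : I ≤ Ring.jacobson A := by
  obtain ⟨n, hn⟩ := hI
  rw [Ring.jacobson_eq_sInf_isMaximal]
  refine le_sInf fun m hm => ?_
  have hm' : m.IsMaximal := hm
  by_contra hle
  have htop : m ⊔ I = ⊤ :=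
    hm'.1.2 _ (lt_of_le_of_ne le_sup_left fun h => hle (h ▸ le_sup_right))
  obtain ⟨a, ha, x, hx, hax⟩ := Submodule.mem_sup.1 ((Ideal.eq_top_iff_one _).1 htop)
  have hxn : IsNilpotent x := by
    refine ⟨n, ?_⟩
    have := Ideal.pow_mem_pow hx n
    rw [hn] at this
    exact this
  have hu : IsUnit a := by
    have : a = 1 - x := by rw [← hax]; abel
    rw [this]
    exact hxn.isUnit_one_sub
  exact hm'.ne_top (Ideal.eq_top_of_isUnit_mem _ ha hu)

theorem sp_pow_mul_list_eq_zero {F : Type*} [FunLike F A A'] [RingHomClass F A A'] (f : F) (N : ℕ)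
    (h : ∀ l : List A, l.length = N + 1 → (∀ x ∈ l, f x = 0) → l.prod = 0) (k : ℕ) :
    ∀ x ∈ (RingHom.ker f) ^ (k + 1), ∀ l : List A, l.length + k = N → (∀ y ∈ l, f y = 0) →
      x * l.prod = 0 := by
  induction k with
  | zero =>
    intro x hx l hl hy
    rw [zero_add, Submodule.pow_one] at hx
    have := h (x :: l) (by simp; omega) (by
      intro y hy'
      rcases List.mem_cons.1 hy' with rfl | hy'
      · exact hx
      · exact hy y hy')
    simpa using this
  | succ k ih =>
    intro x hx l hl hy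
    rw [Submodule.pow_succ] at hx
    refine Submodule.mul_induction_on hx (fun a ha b hb => ?_) (fun a b ha hb => ?_)
    · have := ih a ha (b :: l) (by simp; omega) (by
        intro y hy'
        rcases List.mem_cons.1 hy' with rfl | hy'
        · exact hb
        · exact hy y hy')
      rw [mul_assoc]
      simpa using this
    · rw [add_mul, ha, hb, add_zero]

/-- Criterion for nilpotence of a kernel: all products of `N + 1` elements vanish. -/
theorem isNilpotent_ker_of_list {F : Type*} [FunLike F A A'] [RingHomClass F A A'] (f : F) (N : ℕ)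
    (h : ∀ l : List A, l.length = N + 1 → (∀ x ∈ l, f x = 0) → l.prod = 0) :
    IsNilpotent (RingHom.ker f) := by
  refine ⟨N + 1, ?_⟩
  rw [Ideal.zero_eq_bot, eq_bot_iff]
  intro x hx
  have := sp_pow_mul_list_eq_zero f N h N x hx [] (by simp) (by simp)
  simpa using this

/-- Square-zero kernel. -/
theorem isNilpotent_ker_of_sq_zero {F : Type*} [FunLike F A A'] [RingHomClass F A A'] (f : F)
    (h : ∀ x y, f x = 0 → f y = 0 → x * y = 0) : IsNilpotent (RingHom.ker f) := by
  refine isNilpotent_ker_of_list f 1 fun l hl hx => ?_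
  match l, hl, hx with
  | [x, y], _, hx => simpa using h x y (hx x (by simp)) (hx y (by simp))

/-- Cube-zero kernel. -/
theorem isNilpotent_ker_of_cube_zero {F : Type*} [FunLike F A A'] [RingHomClass F A A'] (f : F)
    (h : ∀ x y w, f x = 0 → f y = 0 → f w = 0 → x * y * w = 0) : IsNilpotent (RingHom.ker f) := by
  refine isNilpotent_ker_of_list f 2 fun l hl hx => ?_
  match l, hl, hx with
  | [x, y, w], _, hx =>
    simpa [mul_assoc] using h x y w (hx x (by simp)) (hx y (by simp)) (hx w (by simp))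

theorem isNilpotent_ker_of_injective {F : Type*} [FunLike F A A'] [RingHomClass F A A'] (f : F)
    (h : Function.Injective f) : IsNilpotent (RingHom.ker f) := by
  rw [(RingHom.injective_iff_ker_eq_bot f).1 h]
  exact sp_nilpotent_bot

theorem jacobson_pow_four_ne_bot {x₁ x₂ x₃ x₄ : A} (h₁ : x₁ ∈ Ring.jacobson A)
    (h₂ : x₂ ∈ Ring.jacobson A) (h₃ : x₃ ∈ Ring.jacobson A) (h₄ : x₄ ∈ Ring.jacobson A)
    (h : x₁ * x₂ * x₃ * x₄ ≠ 0) : Ring.jacobson A ^ 4 ≠ ⊥ := by
  intro hb
  apply h
  have : x₁ * x₂ * x₃ * x₄ ∈ Ring.jacobson A ^ 4 := by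
    rw [Submodule.pow_succ, Submodule.pow_succ, Submodule.pow_succ, Submodule.pow_succ,
      Submodule.pow_zero, Submodule.one_mul]
    exact Ideal.mul_mem_mul (Ideal.mul_mem_mul (Ideal.mul_mem_mul h₁ h₂) h₃) h₄
  rw [hb] at this
  exact this

end IdealPow

section Basic

variable {K : Type*} [Field K] {A A' : Type*} [Ring A] [Ring A'] [Algebra K A] [Algebra K A']
  {ι ι' : Type*}

theorem SplitBasic.of_surjective (f : A →ₐ[K] A') (hf : Function.Surjective f)
    (hk : IsNilpotent (RingHom.ker f)) (h : SplitBasic K A' ι) : SplitBasic K A ι := by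
  obtain ⟨ch, hs, n, hn⟩ := h
  refine ⟨ch.comp f, hs.comp hf, sp_nilpotent_of_pow_le (n := n) ?_ hk⟩
  have h1 : RingHom.ker (ch.comp f) ≤ (RingHom.ker ch).comap f := fun x hx => hx
  have h2 := sp_pow_le_comap f h1 n
  rw [hn] at h2
  exact h2

theorem SplitBasic.of_equiv (e : A ≃ₐ[K] A') (h : SplitBasic K A' ι) : SplitBasic K A ι :=
  h.of_surjective (e : A →ₐ[K] A') e.surjective
    (isNilpotent_ker_of_injective (e : A →ₐ[K] A') e.injective)

theorem SplitBasic.congr (e : A ≃ₐ[K] A') : SplitBasic K A ι ↔ SplitBasic K A' ι :=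
  ⟨fun h => h.of_equiv e.symm, fun h => h.of_equiv e⟩

theorem SplitBasic.pi (K ι : Type*) [Field K] : SplitBasic K (ι → K) ι :=
  ⟨AlgHom.id K _, Function.surjective_id,
    isNilpotent_ker_of_injective (AlgHom.id K (ι → K)) Function.injective_id⟩

theorem SplitBasic.of_bijective (f : A →ₐ[K] (ι → K)) (hf : Function.Bijective f) :
    SplitBasic K A ι :=
  ⟨f, hf.2, isNilpotent_ker_of_injective f hf.1⟩

theorem SplitBasic.trans (h : SplitBasic K A ι) (h' : SplitBasic K (ι → K) ι') :
    SplitBasic K A ι' := by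
  obtain ⟨ch, hs, hn⟩ := h
  exact h'.of_surjective ch hs hn

theorem SplitBasic.reindex (e : ι ≃ ι') (h : SplitBasic K A ι) : SplitBasic K A ι' := by
  refine h.trans (SplitBasic.of_bijective
    (AlgHom.pi (A := fun _ : ι' => K) fun j => Pi.evalAlgHom K (fun _ : ι => K) (e.symm j)) ⟨?_, ?_⟩)
  · intro u v huv
    funext i
    have := congrFun huv (e i)
    simpa using this
  · intro v
    refine ⟨fun i => v (e i), ?_⟩
    funext j
    simp

theorem SplitBasic.field (K : Type*) [Field K] : SplitBasic K K Unit := by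
  refine SplitBasic.of_bijective (Pi.constAlgHom K Unit K) ⟨?_, ?_⟩
  · intro u v huv
    exact congrFun huv ()
  · intro v
    exact ⟨v (), rfl⟩

theorem SplitBasic.dualNumber (K : Type*) [Field K] : SplitBasic K (DualNumber K) Unit := by
  refine (SplitBasic.field K).of_surjective (TrivSqZeroExt.fstHom K K K) ?_ ?_
  · intro x
    exact ⟨TrivSqZeroExt.inl x, rfl⟩
  · refine isNilpotent_ker_of_sq_zero _ fun x y hx hy => ?_
    have hx' : x.fst = 0 := hx
    have hy' : y.fst = 0 := hy
    ext
    · simp [hx']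
    · simp [hx', hy']

theorem SplitBasic.prod (h : SplitBasic K A ι) (h' : SplitBasic K A' ι') :
    SplitBasic K (A × A') (ι ⊕ ι') := by
  obtain ⟨ch, hs, n, hn⟩ := h
  obtain ⟨ch', hs', m, hm⟩ := h'
  let F : (A × A') →ₐ[K] (ι ⊕ ι' → K) :=
    AlgHom.pi (A := fun _ : ι ⊕ ι' => K) fun j =>
      Sum.rec (motive := fun _ => (A × A') →ₐ[K] K)
        (fun i => (Pi.evalAlgHom K (fun _ : ι => K) i).comp (ch.comp (AlgHom.fst K A A')))
        (fun i => (Pi.evalAlgHom K (fun _ : ι' => K) i).comp (ch'.comp (AlgHom.snd K A A'))) j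
  have hl : ∀ x i, F x (Sum.inl i) = ch x.1 i := fun _ _ => rfl
  have hr : ∀ x i, F x (Sum.inr i) = ch' x.2 i := fun _ _ => rfl
  refine ⟨F, ?_, n + m, ?_⟩
  · intro v
    obtain ⟨a, ha⟩ := hs fun i => v (Sum.inl i)
    obtain ⟨b, hb⟩ := hs' fun i => v (Sum.inr i)
    refine ⟨(a, b), ?_⟩
    funext j
    rcases j with i | i
    · rw [hl, ha]
    · rw [hr, hb]
  · have h1 : RingHom.ker F ≤ (RingHom.ker ch).comap (AlgHom.fst K A A') := by
      intro x hx
      have hx' : F x = 0 := hx
      change ch x.1 = 0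
      funext i
      rw [← hl, hx']
      rfl
    have h2 : RingHom.ker F ≤ (RingHom.ker ch').comap (AlgHom.snd K A A') := by
      intro x hx
      have hx' : F x = 0 := hx
      change ch' x.2 = 0
      funext i
      rw [← hr, hx']
      rfl
    rw [Ideal.zero_eq_bot, eq_bot_iff]
    intro x hx
    have h3 := sp_pow_le_comap _ h1 n (Ideal.pow_le_pow_right (Nat.le_add_right n m) hx)
    have h4 := sp_pow_le_comap _ h2 m (Ideal.pow_le_pow_right (Nat.le_add_left m n) hx)
    rw [hn] at h3
    rw [hm] at h4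
    have h3' : x.1 = 0 := h3
    have h4' : x.2 = 0 := h4
    exact Prod.ext h3' h4'

/-- The span of the pure tensors with left factor in `I`. -/
def spTL (K : Type*) [Field K] {A : Type*} (B : Type*) [Ring A] [Ring B] [Algebra K A]
    [Algebra K B] (I : Ideal A) : Submodule K (A ⊗[K] B) :=
  Submodule.span K {z | ∃ a ∈ I, ∃ b : B, z = a ⊗ₜ[K] b}

theorem spTL_mul {B : Type*} [Ring B] [Algebra K B] {I J : Ideal A} {x y : A ⊗[K] B}
    (hx : x ∈ spTL K B I) (hy : y ∈ spTL K B J) : x * y ∈ spTL K B (I * J) := by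
  induction hx using Submodule.span_induction with
  | zero => simp
  | add u v _ _ hu hv => rw [add_mul]; exact add_mem hu hv
  | smul c u _ hu => rw [smul_mul_assoc]; exact Submodule.smul_mem _ _ hu
  | mem u hu =>
    obtain ⟨a, ha, b, rfl⟩ := hu
    induction hy using Submodule.span_induction with
    | zero => simp
    | add u v _ _ hu hv => rw [mul_add]; exact add_mem hu hv
    | smul c u _ hu => rw [mul_smul_comm]; exact Submodule.smul_mem _ _ hu
    | mem v hv =>
      obtain ⟨a', ha', b', rfl⟩ := hv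
      rw [Algebra.TensorProduct.tmul_mul_tmul]
      exact Submodule.subset_span ⟨_, Ideal.mul_mem_mul ha ha', _, rfl⟩

theorem spTL_top {B : Type*} [Ring B] [Algebra K B] (x : A ⊗[K] B) :
    x ∈ spTL K B (⊤ : Ideal A) := by
  induction x with
  | zero => simp
  | add u v hu hv => exact add_mem hu hv
  | tmul a b => exact Submodule.subset_span ⟨a, trivial, b, rfl⟩

theorem spTL_bot {B : Type*} [Ring B] [Algebra K B] {x : A ⊗[K] B}
    (hx : x ∈ spTL K B (⊥ : Ideal A)) : x = 0 := by
  induction hx using Submodule.span_induction with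
  | zero => rfl
  | add u v _ _ hu hv => rw [hu, hv, add_zero]
  | smul c u _ hu => rw [hu, smul_zero]
  | mem u hu =>
    obtain ⟨a, ha, b, rfl⟩ := hu
    have : a = 0 := ha
    rw [this, TensorProduct.zero_tmul]

theorem sp_ker_map_le {B : Type*} [Ring B] [Algebra K B] (f : A →ₐ[K] A')
    (hf : Function.Surjective f) {x : A ⊗[K] B}
    (hx : x ∈ RingHom.ker (Algebra.TensorProduct.map f (AlgHom.id K B))) :
    x ∈ spTL K B (RingHom.ker f) := by
  have hex := rTensor_exact B (LinearMap.exact_subtype_ker_map f.toLinearMap) hf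
  have hx' : LinearMap.rTensor B f.toLinearMap x = 0 := hx
  obtain ⟨y, rfl⟩ := (hex x).1 hx'
  clear hx hx'
  induction y with
  | zero => simp
  | add u v hu hv => rw [map_add]; exact add_mem hu hv
  | tmul a b => exact Submodule.subset_span ⟨a.1, a.2, b, rfl⟩

theorem isNilpotent_ker_map_left {B : Type*} [Ring B] [Algebra K B] (f : A →ₐ[K] A')
    (hf : Function.Surjective f) (hk : IsNilpotent (RingHom.ker f)) :
    IsNilpotent (RingHom.ker (Algebra.TensorProduct.map f (AlgHom.id K B))) := by
  obtain ⟨n, hn⟩ := hk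
  have key : ∀ m : ℕ, ∀ x ∈ RingHom.ker (Algebra.TensorProduct.map f (AlgHom.id K B)) ^ m,
      x ∈ spTL K B (RingHom.ker f ^ m) := by
    intro m
    induction m with
    | zero =>
      intro x _
      rw [Submodule.pow_zero, Ideal.one_eq_top]
      exact spTL_top x
    | succ m ih =>
      intro x hx
      rw [Submodule.pow_succ] at hx ⊢
      exact Submodule.mul_induction_on hx
        (fun a ha b hb => spTL_mul (ih a ha) (sp_ker_map_le f hf hb))
        (fun a b ha hb => add_mem ha hb)
  refine ⟨n, ?_⟩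
  rw [Ideal.zero_eq_bot, eq_bot_iff]
  intro x hx
  have := key n x hx
  rw [hn] at this
  exact spTL_bot this

theorem SplitBasic.pi_tensor_pi (K : Type*) [Field K] (ι ι' : Type*) [Finite ι] [Finite ι'] :
    SplitBasic K ((ι → K) ⊗[K] (ι' → K)) (ι × ι') := by
  classical
  have := Fintype.ofFinite ι
  have := Fintype.ofFinite ι'
  let f₁ : (ι → K) →ₐ[K] (ι × ι' → K) :=
    AlgHom.pi (A := fun _ : ι × ι' => K) fun j => Pi.evalAlgHom K (fun _ : ι => K) j.1
  let f₂ : (ι' → K) →ₐ[K] (ι × ι' → K) :=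
    AlgHom.pi (A := fun _ : ι × ι' => K) fun j => Pi.evalAlgHom K (fun _ : ι' => K) j.2
  let F : ((ι → K) ⊗[K] (ι' → K)) →ₐ[K] (ι × ι' → K) :=
    Algebra.TensorProduct.lift f₁ f₂ fun _ _ => Commute.all _ _
  have hF : ∀ u v j, F (u ⊗ₜ[K] v) j = u j.1 * v j.2 := fun u v j => by
    simp [F, f₁, f₂]
  have hs : Function.Surjective F := by
    intro w
    refine ⟨∑ j : ι × ι', w j • ((Pi.single j.1 (1 : K) : ι → K) ⊗ₜ[K]
      (Pi.single j.2 (1 : K) : ι' → K)), ?_⟩
    funext j
    rw [map_sum, Finset.sum_apply, Finset.sum_eq_single j]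
    · simp [hF]
    · intro b _ hb
      rw [map_smul, Pi.smul_apply, hF]
      by_cases h1 : j.1 = b.1
      · have h2 : j.2 ≠ b.2 := fun h2 => hb (Prod.ext h1.symm h2.symm)
        simp [h2]
      · simp [h1]
    · simp
  refine SplitBasic.of_bijective F ⟨?_, hs⟩
  have hdim : Module.finrank K ((ι → K) ⊗[K] (ι' → K)) = Module.finrank K (ι × ι' → K) := by
    simp [Module.finrank_tensorProduct]
  exact (LinearMap.injective_iff_surjective_of_finrank_eq_finrank hdim (f := F.toLinearMap)).2 hs

theorem SplitBasic.tensor [Finite ι] [Finite ι'] (h : SplitBasic K A ι) (h' : SplitBasic K A' ι') :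
    SplitBasic K (A ⊗[K] A') (ι × ι') := by
  obtain ⟨ch, hs, hn⟩ := h
  obtain ⟨ch', hs', hn'⟩ := h'
  refine SplitBasic.of_surjective (Algebra.TensorProduct.map ch (AlgHom.id K A'))
    (Algebra.TensorProduct.map_surjective _ _ hs Function.surjective_id)
    (isNilpotent_ker_map_left ch hs hn) ?_
  refine SplitBasic.of_equiv (Algebra.TensorProduct.comm K _ _) ?_
  refine SplitBasic.of_surjective (Algebra.TensorProduct.map ch' (AlgHom.id K (ι → K)))
    (Algebra.TensorProduct.map_surjective _ _ hs' Function.surjective_id)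
    (isNilpotent_ker_map_left ch' hs' hn') ?_
  exact SplitBasic.of_equiv (Algebra.TensorProduct.comm K _ _) (SplitBasic.pi_tensor_pi K ι ι')

/-- The Jacobson radical of a split basic algebra is the kernel of the character map. -/
theorem jacobson_eq_ker [Finite ι] (ch : A →ₐ[K] (ι → K)) (hs : Function.Surjective ch)
    (hn : IsNilpotent (RingHom.ker ch)) : Ring.jacobson A = RingHom.ker ch := by
  refine le_antisymm ?_ (le_jacobson_of_isNilpotent hn)
  have : RingHomSurjective (ch : A →+* (ι → K)) := ⟨hs⟩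
  have h := Ring.le_comap_jacobson (ch : A →+* (ι → K))
  rw [IsSemisimpleRing.jacobson_eq_bot (ι → K)] at h
  exact h

theorem SplitBasic.quot [Finite ι] (h : SplitBasic K A ι) :
    Nonempty ((A ⧸ Ring.jacobson A) ≃ₐ[K] (ι → K)) := by
  obtain ⟨ch, hs, hn⟩ := h
  exact ⟨(Ideal.quotientEquivAlgOfEq K (jacobson_eq_ker ch hs hn)).trans
    (Ideal.quotientKerAlgEquivOfSurjective hs)⟩

theorem SplitBasic.isNilpotent_jacobson [Finite ι] (h : SplitBasic K A ι) :
    IsNilpotent (Ring.jacobson A) := by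
  obtain ⟨ch, hs, hn⟩ := h
  rw [jacobson_eq_ker ch hs hn]
  exact hn

/-- In a split basic algebra every nilpotent element lies in the radical. -/
theorem SplitBasic.mem_jacobson_of_isNilpotent (h : SplitBasic K A ι) {x : A}
    (hx : IsNilpotent x) : x ∈ Ring.jacobson A := by
  obtain ⟨ch, -, hn⟩ := h
  exact le_jacobson_of_isNilpotent hn ((hx.map ch).eq_zero)

end Basic

end Crest.Agent.R186
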