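import Crest.Agent.R186.Setup
import Crest.Agent.R186.Split

/-!
Interface for the ten-dimensional algebra `C`.
-/

set_option autoImplicit false

namespace Crest.Agent.R186

universe u

/-- What is needed of the algebra `C`. -/
def CData (K : Type u) [Field K] : Prop :=
  ∃ (C : Type u) (_ : Ring C) (_ : Algebra K C), FiniteDimensional K C ∧
    (∀ c : C, LinearMap.trace K C (LinearMap.mulRight K c) = 0) ∧ SplitBasic K C (Fin 2) ∧
    (∃ x y : C, IsNilpotent x ∧ IsNilpotent y ∧ y * x ≠ 0) ∧
    ∃ (ΓP ΓQ : GD ℕ) (S : SD K C ΓP ΓQ), S.d = 2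

end Crest.Agent.R186
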