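import Crest.Agent.R186.Bi

/-!
Interface: an algebra with a complete resolution whose cycle module has Tate self-extensions
only in degrees `0` and `-1`.
-/

set_option autoImplicit false

namespace Crest.Agent.R186

universe u

section Car

variable {K : Type*} [Field K] {R Y : Type*} [Ring R] [Algebra K R] [AddCommGroup Y] [Module K Y]

/-- The module underlying `N`, as a type. -/
def LM.Car (N : LM K R Y) : Type _ := N.W

instance (N : LM K R Y) : AddCommGroup N.Car := inferInstanceAs (AddCommGroup N.W)
instance (N : LM K R Y) : Module K N.Car := inferInstanceAs (Module K N.W)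

/-- the underlying vector -/
def LM.Car.val {N : LM K R Y} (x : N.Car) : Y := Subtype.val x

theorem LM.Car.mem {N : LM K R Y} (x : N.Car) : x.val ∈ N.W := Subtype.property x

/-- constructor -/
def LM.Car.mk (N : LM K R Y) (y : Y) (h : y ∈ N.W) : N.Car := Subtype.mk y h

@[simp] theorem LM.Car.val_mk (N : LM K R Y) (y : Y) (h : y ∈ N.W) : (LM.Car.mk N y h).val = y :=
  rfl

@[ext] theorem LM.Car.ext {N : LM K R Y} {x y : N.Car} (h : x.val = y.val) : x = y := Subtype.ext h

@[simp] theorem LM.Car.val_add {N : LM K R Y} (x y : N.Car) : (x + y).val = x.val + y.val := rfl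
@[simp] theorem LM.Car.val_sub {N : LM K R Y} (x y : N.Car) : (x - y).val = x.val - y.val := rfl
@[simp] theorem LM.Car.val_zero {N : LM K R Y} : (0 : N.Car).val = 0 := rfl
@[simp] theorem LM.Car.val_smul_field {N : LM K R Y} (t : K) (x : N.Car) :
    (t • x).val = t • x.val := rfl

instance (N : LM K R Y) : SMul R N.Car :=
  ⟨fun a x => LM.Car.mk N (N.ρ a x.val) (N.inv a _ x.mem)⟩

@[simp] theorem LM.Car.val_smul {N : LM K R Y} (a : R) (x : N.Car) :
    (a • x).val = N.ρ a x.val := rfl

instance (N : LM K R Y) : Module R N.Car where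
  one_smul x := by ext; simp
  mul_smul a b x := by ext; simp
  smul_zero a := by ext; simp
  smul_add a x y := by ext; simp
  add_smul a b x := by ext; simp
  zero_smul x := by ext; simp

instance (N : LM K R Y) : IsScalarTower K R N.Car := ⟨fun t a x => by ext; simp⟩

theorem LM.Car.val_sum {N : LM K R Y} {ι : Type*} (s : Finset ι) (f : ι → N.Car) :
    (∑ i ∈ s, f i).val = ∑ i ∈ s, (f i).val :=
  map_sum (N.W.subtype) f s

end Car

/-- `P` is a totally acyclic complex of finitely generated projective `Λ`-modules with radical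
differential; `Z = (Bi.reg K Λ).Z P.op 1` is the module of chain cycles in degree `-1`, and
`Hom(P, Z)` has cohomology only in degrees `0` and `-1`. -/
structure Core (K : Type u) [Field K] (Λ : Type u) [Ring Λ] [Algebra K Λ] {G : Type} (Γ : GD G)
    (P : MD Γ Λ) : Prop where
  fin : FiniteDimensional K Λ
  ch : (P.op.cx (Bi.reg K Λ).R).Acyc
  coch : (P.cx (Bi.reg K Λ).L).Acyc
  van : ∀ i, i ≠ 0 → i ≠ -1 → (P.cx ((Bi.reg K Λ).Z P.op 1)).Van i
  chi : ∃ (χ : Λ →ₐ[K] K) (g₁ : G), Γ.deg g₁ = 1 ∧ χ (P.e g₁) = 1 ∧ ∀ g g', χ (P.D g g') = 0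

end Crest.Agent.R186
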