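import Mathlib
import Crest.Prelude.Def_SymmetricAlgebra

/-!
Interface: a counterexample to Tachikawa's second conjecture over the field `K`.
-/

set_option autoImplicit false

universe u

namespace Crest.Agent.R186

/-- Over `K` there is a finite-dimensional symmetric algebra with a finitely generated,
non-projective, self-orthogonal module. -/
def Tach (K : Type u) [Field K] : Prop :=
  ∃ (A : Type u) (_ : Ring A) (_ : Algebra K A),
    FiniteDimensional K A ∧ Crest.AlgebraR.IsSymmetricAlgebra K A ∧
    ∃ M : ModuleCat.{u} A, Module.Finite A M ∧ ¬ Module.Projective A M ∧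
      ∀ i : ℕ, 0 < i → Subsingleton (CategoryTheory.Abelian.Ext M M i)

end Crest.Agent.R186
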