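import Crest.Agent.R186.Dual

/-!
Tate duality for cycle modules.
-/

set_option autoImplicit false

namespace Crest.Agent.R186

open MulOpposite

variable {K : Type*} [Field K] {G : Type*} {Γ Γ' : GD G}
variable {R R' : Type*} [Ring R] [Algebra K R] [Ring R'] [Algebra K R']
variable {Y Y' V : Type*} [AddCommGroup Y] [Module K Y] [AddCommGroup Y'] [Module K Y']
  [AddCommGroup V] [Module K V]

theorem MD.IsDual.pair_nd {M : MD Γ R} {N : LM K R Y} {M' : MD Γ' R'} {N' : LM K R' Y'}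
    {β : Y' →ₗ[K] Y →ₗ[K] V} {U : Submodule K V} (h : MD.IsDual M N M' N' β U) {n : ℤ}
    {c' : G → Y'} (hc' : c' ∈ (M'.cx N').Co n)
    (h0 : ∀ c ∈ (M.cx N).Co (-n), MD.pair Γ' β n c' c = 0) : c' = 0 := by
  classical
  refine MD.co_ext hc' (Submodule.zero_mem _) fun g hg => ?_
  refine h.nd _ (hc' g).2.2 fun y hy => ?_
  have hg' : Γ.deg g = -n := by rw [h.deg] at hg; omega
  have he : N.ρ (M.e g) (N.ρ (M.e g) y) = N.ρ (M.e g) y := by rw [← N.ρ_mul, M.ee]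
  have := h0 _ (M.single_mem N hg' (N.inv (M.e g) y hy) he)
  rw [MD.pair_apply, Finset.sum_eq_single g] at this
  · rwa [Pi.single_eq_same, ← h.he _ _ _ (hc' g).2.2 hy, (hc' g).2.1] at this
  · intro b _ hb
    simp [Pi.single_eq_of_ne hb]
  · intro h'
    exact (h' (by rwa [Γ'.mem_fib])).elim

theorem exists_isDual_Z (β : Bi K R Rᵐᵒᵖ Y) (M : MD Γ R) (h : (M.cx β.L).Acyc) :
    ∃ γ : (G → Y →ₗ[K] K) →ₗ[K] (G → Y) →ₗ[K] K,
      MD.IsDual M.op (β.swap.Z M 0) M (β.dual.Z M.op 1) γ ⊤ := by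
  classical
  obtain ⟨s, hs1, hs2⟩ := exists_section ((M.cx β.L).Co (-1)) (M.cx β.L).δ
  have hI := M.isDual_trRep β.l K
  let γ : (G → Y →ₗ[K] K) →ₗ[K] (G → Y) →ₗ[K] K := (MD.pair Γ.op LinearMap.id 1).compl₂ s
  have hF : ∀ l, l ∈ (β.dual.Z M.op 1).W → ∀ b ∈ (M.cx β.L).Co (-1),
      γ l ((M.cx β.L).δ b) = MD.pair Γ.op LinearMap.id 1 l b := by
    intro l hl b hb
    have h1 : s ((M.cx β.L).δ b) - b ∈ (M.cx β.L).Bd (-1) :=
      h _ _ ⟨Submodule.sub_mem _ (hs1 _) hb, by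
        show (M.cx β.L).δ _ = 0
        rw [map_sub, hs2 _ ⟨b, hb, rfl⟩, sub_self]⟩
    have h2 := hI.pair_Bd (n := 1) hl h1
    rwa [map_sub, sub_eq_zero] at h2
  have hact : ∀ (a : R) l c, l ∈ (β.dual.Z M.op 1).W → c ∈ (β.swap.Z M 0).W →
      γ ((β.dual.Z M.op 1).ρ a l) c = γ l ((β.swap.Z M 0).ρ (op a) c) := by
    intro a l c hl hc
    obtain ⟨b, hb, rfl⟩ := h 0 c hc
    have hb' : b ∈ (M.cx β.L).Co (-1) := hb
    have h1 := hF l hl _ (β.swap.l_Co M (-1) (op a) b hb')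
    have h2 := β.swap.l_dl M (op a) b
    rw [hF _ ((β.dual.Z M.op 1).inv a l hl) b hb']
    refine Eq.trans ?_ (h1.symm.trans (congrArg (γ l) h2))
    rfl
  refine ⟨γ, fun g => by simp, fun g l c hl hc => hact _ l c hl hc,
    fun g g' l c hl hc => hact _ l c hl hc, fun _ _ _ _ => trivial, fun l hl h0 => ?_,
    fun φ _ => ?_⟩
  · refine hI.pair_nd (n := 1) hl.1 fun b hb => ?_
    rw [← hF l hl b hb]
    exact h0 _ ((M.cx β.L).δ_mem_Z hb)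
  · let l₀ : G → Y →ₗ[K] K := fun g => φ ∘ₗ (M.cx β.L).δ ∘ₗ LinearMap.single K (fun _ => Y) g
    have hl := M.op.pr_mem (LM.top (trRep β.l K)) 1 (c := l₀) fun _ _ => trivial
    have hp : ∀ b ∈ (M.cx β.L).Co (-1),
        MD.pair Γ.op LinearMap.id 1 (M.op.pr (trRep β.l K) 1 l₀) b = φ ((M.cx β.L).δ b) := by
      intro b hb
      conv_rhs => rw [← MD.sum_single hb]
      rw [MD.pair_apply, map_sum, map_sum]
      refine Finset.sum_congr rfl fun g hg => ?_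
      rw [Γ.mem_fib] at hg
      rw [MD.pr_pos _ _ _ (by simp [hg])]
      have := (hb g).2.1
      simp only [LM.top_ρ] at this
      simp [l₀, this]
    have hZ : M.op.pr (trRep β.l K) 1 l₀ ∈ (β.dual.Z M.op 1).W := by
      refine ⟨hl, hI.pair_nd (n := 1 + 1) (DG.mem _ _ _ hl) fun c hc => ?_⟩
      have hc' : c ∈ (M.cx β.L).Co (-1 - 1) := hc
      have := hI.adj (n := 1) hl hc'
      rw [LM.top_ρ, hp _ ((M.cx β.L).mem' hc'), (M.cx β.L).sq _ _ hc', map_zero] at this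
      exact this.symm
    refine ⟨_, hZ, fun c hc => ?_⟩
    obtain ⟨b, hb, rfl⟩ := h 0 c hc
    have hb' : b ∈ (M.cx β.L).Co (-1) := hb
    exact (hF _ hZ b hb').trans (hp b hb')

theorem rel_swap_Z (β : Bi K R Rᵐᵒᵖ Y) (M : MD Γ R) (h : (M.cx β.L).Acyc)
    (h' : (β.inner M.op).Acyc) {i : ℤ} {r : ℕ} (hv : (M.cx (β.Z M.op 1)).Rel (-i - 1) r) :
    (M.op.cx (β.swap.Z M 0)).Rel (-i) r :=
  rel_swap β M M.op (h' _) ((β.rel_Z_shift M M.op h h' (by ring) r).1 hv)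

theorem tate_van (β : Bi K R Rᵐᵒᵖ Y) (M : MD Γ R) (h : (M.cx β.L).Acyc)
    (h' : (β.inner M.op).Acyc) {i : ℤ} (hv : (M.cx (β.Z M.op 1)).Van (-i - 1)) :
    (M.cx (β.dual.Z M.op 1)).Van i := by
  obtain ⟨γ, hγ⟩ := exists_isDual_Z β M h
  exact hγ.van (DG.rel_zero_iff.1 (rel_swap_Z β M h h' (hv.rel 0)))

theorem tate_rel_one (β : Bi K R Rᵐᵒᵖ Y) (M : MD Γ R) (h : (M.cx β.L).Acyc)
    (h' : (β.inner M.op).Acyc) {i : ℤ} (hv : (M.cx (β.Z M.op 1)).Rel (-i - 1) 1) :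
    (M.cx (β.dual.Z M.op 1)).Rel i 1 := by
  obtain ⟨γ, hγ⟩ := exists_isDual_Z β M h
  exact hγ.rel_one (rel_swap_Z β M h h' hv)

end Crest.Agent.R186
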