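import Crest.Agent.R186.Tate

/-!
Triangular algebras and mapping cones of matrix data.
-/

set_option autoImplicit false

namespace Crest.Agent.R186

open MulOpposite

variable {K : Type*} [Field K] {G : Type*} {Γ : GD G}
variable {E : Type*} [Ring E] [Algebra K E]
variable {Y Y' Y₀ : Type*} [AddCommGroup Y] [Module K Y] [AddCommGroup Y'] [Module K Y']
  [AddCommGroup Y₀] [Module K Y₀]

theorem DG.Iso.trans {V₁ V₂ V₃ : Type*} [AddCommGroup V₁] [Module K V₁]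
    [AddCommGroup V₂] [Module K V₂] [AddCommGroup V₃] [Module K V₃] {A : DG K V₁} {B : DG K V₂}
    {C : DG K V₃} {f : V₁ →ₗ[K] V₂} {g : V₂ →ₗ[K] V₃} {k k' : ℤ} (h : DG.Iso A B f k)
    (h' : DG.Iso B C g k') : DG.Iso A C (g ∘ₗ f) (k + k') where
  mem n c hc := by
    rw [← add_assoc]
    exact h'.mem _ _ (h.mem _ _ hc)
  comm n c hc := by
    rw [LinearMap.comp_apply, h.comm _ _ hc, h'.comm _ _ (h.mem _ _ hc)]
    rfl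
  inj n c hc h0 := h.inj _ _ hc (h'.inj _ _ (h.mem _ _ hc) h0)
  surj n c hc := by
    rw [← add_assoc] at hc
    obtain ⟨b, hb, rfl⟩ := h'.surj _ _ hc
    obtain ⟨a, ha, rfl⟩ := h.surj _ _ hb
    exact ⟨a, ha, rfl⟩

theorem Bi.ses_prod {A B Y₁ Y₂ : Type*} [Ring A] [Algebra K A] [Ring B] [Algebra K B]
    [AddCommGroup Y₁] [Module K Y₁] [AddCommGroup Y₂] [Module K Y₂]
    (β₁ : Bi K A B Y₁) (β₂ : Bi K A B Y₂) :
    Bi.SES β₁ (β₁.prod β₂) β₂ (LinearMap.inl K Y₁ Y₂) (LinearMap.snd K Y₁ Y₂) :=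
  ⟨⟨fun _ _ => by simp, fun _ _ => by simp⟩, ⟨fun _ _ => rfl, fun _ _ => rfl⟩,
    fun _ h => congrArg Prod.fst h, fun _ => rfl,
    fun y h => ⟨y.1, Prod.ext rfl (Eq.symm h)⟩, fun y => ⟨(0, y), rfl⟩⟩

theorem Bi.ses_ker {A B Y₁ Y₂ : Type*} [Ring A] [Algebra K A] [Ring B] [Algebra K B]
    [AddCommGroup Y₁] [Module K Y₁] [AddCommGroup Y₂] [Module K Y₂]
    {β₁ : Bi K A B Y₁} {β₂ : Bi K A B Y₂} {f : Y₁ →ₗ[K] Y₂} (h : Bi.Hom β₁ β₂ f)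
    (hs : ∀ y, ∃ x, f x = y) (hl : ∀ a y, y ∈ LinearMap.ker f → β₁.l a y ∈ LinearMap.ker f)
    (hr : ∀ b y, y ∈ LinearMap.ker f → β₁.r b y ∈ LinearMap.ker f) :
    Bi.SES (β₁.sub (LinearMap.ker f) hl hr) β₁ β₂ (LinearMap.ker f).subtype f :=
  ⟨⟨fun _ _ => rfl, fun _ _ => rfl⟩, h, fun _ h => Subtype.ext h, fun y => y.2,
    fun y h => ⟨⟨y, h⟩, rfl⟩, hs⟩

theorem Bi.Hom.ker_l {A B Y₁ Y₂ : Type*} [Ring A] [Algebra K A] [Ring B] [Algebra K B]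
    [AddCommGroup Y₁] [Module K Y₁] [AddCommGroup Y₂] [Module K Y₂]
    {β₁ : Bi K A B Y₁} {β₂ : Bi K A B Y₂} {f : Y₁ →ₗ[K] Y₂} (h : Bi.Hom β₁ β₂ f) (a : A) (y : Y₁)
    (hy : y ∈ LinearMap.ker f) : β₁.l a y ∈ LinearMap.ker f := by
  rw [LinearMap.mem_ker] at hy ⊢
  rw [h.l, hy, map_zero]

theorem Bi.Hom.ker_r {A B Y₁ Y₂ : Type*} [Ring A] [Algebra K A] [Ring B] [Algebra K B]
    [AddCommGroup Y₁] [Module K Y₁] [AddCommGroup Y₂] [Module K Y₂]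
    {β₁ : Bi K A B Y₁} {β₂ : Bi K A B Y₂} {f : Y₁ →ₗ[K] Y₂} (h : Bi.Hom β₁ β₂ f) (b : B) (y : Y₁)
    (hy : y ∈ LinearMap.ker f) : β₁.r b y ∈ LinearMap.ker f := by
  rw [LinearMap.mem_ker] at hy ⊢
  rw [h.r, hy, map_zero]

/-- two copies of the index set, the second one shifted -/
def GD.dbl (Γ : GD G) : GD (G ⊕ G) where
  deg := Sum.elim Γ.deg fun g => Γ.deg g + 1
  fib n := (Γ.fib n).disjSum (Γ.fib (n - 1))
  mem_fib := by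
    rintro (g | g) n
    · simp
    · simp only [Finset.inr_mem_disjSum, GD.mem_fib, Sum.elim_inr]
      omega

@[simp] theorem GD.dbl_deg_inl (Γ : GD G) (g : G) : Γ.dbl.deg (.inl g) = Γ.deg g := rfl
@[simp] theorem GD.dbl_deg_inr (Γ : GD G) (g : G) : Γ.dbl.deg (.inr g) = Γ.deg g + 1 := rfl

theorem GD.sum_dbl {A : Type*} [AddCommMonoid A] (Γ : GD G) (n : ℤ) (F : G ⊕ G → A) :
    ∑ g ∈ Γ.dbl.fib n, F g = ∑ g ∈ Γ.fib n, F (.inl g) + ∑ g ∈ Γ.fib (n - 1), F (.inr g) :=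
  Finset.sum_disjSum _ _ _

/-- an `E`-bimodule as a bimodule over `E × E` -/
def Bi.tri (β : Bi K E Eᵐᵒᵖ Y) : Bi K (E × E) (E × E)ᵐᵒᵖ Y :=
  β.res (AlgHom.snd K E E) (AlgHom.op (AlgHom.fst K E E))

@[simp] theorem Bi.tri_l (β : Bi K E Eᵐᵒᵖ Y) (a : E × E) : β.tri.l a = β.l a.2 := rfl
@[simp] theorem Bi.tri_r (β : Bi K E Eᵐᵒᵖ Y) (a : (E × E)ᵐᵒᵖ) :
    β.tri.r a = β.r (op (unop a).1) := rfl

theorem Bi.Hom.tri {β : Bi K E Eᵐᵒᵖ Y} {β' : Bi K E Eᵐᵒᵖ Y'} {f : Y →ₗ[K] Y'}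
    (h : Bi.Hom β β' f) : Bi.Hom β.tri β'.tri f :=
  ⟨fun _ _ => h.l _ _, fun _ _ => h.r _ _⟩

/-- the triangular algebra -/
abbrev Tri (β : Bi K E Eᵐᵒᵖ Y) : Type _ := TE β.tri

/-- first diagonal entry -/
def Tri.pa (β : Bi K E Eᵐᵒᵖ Y) : Tri β →ₐ[K] E := (AlgHom.fst K E E).comp (TE.fstA _)
/-- second diagonal entry -/
def Tri.pb (β : Bi K E Eᵐᵒᵖ Y) : Tri β →ₐ[K] E := (AlgHom.snd K E E).comp (TE.fstA _)

@[simp] theorem Tri.pa_apply {β : Bi K E Eᵐᵒᵖ Y} (x : Tri β) : Tri.pa β x = x.fst.1 := rfl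
@[simp] theorem Tri.pb_apply {β : Bi K E Eᵐᵒᵖ Y} (x : Tri β) : Tri.pb β x = x.fst.2 := rfl

/-- A degree zero chain map `X → Y ⊗ X`. -/
structure ChMap (X : MD Γ E) (β : Bi K E Eᵐᵒᵖ Y) where
  φ : G → G → Y
  l_e : ∀ g g', β.l (X.e g) (φ g g') = φ g g'
  r_e : ∀ g g', β.r (op (X.e g')) (φ g g') = φ g g'
  chain : ∀ g g'', Γ.deg g = Γ.deg g'' + 1 →
    ∑ g' ∈ Γ.fib (Γ.deg g - 1), β.l (X.D g g') (φ g' g'') +
      ∑ g' ∈ Γ.fib (Γ.deg g'' + 1), β.r (op (X.D g' g'')) (φ g g') = 0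

namespace ChMap

variable {X : MD Γ E} {β : Bi K E Eᵐᵒᵖ Y} (Φ : ChMap X β)

/-- idempotents of the cone -/
def ce (_Φ : ChMap X β) : G ⊕ G → Tri β
  | .inl g => TE.mk _ (X.e g, 0) 0
  | .inr g => TE.mk _ (0, X.e g) 0

/-- differential of the cone -/
def cD : G ⊕ G → G ⊕ G → Tri β
  | .inl g, .inl g' => TE.mk _ (X.D g g', 0) 0
  | .inr g, .inr g' => TE.mk _ (0, X.D g g') 0
  | .inr g, .inl g' => TE.mk _ 0 (Φ.φ g g')
  | .inl _, .inr _ => 0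

/-- the cone, a complex of projective modules over the triangular algebra -/
def cone : MD Γ.dbl (Tri β) where
  e := Φ.ce
  D := Φ.cD
  ee := by rintro (g | g) <;> ext <;> simp [ce, MD.ee]
  eD := by rintro (g | g) (g' | g') <;> ext <;> simp [ce, cD, MD.eD, Φ.l_e]
  De := by rintro (g | g) (g' | g') <;> ext <;> simp [ce, cD, MD.De, Φ.r_e]
  sq := by
    rintro (g | g) (g'' | g'') h <;> rw [GD.sum_dbl] <;>
      simp only [GD.dbl_deg_inl, GD.dbl_deg_inr] at h ⊢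
    · ext <;> simp [cD, Prod.fst_sum, Prod.snd_sum, X.sq g g'' h]
    · simp [cD]
    · ext
      · simp [cD]
      · simp [cD]
      · have := Φ.chain g g'' (by omega)
        rw [add_comm, show Γ.deg g'' + 1 = Γ.deg g by omega] at this
        simpa [cD] using this
    · have := X.sq g g'' (by omega)
      ext <;> simp [cD, Prod.fst_sum, Prod.snd_sum, this]

@[simp] theorem cone_e_inl (g : G) : Φ.cone.e (.inl g) = TE.mk _ (X.e g, 0) 0 := rfl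
@[simp] theorem cone_e_inr (g : G) : Φ.cone.e (.inr g) = TE.mk _ (0, X.e g) 0 := rfl
@[simp] theorem cone_D_ll (g g' : G) : Φ.cone.D (.inl g) (.inl g') = TE.mk _ (X.D g g', 0) 0 := rfl
@[simp] theorem cone_D_rr (g g' : G) : Φ.cone.D (.inr g) (.inr g') = TE.mk _ (0, X.D g g') 0 := rfl
@[simp] theorem cone_D_rl (g g' : G) : Φ.cone.D (.inr g) (.inl g') = TE.mk _ 0 (Φ.φ g g') := rfl
@[simp] theorem cone_D_lr (g g' : G) : Φ.cone.D (.inl g) (.inr g') = 0 := rfl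

theorem vert_a (N : LM K E Y₀) : DG.Iso (Φ.cone.cx (N.res (Tri.pa β))) (X.cx N)
    (MD.pull Sum.inl fun _ => LinearMap.id) 0 :=
  MD.cx_iso Sum.inl_injective (fun _ => by simp) (fun _ _ h _ => h) (fun _ _ _ h => h)
    (fun _ _ _ _ _ _ => rfl) (by
      rintro (g | g) y h _ h'
      · exact (h ⟨g, rfl⟩).elim
      · simpa using h'.symm) (fun _ _ _ _ h => h) fun _ y h h' => ⟨y, h, h', rfl⟩

theorem vert_b (N : LM K E Y₀) : DG.Iso (Φ.cone.cx (N.res (Tri.pb β))) (X.cx N)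
    (MD.pull Sum.inr fun _ => LinearMap.id) (-1) :=
  MD.cx_iso Sum.inr_injective (fun _ => by simp) (fun _ _ h _ => h) (fun _ _ _ h => h)
    (fun _ _ _ _ _ _ => rfl) (by
      rintro (g | g) y h _ h'
      · simpa using h'.symm
      · exact (h ⟨g, rfl⟩).elim) (fun _ _ _ _ h => h) fun _ y h h' => ⟨y, h, h', rfl⟩

theorem vert_a_op (N : LM K Eᵐᵒᵖ Y₀) : DG.Iso (Φ.cone.op.cx (N.res (AlgHom.op (Tri.pa β))))
    (X.op.cx N) (MD.pull Sum.inl fun _ => LinearMap.id) 0 :=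
  MD.cx_iso Sum.inl_injective (fun _ => by simp) (fun _ _ h _ => h) (fun _ _ _ h => h)
    (fun _ _ _ _ _ _ => rfl) (by
      rintro (g | g) y h _ h'
      · exact (h ⟨g, rfl⟩).elim
      · simpa using h'.symm) (fun _ _ _ _ h => h) fun _ y h h' => ⟨y, h, h', rfl⟩

theorem vert_b_op (N : LM K Eᵐᵒᵖ Y₀) : DG.Iso (Φ.cone.op.cx (N.res (AlgHom.op (Tri.pb β))))
    (X.op.cx N) (MD.pull Sum.inr fun _ => LinearMap.id) 1 :=
  MD.cx_iso Sum.inr_injective (fun _ => by simp) (fun _ _ h _ => h) (fun _ _ _ h => h)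
    (fun _ _ _ _ _ _ => rfl) (by
      rintro (g | g) y h _ h'
      · simpa using h'.symm
      · exact (h ⟨g, rfl⟩).elim) (fun _ _ _ _ h => h) fun _ y h h' => ⟨y, h, h', rfl⟩

end ChMap

/-- an `E`-bimodule placed in the corner -/
def Bi.ba (β' : Bi K E Eᵐᵒᵖ Y') (β : Bi K E Eᵐᵒᵖ Y) : Bi K (Tri β) (Tri β)ᵐᵒᵖ Y' :=
  β'.res (Tri.pb β) (AlgHom.op (Tri.pa β))

@[simp] theorem Bi.ba_l (β' : Bi K E Eᵐᵒᵖ Y') (β : Bi K E Eᵐᵒᵖ Y) (x : Tri β) :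
    (β'.ba β).l x = β'.l x.fst.2 := rfl
@[simp] theorem Bi.ba_r (β' : Bi K E Eᵐᵒᵖ Y') (β : Bi K E Eᵐᵒᵖ Y) (x : (Tri β)ᵐᵒᵖ) :
    (β'.ba β).r x = β'.r (op (unop x).fst.1) := rfl

/-- another triangular algebra as a bimodule -/
def triBi {β : Bi K E Eᵐᵒᵖ Y} {β' : Bi K E Eᵐᵒᵖ Y'} (f : Tri β →ₐ[K] Tri β') :
    Bi K (Tri β) (Tri β)ᵐᵒᵖ (Tri β') :=
  (Bi.reg K (Tri β')).res f (AlgHom.op f)

@[simp] theorem triBi_l {β : Bi K E Eᵐᵒᵖ Y} {β' : Bi K E Eᵐᵒᵖ Y'} (f : Tri β →ₐ[K] Tri β')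
    (x : Tri β) (y : Tri β') : (triBi f).l x y = f x * y := rfl
@[simp] theorem triBi_r {β : Bi K E Eᵐᵒᵖ Y} {β' : Bi K E Eᵐᵒᵖ Y'} (f : Tri β →ₐ[K] Tri β')
    (x : (Tri β)ᵐᵒᵖ) (y : Tri β') : (triBi f).r x y = y * f (unop x) := rfl

namespace ChMap

variable {X : MD Γ E} {β : Bi K E Eᵐᵒᵖ Y} (Φ : ChMap X β)

theorem ba_L (β' : Bi K E Eᵐᵒᵖ Y') : DG.Iso (Φ.cone.cx (β'.ba β).L) (X.cx β'.L)
    (MD.pull Sum.inr fun _ => LinearMap.id) (-1) := Φ.vert_b β'.L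

theorem ba_R (β' : Bi K E Eᵐᵒᵖ Y') : DG.Iso (Φ.cone.op.cx (β'.ba β).R) (X.op.cx β'.R)
    (MD.pull Sum.inl fun _ => LinearMap.id) 0 := Φ.vert_a_op β'.R

theorem ba_Z (β' : Bi K E Eᵐᵒᵖ Y') (n : ℤ) :
    DG.Iso (Φ.cone.cx ((β'.ba β).Z Φ.cone.op n)) (X.cx (β'.Z X.op n))
      ((MD.pull Sum.inr fun _ => LinearMap.id) ∘ₗ
        (MD.pull Sum.inl fun _ => LinearMap.id (R := K) (M := Y')).compLeft (G ⊕ G)) (0 + -1) := by
  have h := Φ.ba_R β'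
  refine DG.Iso.trans (Φ.cone.cx_iso_of_hom (N₂ := (β'.Z X.op n).res (Tri.pb β))
    ⟨fun c hc => ?_, fun _ _ _ => rfl⟩ (fun c hc => h.inj n c hc.1) fun c hc => ?_)
    (Φ.vert_b _)
  · have := h.toMap.mem_Z hc
    rwa [add_zero] at this
  · exact h.exists_Z (n := n) (by rwa [add_zero])

variable {β' : Bi K E Eᵐᵒᵖ Y'} (f : Tri β →ₐ[K] Tri β') (hf : ∀ x, (f x).fst = x.fst)

include hf in
theorem ses_tri : Bi.SES (β'.ba β) (triBi f)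
    (((Bi.reg K E).res (Tri.pa β) (AlgHom.op (Tri.pa β))).prod
      ((Bi.reg K E).res (Tri.pb β) (AlgHom.op (Tri.pb β)))) (TE.inr _) (TE.fstL _) :=
  ⟨⟨fun _ _ => by ext <;> simp [hf], fun _ _ => by ext <;> simp [hf]⟩,
    ⟨fun _ _ => by ext <;> simp [hf], fun _ _ => by ext <;> simp [hf]⟩,
    fun _ h => congrArg TE.snd h, fun _ => rfl,
    fun y h => ⟨y.snd, TE.ext (Eq.symm h) rfl⟩, fun y => ⟨TE.mk _ y 0, rfl⟩⟩

include hf in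
theorem acyc_L (h₁ : (X.cx (Bi.reg K E).L).Acyc) (h₂ : (X.cx β'.L).Acyc) :
    (Φ.cone.cx (triBi f).L).Acyc :=
  (Φ.cone.cx_ses (ses_tri f hf).L).acyc₂ ((Φ.ba_L β').acyc_iff.2 h₂)
    ((Φ.cone.cx_ses (Bi.ses_prod _ _).L).acyc₂ ((Φ.vert_a (Bi.reg K E).L).acyc_iff.2 h₁)
      ((Φ.vert_b (Bi.reg K E).L).acyc_iff.2 h₁))

include hf in
theorem acyc_R (h₁ : (X.op.cx (Bi.reg K E).R).Acyc) (h₂ : (X.op.cx β'.R).Acyc) :
    (Φ.cone.op.cx (triBi f).R).Acyc :=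
  (Φ.cone.op.cx_ses (ses_tri f hf).R).acyc₂ ((Φ.ba_R β').acyc_iff.2 h₂)
    ((Φ.cone.op.cx_ses (Bi.ses_prod _ _).R).acyc₂ ((Φ.vert_a_op (Bi.reg K E).R).acyc_iff.2 h₁)
      ((Φ.vert_b_op (Bi.reg K E).R).acyc_iff.2 h₁))

theorem acyc_reg_L (h₁ : (X.cx (Bi.reg K E).L).Acyc) (h₂ : (X.cx β.L).Acyc) :
    (Φ.cone.cx (Bi.reg K (Tri β)).L).Acyc :=
  Φ.acyc_L (AlgHom.id K _) (fun _ => rfl) h₁ h₂

theorem acyc_reg_R (h₁ : (X.op.cx (Bi.reg K E).R).Acyc) (h₂ : (X.op.cx β.R).Acyc) :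
    (Φ.cone.op.cx (Bi.reg K (Tri β)).R).Acyc :=
  Φ.acyc_R (AlgHom.id K _) (fun _ => rfl) h₁ h₂

end ChMap

end Crest.Agent.R186
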