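import Crest.Agent.R186.ExtBridge
import Crest.Agent.R186.Tate
import Crest.Agent.R186.Tri
import Crest.Agent.R186.Tach

/-!
From a `Core` to a counterexample to Tachikawa's conjecture, by the trivial extension.
-/

set_option autoImplicit false

namespace Crest.Agent.R186

open MulOpposite

universe u

variable {K : Type u} [Field K] {L : Type u} [Ring L] [Algebra K L]

/-- the form on the trivial extension by the dual bimodule -/
def teForm (K : Type u) [Field K] (L : Type u) [Ring L] [Algebra K L] :
    TE (Bi.reg K L).dual →ₗ[K] Module.Dual K (TE (Bi.reg K L).dual) :=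
  LinearMap.mk₂ K (fun x y => x.snd y.fst + y.snd x.fst)
    (fun _ _ _ => by simp; ring) (fun _ _ _ => by simp; ring)
    (fun _ _ _ => by simp; ring) (fun _ _ _ => by simp; ring)

theorem teForm_apply (x y : TE (Bi.reg K L).dual) :
    teForm K L x y = x.snd y.fst + y.snd x.fst := rfl

theorem teForm_injective : Function.Injective (teForm K L) := by
  rw [injective_iff_map_eq_zero]
  intro x hx
  refine TE.ext ?_ (LinearMap.ext fun a => ?_)
  · refine (Module.forall_dual_apply_eq_zero_iff K x.fst).1 fun φ => ?_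
    simpa [teForm_apply] using LinearMap.congr_fun hx (TE.mk _ 0 φ)
  · simpa [teForm_apply] using LinearMap.congr_fun hx (TE.mk _ a 0)

theorem te_symmetric [FiniteDimensional K L] :
    Crest.AlgebraR.IsSymmetricAlgebra K (TE (Bi.reg K L).dual) := by
  refine ⟨LinearEquiv.ofInjectiveOfFinrankEq _ teForm_injective Subspace.dual_finrank_eq.symm,
    fun a x b y => ?_⟩
  change teForm K L _ _ = teForm K L _ _
  simp [teForm_apply, mul_assoc]
  ring

theorem te_ses : Bi.SES (Bi.reg K L).dual
    ((Bi.reg K (TE (Bi.reg K L).dual)).res (TE.inl _) (AlgHom.op (TE.inl _))) (Bi.reg K L)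
    (TE.inr _) (TE.fstL _) :=
  ⟨⟨fun a y => by ext <;> simp, fun a y => by ext <;> simp⟩,
    ⟨fun a y => by simp, fun a y => by simp⟩,
    fun _ h => congrArg TE.snd h, fun _ => rfl,
    fun y h => ⟨y.snd, TE.ext (Eq.symm h) rfl⟩, fun y => ⟨TE.mk _ y 0, rfl⟩⟩

theorem core_tach {G : Type} {Gam : GD G} {P : MD Gam L} (h : Core K L Gam P) : Tach K := by
  have := h.fin
  obtain ⟨χ, g₁, h1, h2, h3⟩ := h.chi
  have hd : ((Bi.reg K L).dual.inner P.op).Acyc := MD.acyc_trRep P K h.coch
  have hch : ((P.map (TE.inl (Bi.reg K L).dual)).op.cx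
      (Bi.reg K (TE (Bi.reg K L).dual)).R).Acyc :=
    (P.op.cx_ses te_ses.R).acyc₂ hd h.ch
  refine ⟨TE (Bi.reg K L).dual, inferInstance, inferInstance, inferInstance, te_symmetric,
    ModuleCat.of _ (Zmod K (P.map (TE.inl (Bi.reg K L).dual))), finite_Z _,
    not_projective _ hch (χ.comp (TE.fstA _)) g₁ h1 h2 h3, ext_van _ hch _ fun i hi => ?_⟩
  exact (P.cx_ses (te_ses.Z P.op 1 (hd _))).van₂
    (tate_van (Bi.reg K L) P h.coch h.ch (h.van _ (by omega) (by omega)))
    (h.van i (by omega) (by omega))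

end Crest.Agent.R186
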