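import Mathlib

/-!
Graded differential spaces inside one ambient vector space, with elementwise long exact
sequences.  `Rel n r` says that the cohomology in degree `n` has dimension at most `r`.
-/

set_option autoImplicit false

namespace Crest.Agent.R186

/-- A cochain complex whose terms are subspaces of one vector space `V`. -/
structure DG (K V : Type*) [Field K] [AddCommGroup V] [Module K V] where
  Co : ℤ → Submodule K V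
  δ : V →ₗ[K] V
  mem : ∀ n c, c ∈ Co n → δ c ∈ Co (n + 1)
  sq : ∀ n c, c ∈ Co n → δ (δ c) = 0

namespace DG

variable {K : Type*} [Field K]
variable {V V₁ V₂ V₃ : Type*} [AddCommGroup V] [Module K V] [AddCommGroup V₁] [Module K V₁]
  [AddCommGroup V₂] [Module K V₂] [AddCommGroup V₃] [Module K V₃]

/-- cocycles -/
def Z (A : DG K V) (n : ℤ) : Submodule K V := A.Co n ⊓ LinearMap.ker A.δ

/-- coboundaries -/
def Bd (A : DG K V) (n : ℤ) : Submodule K V := (A.Co (n - 1)).map A.δ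

theorem mem_Z {A : DG K V} {n : ℤ} {c : V} : c ∈ A.Z n ↔ c ∈ A.Co n ∧ A.δ c = 0 := Iff.rfl

theorem mem_Bd {A : DG K V} {n : ℤ} {c : V} : c ∈ A.Bd n ↔ ∃ b ∈ A.Co (n - 1), A.δ b = c :=
  Iff.rfl

theorem mem' (A : DG K V) {n : ℤ} {c : V} (h : c ∈ A.Co (n - 1)) : A.δ c ∈ A.Co n := by
  have := A.mem _ _ h
  rwa [sub_add_cancel] at this

theorem Bd_le_Z (A : DG K V) (n : ℤ) : A.Bd n ≤ A.Z n := by
  rintro _ ⟨b, hb, rfl⟩
  exact ⟨A.mem' hb, A.sq _ _ hb⟩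

theorem δ_mem_Bd (A : DG K V) {n : ℤ} {c : V} (h : c ∈ A.Co n) : A.δ c ∈ A.Bd (n + 1) :=
  ⟨c, by rwa [add_sub_cancel_right], rfl⟩

theorem δ_mem_Z (A : DG K V) {n : ℤ} {c : V} (h : c ∈ A.Co n) : A.δ c ∈ A.Z (n + 1) :=
  A.Bd_le_Z _ (A.δ_mem_Bd h)

/-- cohomology in degree `n` vanishes -/
def Van (A : DG K V) (n : ℤ) : Prop := ∀ c ∈ A.Z n, c ∈ A.Bd n

/-- cohomology in degree `n` has dimension at most `r` -/
def Rel (A : DG K V) (n : ℤ) (r : ℕ) : Prop :=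
  ∀ c : Fin (r + 1) → V, (∀ j, c j ∈ A.Z n) →
    ∃ t : Fin (r + 1) → K, t ≠ 0 ∧ ∑ j, t j • c j ∈ A.Bd n

/-- all cohomology vanishes -/
def Acyc (A : DG K V) : Prop := ∀ n, A.Van n

theorem Van.Z_eq {A : DG K V} {n : ℤ} (h : A.Van n) : A.Z n = A.Bd n :=
  le_antisymm h (A.Bd_le_Z n)

theorem rel_zero_iff {A : DG K V} {n : ℤ} : A.Rel n 0 ↔ A.Van n := by
  constructor
  · intro h c hc
    obtain ⟨t, ht, hs⟩ := h (fun _ => c) (fun _ => hc)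
    have h0 : t 0 ≠ 0 := by
      intro h0
      apply ht
      funext j
      fin_cases j
      exact h0
    simp only [Nat.reduceAdd, Finset.univ_unique, Fin.default_eq_zero, Finset.sum_singleton] at hs
    have := (A.Bd n).smul_mem (t 0)⁻¹ hs
    rwa [smul_smul, inv_mul_cancel₀ h0, one_smul] at this
  · intro h c hc
    refine ⟨fun _ => 1, ?_, ?_⟩
    · intro h0
      exact one_ne_zero (congrFun h0 0)
    · exact Submodule.sum_mem _ fun j _ => Submodule.smul_mem _ _ (h _ (hc j))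

theorem Van.rel {A : DG K V} {n : ℤ} (h : A.Van n) (r : ℕ) : A.Rel n r := by
  intro c hc
  refine ⟨fun _ => 1, ?_, ?_⟩
  · intro h0
    exact one_ne_zero (congrFun h0 0)
  · exact Submodule.sum_mem _ fun j _ => Submodule.smul_mem _ _ (h _ (hc j))

theorem rel_one_iff {A : DG K V} {n : ℤ} :
    A.Rel n 1 ↔ ∀ a ∈ A.Z n, ∀ b ∈ A.Z n, ∃ s t : K, (s ≠ 0 ∨ t ≠ 0) ∧ s • a + t • b ∈ A.Bd n := by
  constructor
  · intro h a ha b hb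
    obtain ⟨t, ht, hs⟩ := h ![a, b] (by intro j; fin_cases j <;> simpa)
    refine ⟨t 0, t 1, ?_, by simpa [Fin.sum_univ_two] using hs⟩
    by_contra hc
    push Not at hc
    apply ht
    funext j
    fin_cases j
    · exact hc.1
    · exact hc.2
  · intro h c hc
    obtain ⟨s, t, hst, hs⟩ := h _ (hc 0) _ (hc 1)
    refine ⟨![s, t], ?_, by simpa [Fin.sum_univ_two] using hs⟩
    intro h0
    rcases hst with h1 | h1
    · exact h1 (congrFun h0 0)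
    · exact h1 (congrFun h0 1)

/-- If the cocycles killed by one functional are coboundaries, the cohomology has dimension
at most one. -/
theorem rel_one_of_functional {A : DG K V} {n : ℤ} (π : V →ₗ[K] K)
    (h : ∀ c ∈ A.Z n, π c = 0 → c ∈ A.Bd n) : A.Rel n 1 := by
  rw [rel_one_iff]
  intro a ha b hb
  by_cases h0 : π a = 0
  · exact ⟨1, 0, Or.inl one_ne_zero, by simpa using h a ha h0⟩
  · refine ⟨-π b, π a, Or.inr h0, h _ (Submodule.add_mem _ (Submodule.smul_mem _ _ ha)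
      (Submodule.smul_mem _ _ hb)) ?_⟩
    simp [mul_comm]

/-- With at most one-dimensional cohomology, a nonzero class spans. -/
theorem Rel.span {A : DG K V} {n : ℤ} (h : A.Rel n 1) {a : V} (ha : a ∈ A.Z n)
    (ha' : a ∉ A.Bd n) {b : V} (hb : b ∈ A.Z n) : ∃ t : K, b - t • a ∈ A.Bd n := by
  obtain ⟨s, t, hst, hs⟩ := rel_one_iff.1 h a ha b hb
  have ht : t ≠ 0 := by
    rintro rfl
    have hs0 : s ≠ 0 := by simpa using hst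
    apply ha'
    have := (A.Bd n).smul_mem s⁻¹ hs
    simpa [smul_smul, inv_mul_cancel₀ hs0] using this
  refine ⟨-(t⁻¹ * s), ?_⟩
  have := (A.Bd n).smul_mem t⁻¹ hs
  rw [smul_add, smul_smul, smul_smul, inv_mul_cancel₀ ht, one_smul, add_comm] at this
  simpa using this

/-- The basic transfer principle along a linear relation. -/
theorem Rel.transfer {A : DG K V₁} {B : DG K V₂} {n m : ℤ} {r : ℕ} (hB : B.Rel m r)
    (R : Submodule K (V₁ × V₂))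
    (h1 : ∀ a ∈ A.Z n, ∃ b ∈ B.Z m, (a, b) ∈ R)
    (h2 : ∀ a b, (a, b) ∈ R → a ∈ A.Z n → b ∈ B.Bd m → a ∈ A.Bd n) : A.Rel n r := by
  intro c hc
  choose b hb hR using fun j => h1 (c j) (hc j)
  obtain ⟨t, ht, hs⟩ := hB b hb
  refine ⟨t, ht, h2 _ _ ?_ (Submodule.sum_mem _ fun j _ => Submodule.smul_mem _ _ (hc j)) hs⟩
  have : (∑ j, t j • c j, ∑ j, t j • b j) = ∑ j, t j • (c j, b j) := by
    ext <;> simp [Prod.fst_sum, Prod.snd_sum]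
  rw [this]
  exact Submodule.sum_mem _ fun j _ => Submodule.smul_mem _ _ (hR j)

/-- Transfer along a map that is injective on cohomology. -/
theorem Rel.of_inj {A : DG K V₁} {B : DG K V₂} {n m : ℤ} {r : ℕ} (hB : B.Rel m r)
    (f : V₁ →ₗ[K] V₂) (h1 : ∀ a ∈ A.Z n, f a ∈ B.Z m)
    (h2 : ∀ a ∈ A.Z n, f a ∈ B.Bd m → a ∈ A.Bd n) : A.Rel n r := by
  refine hB.transfer (LinearMap.graph f) (fun a ha => ⟨f a, h1 a ha, rfl⟩) ?_
  intro a b hab ha hb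
  have : b = f a := hab
  exact h2 a ha (this ▸ hb)

/-- Transfer along a map that is surjective on cohomology. -/
theorem Rel.of_surj {A : DG K V₁} {B : DG K V₂} {n m : ℤ} {r : ℕ} (hB : B.Rel m r)
    (f : V₂ →ₗ[K] V₁) (h1 : ∀ a ∈ A.Z n, ∃ b ∈ B.Z m, a - f b ∈ A.Bd n)
    (h2 : ∀ b ∈ B.Bd m, f b ∈ A.Bd n) : A.Rel n r := by
  refine hB.transfer ((A.Bd n).comap (LinearMap.fst K V₁ V₂ - f ∘ₗ LinearMap.snd K V₁ V₂))
    (fun a ha => ?_) ?_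
  · obtain ⟨b, hb, h⟩ := h1 a ha
    exact ⟨b, hb, h⟩
  · intro a b hab _ hb
    have h3 : a - f b ∈ A.Bd n := hab
    have := (A.Bd n).add_mem h3 (h2 b hb)
    simpa using this

theorem rel_congr {A B : DG K V} (hC : ∀ n, A.Co n = B.Co n)
    (hd : ∀ n, ∀ c ∈ A.Co n, A.δ c = B.δ c) {n : ℤ} {r : ℕ} (h : B.Rel n r) : A.Rel n r := by
  refine h.of_inj LinearMap.id ?_ ?_
  · rintro a ⟨h1, h2⟩
    refine ⟨hC n ▸ h1, ?_⟩
    exact (hd n a h1).symm.trans h2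
  · rintro a _ ⟨b, hb, hb'⟩
    have hb2 : b ∈ A.Co (n - 1) := (hC (n - 1)).symm ▸ hb
    exact ⟨b, hb2, (hd _ b hb2).trans hb'⟩

/-- A map of complexes of degree `k`. -/
structure Map (A : DG K V₁) (B : DG K V₂) (f : V₁ →ₗ[K] V₂) (k : ℤ) : Prop where
  mem : ∀ n c, c ∈ A.Co n → f c ∈ B.Co (n + k)
  comm : ∀ n c, c ∈ A.Co n → f (A.δ c) = B.δ (f c)

theorem Map.mem_Z {A : DG K V₁} {B : DG K V₂} {f : V₁ →ₗ[K] V₂} {k : ℤ} (h : Map A B f k)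
    {n : ℤ} {c : V₁} (hc : c ∈ A.Z n) : f c ∈ B.Z (n + k) :=
  ⟨h.mem _ _ hc.1, by
    have := h.comm _ _ hc.1
    rw [show A.δ c = 0 from hc.2, map_zero] at this
    exact this.symm⟩

theorem Map.mem_Bd {A : DG K V₁} {B : DG K V₂} {f : V₁ →ₗ[K] V₂} {k : ℤ} (h : Map A B f k)
    {n : ℤ} {c : V₁} (hc : c ∈ A.Bd n) : f c ∈ B.Bd (n + k) := by
  obtain ⟨b, hb, rfl⟩ := hc
  refine ⟨f b, ?_, (h.comm _ _ hb).symm⟩
  have := h.mem _ _ hb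
  rwa [show n - 1 + k = n + k - 1 by ring] at this

/-- A retract: `p ∘ i = id` on the terms of `A`. -/
theorem Rel.of_retract {A : DG K V₁} {B : DG K V₂} {i : V₁ →ₗ[K] V₂} {p : V₂ →ₗ[K] V₁} {k : ℤ}
    (hi : Map A B i k) (hp : Map B A p (-k)) {n : ℤ} (h : ∀ c ∈ A.Co n, p (i c) = c) {r : ℕ}
    (hB : B.Rel (n + k) r) : A.Rel n r := by
  refine hB.of_inj i (fun a ha => hi.mem_Z ha) fun a ha hb => ?_
  have := hp.mem_Bd hb
  rwa [h a ha.1, add_neg_cancel_right] at this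

/-- An isomorphism of complexes of degree `k`. -/
structure Iso (A : DG K V₁) (B : DG K V₂) (f : V₁ →ₗ[K] V₂) (k : ℤ) : Prop extends Map A B f k where
  inj : ∀ n c, c ∈ A.Co n → f c = 0 → c = 0
  surj : ∀ n c, c ∈ B.Co (n + k) → ∃ a ∈ A.Co n, f a = c

theorem Iso.mem_Bd_iff {A : DG K V₁} {B : DG K V₂} {f : V₁ →ₗ[K] V₂} {k : ℤ} (h : Iso A B f k)
    {n : ℤ} {c : V₁} (hc : c ∈ A.Co n) : f c ∈ B.Bd (n + k) ↔ c ∈ A.Bd n := by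
  refine ⟨?_, h.toMap.mem_Bd⟩
  rintro ⟨b, hb, hb'⟩
  rw [show n + k - 1 = n - 1 + k by ring] at hb
  obtain ⟨a, ha, rfl⟩ := h.surj _ _ hb
  refine ⟨a, ha, ?_⟩
  have h1 : f (A.δ a - c) = 0 := by rw [map_sub, h.comm _ _ ha, hb', sub_self]
  exact sub_eq_zero.1 (h.inj n _ (Submodule.sub_mem _ (A.mem' ha) hc) h1)

theorem Iso.exists_Z {A : DG K V₁} {B : DG K V₂} {f : V₁ →ₗ[K] V₂} {k : ℤ} (h : Iso A B f k)
    {n : ℤ} {c : V₂} (hc : c ∈ B.Z (n + k)) : ∃ a ∈ A.Z n, f a = c := by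
  obtain ⟨a, ha, rfl⟩ := h.surj _ _ hc.1
  refine ⟨a, ⟨ha, ?_⟩, rfl⟩
  apply h.inj _ _ (A.mem _ _ ha)
  rw [h.comm _ _ ha]
  exact hc.2

theorem Iso.rel_iff {A : DG K V₁} {B : DG K V₂} {f : V₁ →ₗ[K] V₂} {k : ℤ} (h : Iso A B f k)
    {n : ℤ} {r : ℕ} : A.Rel n r ↔ B.Rel (n + k) r := by
  constructor
  · intro hA
    refine hA.of_surj f (fun c hc => ?_) fun b hb => h.toMap.mem_Bd hb
    obtain ⟨a, ha, rfl⟩ := h.exists_Z hc
    exact ⟨a, ha, by simp⟩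
  · intro hB
    exact hB.of_inj f (fun a ha => h.toMap.mem_Z ha) fun a ha hb => (h.mem_Bd_iff ha.1).1 hb

theorem Iso.van_iff {A : DG K V₁} {B : DG K V₂} {f : V₁ →ₗ[K] V₂} {k : ℤ} (h : Iso A B f k)
    {n : ℤ} : A.Van n ↔ B.Van (n + k) := by
  rw [← rel_zero_iff, ← rel_zero_iff, h.rel_iff]

theorem Iso.acyc_iff {A : DG K V₁} {B : DG K V₂} {f : V₁ →ₗ[K] V₂} {k : ℤ} (h : Iso A B f k) :
    A.Acyc ↔ B.Acyc := by
  constructor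
  · intro hA n
    have := h.van_iff.1 (hA (n - k))
    rwa [sub_add_cancel] at this
  · intro hB n
    exact h.van_iff.2 (hB _)

/-- A short exact sequence of complexes. -/
structure SES (A₁ : DG K V₁) (A₂ : DG K V₂) (A₃ : DG K V₃) (f : V₁ →ₗ[K] V₂)
    (g : V₂ →ₗ[K] V₃) : Prop where
  f_mem : ∀ n c, c ∈ A₁.Co n → f c ∈ A₂.Co n
  f_comm : ∀ n c, c ∈ A₁.Co n → f (A₁.δ c) = A₂.δ (f c)
  g_mem : ∀ n c, c ∈ A₂.Co n → g c ∈ A₃.Co n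
  g_comm : ∀ n c, c ∈ A₂.Co n → g (A₂.δ c) = A₃.δ (g c)
  inj : ∀ n c, c ∈ A₁.Co n → f c = 0 → c = 0
  comp : ∀ n c, c ∈ A₁.Co n → g (f c) = 0
  exact : ∀ n c, c ∈ A₂.Co n → g c = 0 → ∃ a ∈ A₁.Co n, f a = c
  surj : ∀ n c, c ∈ A₃.Co n → ∃ b ∈ A₂.Co n, g b = c

namespace SES

variable {A₁ : DG K V₁} {A₂ : DG K V₂} {A₃ : DG K V₃} {f : V₁ →ₗ[K] V₂} {g : V₂ →ₗ[K] V₃}

theorem f_Z (S : SES A₁ A₂ A₃ f g) {n : ℤ} {c : V₁} (hc : c ∈ A₁.Z n) : f c ∈ A₂.Z n :=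
  ⟨S.f_mem _ _ hc.1, by
    have := S.f_comm _ _ hc.1
    rw [show A₁.δ c = 0 from hc.2, map_zero] at this
    exact this.symm⟩

theorem g_Z (S : SES A₁ A₂ A₃ f g) {n : ℤ} {c : V₂} (hc : c ∈ A₂.Z n) : g c ∈ A₃.Z n :=
  ⟨S.g_mem _ _ hc.1, by
    have := S.g_comm _ _ hc.1
    rw [show A₂.δ c = 0 from hc.2, map_zero] at this
    exact this.symm⟩

theorem f_Bd (S : SES A₁ A₂ A₃ f g) {n : ℤ} {c : V₁} (hc : c ∈ A₁.Bd n) : f c ∈ A₂.Bd n := by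
  obtain ⟨b, hb, rfl⟩ := hc
  exact ⟨f b, S.f_mem _ _ hb, (S.f_comm _ _ hb).symm⟩

theorem g_Bd (S : SES A₁ A₂ A₃ f g) {n : ℤ} {c : V₂} (hc : c ∈ A₂.Bd n) : g c ∈ A₃.Bd n := by
  obtain ⟨b, hb, rfl⟩ := hc
  exact ⟨g b, S.g_mem _ _ hb, (S.g_comm _ _ hb).symm⟩

/-- exactness at `H(A₂)` -/
theorem ex₂ (S : SES A₁ A₂ A₃ f g) {n : ℤ} {c : V₂} (hc : c ∈ A₂.Z n) (hg : g c ∈ A₃.Bd n) :
    ∃ a ∈ A₁.Z n, c - f a ∈ A₂.Bd n := by
  obtain ⟨b₃, hb₃, h₃⟩ := hg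
  obtain ⟨b, hb, rfl⟩ := S.surj _ _ hb₃
  have h1 : c - A₂.δ b ∈ A₂.Co n := Submodule.sub_mem _ hc.1 (A₂.mem' hb)
  obtain ⟨a, ha, hfa⟩ := S.exact n _ h1 (by rw [map_sub, S.g_comm _ _ hb, h₃, sub_self])
  refine ⟨a, ⟨ha, ?_⟩, ⟨b, hb, by rw [hfa]; simp⟩⟩
  apply S.inj _ _ (A₁.mem _ _ ha)
  rw [S.f_comm _ _ ha, hfa, map_sub, A₂.sq _ _ hb, show A₂.δ c = 0 from hc.2, sub_self]

/-- the connecting relation is total -/
theorem conn (S : SES A₁ A₂ A₃ f g) {n : ℤ} {c : V₃} (hc : c ∈ A₃.Z n) :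
    ∃ b ∈ A₂.Co n, ∃ a ∈ A₁.Z (n + 1), g b = c ∧ A₂.δ b = f a := by
  obtain ⟨b, hb, rfl⟩ := S.surj _ _ hc.1
  obtain ⟨a, ha, hfa⟩ := S.exact (n + 1) _ (A₂.mem _ _ hb) (by rw [S.g_comm _ _ hb]; exact hc.2)
  refine ⟨b, hb, a, ⟨ha, ?_⟩, rfl, hfa.symm⟩
  apply S.inj _ _ (A₁.mem _ _ ha)
  rw [S.f_comm _ _ ha, hfa, A₂.sq _ _ hb]

/-- exactness at `H(A₃)` -/
theorem ex₃ (S : SES A₁ A₂ A₃ f g) {n : ℤ} {b : V₂} (hb : b ∈ A₂.Co n) {a : V₁}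
    (hab : A₂.δ b = f a) (ha : a ∈ A₁.Bd (n + 1)) : ∃ c ∈ A₂.Z n, g c = g b := by
  obtain ⟨a', ha', rfl⟩ := ha
  rw [add_sub_cancel_right] at ha'
  refine ⟨b - f a', ⟨Submodule.sub_mem _ hb (S.f_mem _ _ ha'), ?_⟩, ?_⟩
  · show A₂.δ _ = 0
    rw [map_sub, hab, S.f_comm _ _ ha', sub_self]
  · rw [map_sub, S.comp _ _ ha', sub_zero]

/-- the connecting relation sends coboundaries to coboundaries; more generally classes that
come from `A₂`. -/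
theorem conn_Bd (S : SES A₁ A₂ A₃ f g) {n : ℤ} {b : V₂} (hb : b ∈ A₂.Co n) {a : V₁}
    (ha : a ∈ A₁.Co (n + 1)) (hab : A₂.δ b = f a) {c : V₂} (hc : c ∈ A₂.Z n)
    (h : g b - g c ∈ A₃.Bd n) : a ∈ A₁.Bd (n + 1) := by
  obtain ⟨b₃, hb₃, h₃⟩ := h
  obtain ⟨b', hb', rfl⟩ := S.surj _ _ hb₃
  have h1 : b - c - A₂.δ b' ∈ A₂.Co n :=
    Submodule.sub_mem _ (Submodule.sub_mem _ hb hc.1) (A₂.mem' hb')
  obtain ⟨a', ha', hfa⟩ := S.exact n _ h1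
    (by rw [map_sub, map_sub, S.g_comm _ _ hb', h₃, sub_self])
  refine ⟨a', by rwa [add_sub_cancel_right], ?_⟩
  have h2 : f (A₁.δ a' - a) = 0 := by
    rw [map_sub, S.f_comm _ _ ha', hfa, map_sub, map_sub, A₂.sq _ _ hb',
      show A₂.δ c = 0 from hc.2, hab]
    simp
  exact sub_eq_zero.1 (S.inj _ _ (Submodule.sub_mem _ (A₁.mem _ _ ha') ha) h2)

/-- exactness at `H(A₁)` -/
theorem ex₁ (S : SES A₁ A₂ A₃ f g) {n : ℤ} {a : V₁} (ha : a ∈ A₁.Co (n + 1))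
    (hf : f a ∈ A₂.Bd (n + 1)) : ∃ b ∈ A₂.Co n, g b ∈ A₃.Z n ∧ A₂.δ b = f a := by
  obtain ⟨b, hb, h⟩ := hf
  rw [add_sub_cancel_right] at hb
  refine ⟨b, hb, ⟨S.g_mem _ _ hb, ?_⟩, h⟩
  show A₃.δ _ = 0
  rw [← S.g_comm _ _ hb, h, S.comp _ _ ha]

theorem rel₂_of_rel₁ (S : SES A₁ A₂ A₃ f g) {n : ℤ} {r : ℕ} (h₁ : A₁.Rel n r) (h₃ : A₃.Van n) :
    A₂.Rel n r :=
  h₁.of_surj f (fun _ hc => S.ex₂ hc (h₃ _ (S.g_Z hc))) fun _ hb => S.f_Bd hb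

theorem rel₂_of_rel₃ (S : SES A₁ A₂ A₃ f g) {n : ℤ} {r : ℕ} (h₁ : A₁.Van n) (h₃ : A₃.Rel n r) :
    A₂.Rel n r := by
  refine h₃.of_inj g (fun _ hc => S.g_Z hc) fun c hc hg => ?_
  obtain ⟨a, ha, h⟩ := S.ex₂ hc hg
  have := (A₂.Bd n).add_mem h (S.f_Bd (h₁ _ ha))
  simpa using this

theorem van₂ (S : SES A₁ A₂ A₃ f g) {n : ℤ} (h₁ : A₁.Van n) (h₃ : A₃.Van n) : A₂.Van n :=
  rel_zero_iff.1 (S.rel₂_of_rel₁ (h₁.rel 0) h₃)

/-- the connecting relation -/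
def connRel (A₂ : DG K V₂) (f : V₁ →ₗ[K] V₂) (g : V₂ →ₗ[K] V₃) (n : ℤ) : Submodule K (V₃ × V₁) where
  carrier := {x | ∃ b ∈ A₂.Co n, g b = x.1 ∧ A₂.δ b = f x.2}
  add_mem' := by
    rintro x y ⟨b, hb, h1, h2⟩ ⟨b', hb', h1', h2'⟩
    exact ⟨b + b', Submodule.add_mem _ hb hb', by simp [h1, h1'], by simp [h2, h2']⟩
  zero_mem' := ⟨0, Submodule.zero_mem _, by simp, by simp⟩
  smul_mem' := by
    rintro t x ⟨b, hb, h1, h2⟩
    exact ⟨t • b, Submodule.smul_mem _ _ hb, by simp [h1], by simp [h2]⟩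

theorem rel₃_of_rel₁ (S : SES A₁ A₂ A₃ f g) {n : ℤ} {r : ℕ} (h₂ : A₂.Van n)
    (h₁ : A₁.Rel (n + 1) r) : A₃.Rel n r := by
  refine h₁.transfer (connRel A₂ f g n) (fun c hc => ?_) ?_
  · obtain ⟨b, hb, a, ha, h1, h2⟩ := S.conn hc
    exact ⟨a, ha, b, hb, h1, h2⟩
  · rintro c a ⟨b, hb, h1, h2⟩ _ ha
    obtain ⟨c', hc', h3⟩ := S.ex₃ hb h2 ha
    have : c = g c' := by rw [h3]; exact h1.symm
    rw [this]
    exact S.g_Bd (h₂ _ hc')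

theorem rel₃_of_rel₂ (S : SES A₁ A₂ A₃ f g) {n : ℤ} {r : ℕ} (h₂ : A₂.Rel n r)
    (h₁ : A₁.Van (n + 1)) : A₃.Rel n r := by
  refine h₂.of_surj g (fun c hc => ?_) fun _ hb => S.g_Bd hb
  obtain ⟨b, hb, a, ha, h1, h2⟩ := S.conn hc
  obtain ⟨c', hc', h3⟩ := S.ex₃ hb h2 (h₁ _ ha)
  exact ⟨c', hc', by rw [h3, h1]; simp⟩

theorem van₃ (S : SES A₁ A₂ A₃ f g) {n : ℤ} (h₂ : A₂.Van n) (h₁ : A₁.Van (n + 1)) : A₃.Van n :=
  rel_zero_iff.1 (S.rel₃_of_rel₂ (h₂.rel 0) h₁)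

theorem rel₁_of_rel₃ (S : SES A₁ A₂ A₃ f g) {n : ℤ} {r : ℕ} (h₃ : A₃.Rel n r)
    (h₂ : A₂.Van (n + 1)) : A₁.Rel (n + 1) r := by
  refine h₃.transfer ((connRel A₂ f g n).comap (LinearEquiv.prodComm K V₁ V₃).toLinearMap)
    (fun a ha => ?_) ?_
  · obtain ⟨b, hb, h1, h2⟩ := S.ex₁ ha.1 (h₂ _ (S.f_Z ha))
    exact ⟨g b, h1, b, hb, rfl, h2⟩
  · rintro a c ⟨b, hb, h1, h2⟩ ha hc
    refine S.conn_Bd hb ha.1 h2 (Submodule.zero_mem _) ?_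
    have h1' : g b = c := h1
    rw [h1']
    simpa using hc

theorem rel₁_of_rel₂ (S : SES A₁ A₂ A₃ f g) {n : ℤ} {r : ℕ} (h₃ : A₃.Van n)
    (h₂ : A₂.Rel (n + 1) r) : A₁.Rel (n + 1) r := by
  refine h₂.of_inj f (fun _ ha => S.f_Z ha) fun a ha hf => ?_
  obtain ⟨b, hb, h1, h2⟩ := S.ex₁ ha.1 hf
  refine S.conn_Bd hb ha.1 h2 (Submodule.zero_mem _) ?_
  simpa using h₃ _ h1

theorem van₁ (S : SES A₁ A₂ A₃ f g) {n : ℤ} (h₃ : A₃.Van n) (h₂ : A₂.Van (n + 1)) :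
    A₁.Van (n + 1) :=
  rel_zero_iff.1 (S.rel₁_of_rel₃ (h₃.rel 0) h₂)

theorem van₁' (S : SES A₁ A₂ A₃ f g) {n : ℤ} (h₃ : A₃.Van (n - 1)) (h₂ : A₂.Van n) :
    A₁.Van n := by
  have := S.van₁ h₃ (by rwa [sub_add_cancel])
  rwa [sub_add_cancel] at this

theorem acyc₁ (S : SES A₁ A₂ A₃ f g) (h₂ : A₂.Acyc) (h₃ : A₃.Acyc) : A₁.Acyc :=
  fun n => S.van₁' (h₃ _) (h₂ n)

theorem acyc₂ (S : SES A₁ A₂ A₃ f g) (h₁ : A₁.Acyc) (h₃ : A₃.Acyc) : A₂.Acyc :=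
  fun n => S.van₂ (h₁ n) (h₃ n)

theorem acyc₃ (S : SES A₁ A₂ A₃ f g) (h₁ : A₁.Acyc) (h₂ : A₂.Acyc) : A₃.Acyc :=
  fun n => S.van₃ (h₂ n) (h₁ _)

theorem shift (S : SES A₁ A₂ A₃ f g) (h₂ : A₂.Acyc) {n : ℤ} {r : ℕ} :
    A₃.Rel n r ↔ A₁.Rel (n + 1) r :=
  ⟨fun h => S.rel₁_of_rel₃ h (h₂ _), fun h => S.rel₃_of_rel₁ (h₂ _) h⟩

/-- A nonzero map `H^n(A₂) → H^n(A₃)` between spaces of dimension at most one is bijective. -/
theorem van_of_ne_zero (S : SES A₁ A₂ A₃ f g) {n : ℤ} (h₂ : A₂.Rel n 1) (h₃ : A₃.Rel n 1)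
    {c : V₂} (hc : c ∈ A₂.Z n) (hg : g c ∉ A₃.Bd n) (h₃' : A₃.Van (n - 1))
    (h₂' : A₂.Van (n + 1)) : A₁.Van n ∧ A₁.Van (n + 1) := by
  have hc' : c ∉ A₂.Bd n := fun h => hg (S.g_Bd h)
  constructor
  · intro a ha
    obtain ⟨t, ht⟩ := h₂.span hc hc' (S.f_Z ha)
    have h1 := S.g_Bd ht
    rw [map_sub, S.comp _ _ ha.1, map_smul, zero_sub] at h1
    have ht0 : t = 0 := by
      by_contra ht0
      apply hg
      have := (A₃.Bd n).smul_mem (-t⁻¹) h1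
      simpa [smul_smul, inv_mul_cancel₀ ht0] using this
    rw [ht0, zero_smul, sub_zero] at ht
    obtain ⟨m, rfl⟩ : ∃ m, n = m + 1 := ⟨n - 1, by ring⟩
    rw [add_sub_cancel_right] at h₃'
    obtain ⟨b, hb, h2, h3⟩ := S.ex₁ ha.1 ht
    refine S.conn_Bd hb ha.1 h3 (Submodule.zero_mem _) ?_
    simpa using h₃' _ h2
  · intro a ha
    obtain ⟨b, hb, h2, h3⟩ := S.ex₁ ha.1 (h₂' _ (S.f_Z ha))
    obtain ⟨t, ht⟩ := h₃.span (S.g_Z hc) hg h2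
    refine S.conn_Bd hb ha.1 h3 (Submodule.smul_mem _ t hc) ?_
    simpa using ht

/-- If the outer complexes have a single one-dimensional cohomology group each and the
connecting map between them is nonzero, the middle complex is acyclic. -/
theorem acyc_of_conn (S : SES A₁ A₂ A₃ f g) {n : ℤ} (h₃ : A₃.Rel n 1) (h₁ : A₁.Rel (n + 1) 1)
    (h₃' : ∀ m, m ≠ n → A₃.Van m) (h₁' : ∀ m, m ≠ n + 1 → A₁.Van m)
    {b : V₂} (hb : b ∈ A₂.Co n) {a : V₁} (ha : a ∈ A₁.Co (n + 1)) (hab : A₂.δ b = f a)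
    (ha' : a ∉ A₁.Bd (n + 1)) : A₂.Acyc := by
  have haZ : a ∈ A₁.Z (n + 1) := ⟨ha, by
    apply S.inj _ _ (A₁.mem _ _ ha)
    rw [S.f_comm _ _ ha, ← hab, A₂.sq _ _ hb]⟩
  have hbZ : g b ∈ A₃.Z n := ⟨S.g_mem _ _ hb, by
    show A₃.δ _ = 0
    rw [← S.g_comm _ _ hb, hab, S.comp _ _ ha]⟩
  have hb' : g b ∉ A₃.Bd n := fun h =>
    ha' (S.conn_Bd hb ha hab (Submodule.zero_mem _) (by simpa using h))
  intro m
  by_cases hm : m = n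
  · subst hm
    intro c hc
    obtain ⟨t, ht⟩ := h₃.span hbZ hb' (S.g_Z hc)
    have ht0 : t = 0 := by
      by_contra ht0
      apply ha'
      refine S.conn_Bd hb ha hab (Submodule.smul_mem _ t⁻¹ hc) ?_
      have := (A₃.Bd m).smul_mem (-t⁻¹) ht
      rw [smul_sub, smul_smul, neg_mul, inv_mul_cancel₀ ht0] at this
      rw [map_smul]
      convert this using 1
      simp only [neg_smul, one_smul]
      abel
    rw [ht0, zero_smul, sub_zero] at ht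
    obtain ⟨a', ha1, h⟩ := S.ex₂ hc ht
    have := (A₂.Bd m).add_mem h (S.f_Bd (h₁' m (by omega) _ ha1))
    simpa using this
  · by_cases hm' : m = n + 1
    · subst hm'
      intro c hc
      obtain ⟨a', ha1, h⟩ := S.ex₂ hc (h₃' _ hm _ (S.g_Z hc))
      obtain ⟨t, ht⟩ := h₁.span haZ ha' ha1
      have h1 := S.f_Bd ht
      have h2 : t • f a ∈ A₂.Bd (n + 1) := Submodule.smul_mem _ _ (hab ▸ A₂.δ_mem_Bd hb)
      have := (A₂.Bd _).add_mem ((A₂.Bd _).add_mem h h1) h2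
      simpa using this
    · exact S.van₂ (h₁' m hm') (h₃' m hm)

end SES

end DG

end Crest.Agent.R186
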