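import Crest.Agent.R186.Bi

/-!
Duality lemmas: `Hom_K(-, V)` and `Hom_K(V, -)` preserve exactness; Tate duality.
-/

set_option autoImplicit false

namespace Crest.Agent.R186

open MulOpposite

variable {K : Type*} [Field K]

theorem exists_section {V V₀ : Type*} [AddCommGroup V] [Module K V] [AddCommGroup V₀] [Module K V₀]
    (S : Submodule K V) (T : V →ₗ[K] V₀) :
    ∃ s : V₀ →ₗ[K] V, (∀ v, s v ∈ S) ∧ ∀ v ∈ S.map T, T (s v) = v := by
  obtain ⟨σ, hσ⟩ := (T ∘ₗ S.subtype).rangeRestrict.exists_rightInverse_of_surjective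
    (LinearMap.range_rangeRestrict _)
  obtain ⟨π, hπ⟩ := (LinearMap.range (T ∘ₗ S.subtype)).subtype.exists_leftInverse_of_injective
    (Submodule.ker_subtype _)
  refine ⟨S.subtype ∘ₗ σ ∘ₗ π, fun v => (σ (π v)).2, ?_⟩
  rintro _ ⟨a, ha, rfl⟩
  have h1 : π (T a) = ⟨T a, ⟨⟨a, ha⟩, rfl⟩⟩ := LinearMap.congr_fun hπ ⟨T a, ⟨⟨a, ha⟩, rfl⟩⟩
  have h2 := congrArg Subtype.val (LinearMap.congr_fun hσ ⟨T a, ⟨⟨a, ha⟩, rfl⟩⟩)
  simp only [LinearMap.comp_apply, h1]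
  exact h2

theorem exists_factor {V V₀ W : Type*} [AddCommGroup V] [Module K V] [AddCommGroup V₀]
    [Module K V₀] [AddCommGroup W] [Module K W] (S : Submodule K V) (T : V →ₗ[K] V₀)
    (Φ : V →ₗ[K] W) (U : Submodule K W) (hU : ∀ a ∈ S, Φ a ∈ U)
    (h0 : ∀ a ∈ S, T a = 0 → Φ a = 0) :
    ∃ Ψ : V₀ →ₗ[K] W, (∀ v, Ψ v ∈ U) ∧ ∀ a ∈ S, Ψ (T a) = Φ a := by
  obtain ⟨s, hs1, hs2⟩ := exists_section S T
  refine ⟨Φ ∘ₗ s, fun v => hU _ (hs1 v), fun a ha => ?_⟩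
  have := h0 (s (T a) - a) (S.sub_mem (hs1 _) ha) (by rw [map_sub, hs2 _ ⟨a, ha, rfl⟩, sub_self])
  rwa [map_sub, sub_eq_zero] at this

variable {G G' : Type*} {Γ Γ' : GD G}
variable {R R' : Type*} [Ring R] [Algebra K R] [Ring R'] [Algebra K R']
variable {Y Y' V : Type*} [AddCommGroup Y] [Module K Y] [AddCommGroup Y'] [Module K Y']
  [AddCommGroup V] [Module K V]

namespace MD

theorem single_mem [DecidableEq G] (M : MD Γ R) (N : LM K R Y) {n : ℤ} {g : G} (hg : Γ.deg g = n)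
    {y : Y} (hy : y ∈ N.W) (he : N.ρ (M.e g) y = y) : Pi.single g y ∈ (M.cx N).Co n := by
  intro g'
  by_cases h : g' = g
  · subst h
    simp [hg, he, hy]
  · simp [Pi.single_eq_of_ne h]

theorem dl_single [DecidableEq G] (M : MD Γ R) (ρ : R →ₐ[K] Module.End K Y) (g g' : G) (y : Y) :
    M.dl ρ (Pi.single g y) g' = if Γ.deg g' = Γ.deg g + 1 then ρ (M.D g' g) y else 0 := by
  rw [dl_apply]
  split_ifs with h
  · rw [Finset.sum_eq_single g]
    · simp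
    · intro b _ hb
      simp [Pi.single_eq_of_ne hb]
    · intro h'
      exact (h' (by rw [Γ.mem_fib]; omega)).elim
  · refine Finset.sum_eq_zero fun b hb => ?_
    rw [Γ.mem_fib] at hb
    rw [Pi.single_eq_of_ne (by rintro rfl; omega), map_zero]

theorem sum_single [DecidableEq G] {M : MD Γ R} {N : LM K R Y} {n : ℤ} {c : G → Y}
    (hc : c ∈ (M.cx N).Co n) : ∑ g ∈ Γ.fib n, Pi.single g (c g) = c := by
  ext g
  rw [Finset.sum_apply]
  by_cases h : Γ.deg g = n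
  · rw [Finset.sum_eq_single g]
    · simp
    · intro b _ hb
      simp [Pi.single_eq_of_ne hb.symm]
    · intro h'
      exact (h' (by rwa [Γ.mem_fib])).elim
  · rw [(hc g).1 h]
    refine Finset.sum_eq_zero fun b hb => ?_
    rw [Γ.mem_fib] at hb
    rw [Pi.single_eq_of_ne (by rintro rfl; exact h hb)]

/-- the pairing of cochains -/
def pair (Γ : GD G) (β : Y' →ₗ[K] Y →ₗ[K] V) (n : ℤ) : (G → Y') →ₗ[K] (G → Y) →ₗ[K] V :=
  LinearMap.mk₂ K (fun c' c => ∑ g ∈ Γ.fib n, β (c' g) (c g))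
    (fun _ _ _ => by simp [Finset.sum_add_distrib]) (fun _ _ _ => by simp [Finset.smul_sum])
    (fun _ _ _ => by simp [Finset.sum_add_distrib]) (fun _ _ _ => by simp [Finset.smul_sum])

theorem pair_apply (Γ : GD G) (β : Y' →ₗ[K] Y →ₗ[K] V) (n : ℤ) (c' : G → Y') (c : G → Y) :
    pair Γ β n c' c = ∑ g ∈ Γ.fib n, β (c' g) (c g) := rfl

/-- `N'` is `Hom_K(N, U)`, with the transposed matrices. -/
structure IsDual (M : MD Γ R) (N : LM K R Y) (M' : MD Γ' R') (N' : LM K R' Y')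
    (β : Y' →ₗ[K] Y →ₗ[K] V) (U : Submodule K V) : Prop where
  deg : ∀ g, Γ'.deg g = -Γ.deg g
  he : ∀ g y' y, y' ∈ N'.W → y ∈ N.W → β (N'.ρ (M'.e g) y') y = β y' (N.ρ (M.e g) y)
  hD : ∀ g g' y' y, y' ∈ N'.W → y ∈ N.W → β (N'.ρ (M'.D g g') y') y = β y' (N.ρ (M.D g' g) y)
  hU : ∀ y' y, y' ∈ N'.W → y ∈ N.W → β y' y ∈ U
  nd : ∀ y', y' ∈ N'.W → (∀ y ∈ N.W, β y' y = 0) → y' = 0
  surj : ∀ φ : Y →ₗ[K] V, (∀ y, φ y ∈ U) → ∃ y' ∈ N'.W, ∀ y ∈ N.W, β y' y = φ y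

namespace IsDual

variable {M : MD Γ R} {N : LM K R Y} {M' : MD Γ' R'} {N' : LM K R' Y'}
    {β : Y' →ₗ[K] Y →ₗ[K] V} {U : Submodule K V}

theorem fib (h : IsDual M N M' N' β U) (n : ℤ) : Γ'.fib n = Γ.fib (-n) := by
  ext g
  rw [Γ'.mem_fib, Γ.mem_fib, h.deg]
  omega

theorem adj (h : IsDual M N M' N' β U) {n : ℤ} {c' : G → Y'} (hc' : c' ∈ (M'.cx N').Co n)
    {c : G → Y} (hc : c ∈ (M.cx N).Co (-n - 1)) :
    pair Γ' β n c' ((M.cx N).δ c) = pair Γ' β (n + 1) ((M'.cx N').δ c') c := by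
  simp only [pair_apply, δ_apply, map_sum, LinearMap.sum_apply]
  rw [Finset.sum_congr rfl (g := fun g => ∑ g' ∈ Γ'.fib (n + 1), β (c' g) (N.ρ (M.D g g') (c g'))),
    Finset.sum_comm]
  · refine Finset.sum_congr rfl fun g hg => ?_
    rw [Γ'.mem_fib] at hg
    rw [hg, add_sub_cancel_right]
    exact Finset.sum_congr rfl fun g' _ => (h.hD _ _ _ _ (hc' _).2.2 (hc _).2.2).symm
  · intro g hg
    rw [Γ'.mem_fib, h.deg] at hg
    rw [h.fib, show Γ.deg g - 1 = -(n + 1) by omega]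

theorem key (h : IsDual M N M' N' β U) {n : ℤ} {c' : G → Y'} (hc' : c' ∈ (M'.cx N').Co n)
    (h0 : ∀ c ∈ (M.cx N).Z (-n), pair Γ' β n c' c = 0) : c' ∈ (M'.cx N').Bd n := by
  classical
  obtain ⟨Ψ, hΨ1, hΨ2⟩ := exists_factor ((M.cx N).Co (-n)) (M.cx N).δ (pair Γ' β n c') U
    (fun a ha => U.sum_mem fun g _ => h.hU _ _ (hc' g).2.2 (ha g).2.2)
    (fun a ha h1 => h0 a ⟨ha, h1⟩)
  choose y' hy1 hy2 using fun g => h.surj (Ψ ∘ₗ LinearMap.single K (fun _ => Y) g ∘ₗ N.ρ (M.e g))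
    (fun y => hΨ1 _)
  have hb := M'.pr_mem N' (n - 1) (c := y') fun g _ => hy1 g
  refine ⟨_, hb, co_ext ((M'.cx N').mem' hb) hc' fun g hg => ?_⟩
  rw [← sub_eq_zero]
  refine h.nd _ (N'.W.sub_mem (((M'.cx N').mem' hb g).2.2) (hc' g).2.2) fun y hy => ?_
  have hg' : Γ.deg g = -n := by rw [h.deg] at hg; omega
  have he : N.ρ (M.e g) (N.ρ (M.e g) y) = N.ρ (M.e g) y := by rw [← N.ρ_mul, M.ee]
  have hs := M.single_mem N hg' (N.inv (M.e g) y hy) he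
  have h1 := hΨ2 _ hs
  have h2 : pair Γ' β n c' (Pi.single g (N.ρ (M.e g) y)) = β (c' g) y := by
    rw [pair_apply, Finset.sum_eq_single g]
    · rw [Pi.single_eq_same, ← h.he _ _ _ (hc' g).2.2 hy, (hc' g).2.1]
    · intro b _ hb
      simp [Pi.single_eq_of_ne hb]
    · intro h'
      exact (h' (by rwa [Γ'.mem_fib])).elim
  rw [map_sub, LinearMap.sub_apply, sub_eq_zero, ← h2, ← h1, cx_δ,
    M'.dl_pr _ _ (by omega), dl_apply, ← sum_single ((M.cx N).mem _ _ hs), map_sum,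
    LinearMap.sum_apply, map_sum, h.fib, show -(Γ'.deg g - 1) = -n + 1 by omega]
  refine Finset.sum_congr rfl fun g' hg'' => ?_
  rw [Γ.mem_fib] at hg''
  rw [h.hD _ _ _ _ (hy1 _) hy, hy2 _ _ (N.inv _ _ hy), cx_δ, dl_single, if_pos (by omega)]
  simp only [LinearMap.comp_apply, LinearMap.coe_single, ← N.ρ_mul, M.eD, M.De]

theorem pair_Bd (h : IsDual M N M' N' β U) {n : ℤ} {c' : G → Y'} (hc' : c' ∈ (M'.cx N').Z n)
    {c : G → Y} (hc : c ∈ (M.cx N).Bd (-n)) : pair Γ' β n c' c = 0 := by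
  obtain ⟨b, hb, rfl⟩ := hc
  rw [h.adj hc'.1 hb, show (M'.cx N').δ c' = 0 from hc'.2]
  simp

theorem van (h : IsDual M N M' N' β U) {n : ℤ} (hv : (M.cx N).Van (-n)) : (M'.cx N').Van n :=
  fun _ hc' => h.key hc'.1 fun c hc => h.pair_Bd hc' (hv c hc)

theorem acyc (h : IsDual M N M' N' β U) (hv : (M.cx N).Acyc) : (M'.cx N').Acyc :=
  fun _ => h.van (hv _)

theorem rel_one {β : Y' →ₗ[K] Y →ₗ[K] K} {U : Submodule K K} (h : IsDual M N M' N' β U) {n : ℤ}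
    (hv : (M.cx N).Rel (-n) 1) : (M'.cx N').Rel n 1 := by
  by_cases h0 : (M.cx N).Van (-n)
  · exact (h.van h0).rel 1
  · obtain ⟨c₀, hc₀, hc₀'⟩ : ∃ c₀ ∈ (M.cx N).Z (-n), c₀ ∉ (M.cx N).Bd (-n) := by
      by_contra hcon
      push Not at hcon
      exact h0 hcon
    refine DG.rel_one_of_functional ((pair Γ' β n).flip c₀) fun c' hc' h1 => ?_
    refine h.key hc'.1 fun c hc => ?_
    obtain ⟨t, ht⟩ := hv.span hc₀ hc₀' hc
    have := h.pair_Bd hc' ht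
    rw [map_sub, map_smul, show pair Γ' β n c' c₀ = 0 from h1, smul_zero, sub_zero] at this
    exact this

end IsDual

theorem isDual_trRep' (M : MD Γ R) (ρ : Rᵐᵒᵖ →ₐ[K] Module.End K Y) (V : Type*) [AddCommGroup V]
    [Module K V] : IsDual M.op (LM.top ρ) M (LM.top (trRep' ρ V)) LinearMap.id ⊤ :=
  ⟨fun g => by simp, fun _ _ _ _ _ => rfl, fun _ _ _ _ _ _ => rfl, fun _ _ _ _ => trivial,
    fun _ _ h => LinearMap.ext fun y => h y trivial, fun φ _ => ⟨φ, trivial, fun _ _ => rfl⟩⟩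

theorem isDual_trRep (M : MD Γ R) (ρ : R →ₐ[K] Module.End K Y) (V : Type*) [AddCommGroup V]
    [Module K V] : IsDual M (LM.top ρ) M.op (LM.top (trRep ρ V)) LinearMap.id ⊤ :=
  ⟨fun _ => rfl, fun _ _ _ _ _ => rfl, fun _ _ _ _ _ _ => rfl, fun _ _ _ _ => trivial,
    fun _ _ h => LinearMap.ext fun y => h y trivial, fun φ _ => ⟨φ, trivial, fun _ _ => rfl⟩⟩

theorem acyc_trRep' (M : MD Γ R) {ρ : Rᵐᵒᵖ →ₐ[K] Module.End K Y} (V : Type*) [AddCommGroup V]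
    [Module K V] (h : (M.op.cx (LM.top ρ)).Acyc) : (M.cx (LM.top (trRep' ρ V))).Acyc :=
  (M.isDual_trRep' ρ V).acyc h

theorem acyc_trRep (M : MD Γ R) {ρ : R →ₐ[K] Module.End K Y} (V : Type*) [AddCommGroup V]
    [Module K V] (h : (M.cx (LM.top ρ)).Acyc) : (M.op.cx (LM.top (trRep ρ V))).Acyc :=
  (M.isDual_trRep ρ V).acyc h

theorem van_postRep (M : MD Γ R) {ρ : R →ₐ[K] Module.End K Y} (V : Type*) [AddCommGroup V]
    [Module K V] {n : ℤ} (h : (M.cx (LM.top ρ)).Van n) : (M.cx (LM.top (postRep ρ V))).Van n := by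
  intro c hc
  obtain ⟨s, hs1, hs2⟩ := exists_section ((M.cx (LM.top ρ)).Co (n - 1)) (M.cx (LM.top ρ)).δ
  have h1 : ∀ v, (fun g => c g v) ∈ (M.cx (LM.top ρ)).Z n := by
    intro v
    refine ⟨fun g => ⟨fun h => by simp [(hc.1 g).1 h], LinearMap.congr_fun (hc.1 g).2.1 v,
      trivial⟩, ?_⟩
    ext g
    have := LinearMap.congr_fun (congrFun hc.2 g) v
    simpa [δ_apply, LinearMap.sum_apply] using this
  refine ⟨fun g => LinearMap.proj g ∘ₗ s ∘ₗ LinearMap.pi c, fun g => ⟨fun hg => ?_, ?_, trivial⟩, ?_⟩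
  · ext v
    exact (hs1 _ g).1 hg
  · ext v
    exact (hs1 _ g).2.1
  · ext g v
    have := congrFun (hs2 (LinearMap.pi c v) (h _ (h1 v))) g
    simpa [δ_apply, LinearMap.sum_apply] using this

theorem acyc_postRep (M : MD Γ R) {ρ : R →ₐ[K] Module.End K Y} (V : Type*) [AddCommGroup V]
    [Module K V] (h : (M.cx (LM.top ρ)).Acyc) : (M.cx (LM.top (postRep ρ V))).Acyc :=
  fun n => M.van_postRep V (h n)

end MD

section

variable {Γ₁ : GD G} {Γ₂ : GD G'} {A B : Type*} [Ring A] [Algebra K A] [Ring B] [Algebra K B]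
  {Y₁ Y₂ : Type*} [AddCommGroup Y₁] [Module K Y₁] [AddCommGroup Y₂] [Module K Y₂]

/-- the cycles of `Hom_K(Y₁, Y₂) ⊗ P` are cohomologically trivial -/
theorem acyc_hom_Z (M : MD Γ₁ A) (M' : MD Γ₂ B) (ρ₁ : Aᵐᵒᵖ →ₐ[K] Module.End K Y₁)
    (ρ₂ : B →ₐ[K] Module.End K Y₂) (h : (M.op.cx (LM.top ρ₁)).Acyc) (n : ℤ) :
    (M.cx ((Bi.hom ρ₁ ρ₂).Z M' n)).Acyc := by
  let β : (G' → Y₁ →ₗ[K] Y₂) →ₗ[K] Y₁ →ₗ[K] (G' → Y₂) :=
    LinearMap.mk₂ K (fun c y g => c g y) (fun _ _ _ => rfl) (fun _ _ _ => rfl)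
      (fun _ _ _ => by ext; simp) (fun _ _ _ => by ext; simp)
  have hβ : ∀ c y g, β c y g = c g y := fun _ _ _ => rfl
  refine MD.IsDual.acyc (M := M.op) (N := LM.top ρ₁) (β := β) (U := (M'.cx (LM.top ρ₂)).Z n)
    ⟨fun g => by simp, fun _ _ _ _ _ => rfl, fun _ _ _ _ _ _ => rfl, fun c y hc _ => ?_,
      fun c _ h => ?_, fun φ hφ => ?_⟩ h
  · refine ⟨fun g => ⟨fun h => by simp [hβ, (hc.1 g).1 h], LinearMap.congr_fun (hc.1 g).2.1 y,
      trivial⟩, ?_⟩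
    ext g
    have := LinearMap.congr_fun (congrFun hc.2 g) y
    simpa [MD.δ_apply, LinearMap.sum_apply, hβ] using this
  · ext g y
    exact congrFun (h y trivial) g
  · refine ⟨fun g => LinearMap.proj g ∘ₗ φ, ⟨fun g => ⟨fun hg => ?_, ?_, trivial⟩, ?_⟩,
      fun _ _ => rfl⟩
    · ext y
      exact ((hφ y).1 g).1 hg
    · ext y
      exact ((hφ y).1 g).2.1
    · ext g y
      have := congrFun (hφ y).2 g
      simpa [MD.δ_apply, LinearMap.sum_apply] using this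

/-- exchange of the two variables -/
def flipL (K : Type*) [Field K] (G G' Y : Type*) [AddCommGroup Y] [Module K Y] :
    (G → G' → Y) →ₗ[K] (G' → G → Y) where
  toFun c g' g := c g g'
  map_add' _ _ := rfl
  map_smul' _ _ := rfl

@[simp] theorem flipL_apply (c : G → G' → Y) (g' : G') (g : G) : flipL K G G' Y c g' g = c g g' :=
  rfl

/-- symmetry of the cohomology of a double complex -/
theorem rel_swap (β : Bi K A B Y) (M : MD Γ₁ A) (M' : MD Γ₂ B) {m j : ℤ} {r : ℕ}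
    (h' : (β.inner M').Van j) (h : (M.cx (β.Z M' j)).Rel m r) :
    (M'.cx (β.swap.Z M m)).Rel j r := by
  refine h.of_inj (flipL K G' G Y) (fun c hc => ?_) fun c hc hb => ?_
  · refine ⟨fun g => ⟨fun hg => ?_, ?_, fun g' => ⟨fun hg' => ?_, ?_, trivial⟩, ?_⟩, ?_⟩
    · ext g'
      exact ((hc.1 g').2.2.1 g).1 hg
    · ext g'
      exact ((hc.1 g').2.2.1 g).2.1
    · exact congrFun ((hc.1 g').1 hg') g
    · exact congrFun (hc.1 g').2.1 g
    · ext g'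
      have := congrFun (congrFun hc.2 g') g
      simpa [MD.δ_apply, Finset.sum_apply] using this
    · ext g g'
      have := congrFun (hc.1 g').2.2.2 g
      simpa [MD.δ_apply, Finset.sum_apply] using this
  · obtain ⟨b, hb1, hb2⟩ := hb
    have S := M.cx_ses (β.ses_Z_Co_Bd M' (j - 1))
    rw [sub_add_cancel] at S
    obtain ⟨b', hb'1, hb'2⟩ := S.surj (m - 1) b fun g => ⟨(hb1 g).1, (hb1 g).2.1, h' _ (hb1 g).2.2⟩
    have h1 := (M.cx (β.Co M' (j - 1))).mem' hb'1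
    have h2 := (M.cx (β.Co M' (j - 1))).sq _ _ hb'1
    have h3 := S.g_comm _ _ hb'1
    rw [hb'2] at h3
    refine ⟨flipL K G G' Y ((M.cx (β.Co M' (j - 1))).δ b'), fun g' => ⟨fun hg' => ?_, ?_,
      fun g => ⟨fun hg => ?_, ?_, trivial⟩, ?_⟩, ?_⟩
    · ext g
      exact ((h1 g).2.2 g').1 hg'
    · ext g
      exact ((h1 g).2.2 g').2.1
    · exact congrFun ((h1 g).1 hg) g'
    · exact congrFun (h1 g).2.1 g'
    · ext g
      have := congrFun (congrFun h2 g) g'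
      rw [MD.δ_apply] at this
      simpa [MD.δ_apply (N := β.swap.R), Finset.sum_apply] using this
    · ext g' g
      have h4 := congrFun (congrFun h3 g) g'
      have h5 := congrFun (congrFun hb2 g) g'
      rw [flipL_apply] at h5
      rw [← h5]
      refine Eq.trans ?_ h4
      simp [MD.δ_apply (N := β.swap.Z M m), MD.dl_apply, Finset.sum_apply]

end

end Crest.Agent.R186
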