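import Crest.Agent.R186.Bi

/-!
Interfaces for the explicit part of the construction.
-/

set_option autoImplicit false

namespace Crest.Agent.R186

open MulOpposite

/-- The complex `A` has one-dimensional total cohomology, in degree `n₀`, spanned by `z` and
detected by the functional `π`. -/
structure DG.One {K V : Type*} [Field K] [AddCommGroup V] [Module K V] (A : DG K V) (n₀ : ℤ)
    (z : V) (π : V →ₗ[K] K) : Prop where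
  z_mem : z ∈ A.Z n₀
  π_z : π z = 1
  π_deg : ∀ n c, c ∈ A.Co n → n ≠ n₀ → π c = 0
  π_δ : ∀ n c, c ∈ A.Co n → π (A.δ c) = 0
  exact : ∀ n c, c ∈ A.Z n → π c = 0 → c ∈ A.Bd n

open Classical in
/-- A one-dimensional module `χ` over `R` with a projective resolution `P`, a complex `Q` whose
transpose resolves `χ` on the other side, and a comparison map `α : P → Q` of degree `-d`
exhibiting `RHom(χ, R) = χ[-d]`. -/
structure SD (K R : Type*) [Field K] [Ring R] [Algebra K R] {GP GQ : Type} (ΓP : GD GP)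
    (ΓQ : GD GQ) where
  P : MD ΓP R
  Q : MD ΓQ R
  d : ℤ
  α : GP → GQ → R
  χ : R →ₐ[K] K
  p₀ : GP
  p₁ : GP
  q₀ : GQ
  q₁ : GQ
  πP : R →ₗ[K] K
  πQ : R →ₗ[K] K
  degP : ∀ g, 0 ≤ ΓP.deg g
  degQ : ∀ g, ΓQ.deg g ≤ 0
  deg_p₀ : ΓP.deg p₀ = 0
  deg_q₀ : ΓQ.deg q₀ = 0
  deg_p₁ : ΓP.deg p₁ = d
  deg_q₁ : ΓQ.deg q₁ = -d
  eα : ∀ g g', P.e g * α g g' = α g g'
  αe : ∀ g g', α g g' * Q.e g' = α g g'
  α_deg : ∀ g g', ΓQ.deg g' + d ≠ ΓP.deg g → α g g' = 0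
  α_chain : ∀ g g'', ΓQ.deg g'' + d + 1 = ΓP.deg g →
    ∑ g' ∈ ΓP.fib (ΓP.deg g - 1), P.D g g' * α g' g'' =
      ∑ g' ∈ ΓQ.fib (ΓP.deg g - d), α g g' * Q.D g' g''
  α_p₀ : ∀ g', g' ≠ q₁ → α p₀ g' = 0
  α_q₀ : ∀ g, g ≠ p₁ → α g q₀ = 0
  χP : ∀ g g', χ (P.D g g') = 0
  χQ : ∀ g g', χ (Q.D g g') = 0
  χα : ∀ g g', χ (α g g') = 0
  χ_p₀ : χ (P.e p₀) = 1
  χ_q₀ : χ (Q.e q₀) = 1
  χ_eP : ∀ g, g ≠ p₀ → χ (P.e g) = 0
  χ_eQ : ∀ g, g ≠ q₀ → χ (Q.e g) = 0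
  Pch : (P.op.cx (Bi.reg K R).R).One 0 (Pi.single p₀ (P.e p₀)) (χ.toLinearMap ∘ₗ LinearMap.proj p₀)
  Qco : (Q.cx (Bi.reg K R).L).One 0 (Pi.single q₀ (Q.e q₀)) (χ.toLinearMap ∘ₗ LinearMap.proj q₀)
  Qch : (Q.op.cx (Bi.reg K R).R).One d (Pi.single q₁ (α p₀ q₁)) (πQ ∘ₗ LinearMap.proj q₁)
  Pco : (P.cx (Bi.reg K R).L).One d (Pi.single p₁ (α p₁ q₀)) (πP ∘ₗ LinearMap.proj p₁)

/-- `B[z]/(z²)` -/
abbrev Ez (K B : Type*) [Field K] [Ring B] [Algebra K B] : Type _ := TE (Bi.reg K B)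

/-- the map `B[z]/(z²) → K[z]/(z²)` induced by a character -/
def Ez.ch {K B : Type*} [Field K] [Ring B] [Algebra K B] (χ : B →ₐ[K] K) : Ez K B →ₐ[K] Ez K K :=
  AlgHom.ofLinearMap
    (TE.inlL _ ∘ₗ χ.toLinearMap ∘ₗ TE.fstL _ + TE.inr _ ∘ₗ χ.toLinearMap ∘ₗ TE.sndL _)
    (by ext <;> simp) fun _ _ => by ext <;> simp

@[simp] theorem Ez.fst_ch {K B : Type*} [Field K] [Ring B] [Algebra K B] (χ : B →ₐ[K] K)
    (a : Ez K B) : (Ez.ch χ a).fst = χ a.fst := by simp [Ez.ch]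

@[simp] theorem Ez.snd_ch {K B : Type*} [Field K] [Ring B] [Algebra K B] (χ : B →ₐ[K] K)
    (a : Ez K B) : (Ez.ch χ a).snd = χ a.snd := by simp [Ez.ch]

open Classical in
/-- The data over `E = B[z]/(z²)` used by the abstract part of the argument. -/
structure Setup (K B : Type*) [Field K] [Ring B] [Algebra K B] (q : K) {G : Type} (Γ : GD G)
    (X : MD Γ (Ez K B)) where
  χ : B →ₐ[K] K
  w : G → ℤ
  p : G → Prop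
  g₀ : G
  s : G → G → Ez K B →ₗ[K] Ez K B
  e_snd : ∀ g, (X.e g).snd = 0
  D_fst : ∀ g g', w g ≠ w g' → (X.D g g').fst = 0
  D_snd : ∀ g g', w g ≠ w g' + 1 → (X.D g g').snd = 0
  χD : ∀ g g', χ (X.D g g').fst = 0
  deg_g₀ : Γ.deg g₀ = 1
  w_g₀ : w g₀ = 0
  p_g₀ : p g₀
  χ_g₀ : χ (X.e g₀).fst = 1
  χe : ∀ g, w g = 0 → g ≠ g₀ → χ (X.e g).fst = 0
  Dp : ∀ g g', ¬ p g → p g' → X.D g g' = 0
  deg_p : ∀ g, p g → 1 ≤ Γ.deg g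
  deg_np : ∀ g, ¬ p g → Γ.deg g ≤ 4
  A1 : ∀ n c, c ∈ ((X.trunc p fun _ g' g'' _ h2 h3 => by rw [Dp g' g'' h2 h3, mul_zero]).op.cx
      (Bi.reg K (Ez K B)).R).Z n → χ (c g₀).fst = 0 →
    c ∈ ((X.trunc p fun _ g' g'' _ h2 h3 => by rw [Dp g' g'' h2 h3, mul_zero]).op.cx
      (Bi.reg K (Ez K B)).R).Bd n
  A2 : (X.op.cx (Bi.reg K (Ez K B)).R).Acyc
  A3 : (X.cx (Bi.reg K (Ez K B)).L).Acyc
  ind_van : ∀ j, j ≠ 1 → j ≠ 4 → (X.cx (LM.top ((lrep K (Ez K K)).comp (Ez.ch χ)))).Van j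
  ind_one : (X.cx (LM.top ((lrep K (Ez K K)).comp (Ez.ch χ)))).Rel 1 1
  s_lin : ∀ g g' (b : B) y, s g g' (TE.inl _ b * y) = TE.inl _ b * s g g' y
  s_e : ∀ g g' y, s g g' (y * X.e g) = s g g' y
  s_e' : ∀ g g' y, s g g' y * X.e g' = s g g' y
  s_rel : ∀ g g'' y, Γ.deg g = Γ.deg g'' →
    ∑ g' ∈ Γ.fib (Γ.deg g - 1), s g' g'' (y * X.D g g') +
      ∑ g' ∈ Γ.fib (Γ.deg g + 1), s g g' y * X.D g' g'' =
    if g = g'' then TE.mk _ ((1 + q ^ (-w g)) • (y * X.e g).fst)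
      ((1 + q ^ (-w g - 1)) • (y * X.e g).snd) else 0

end Crest.Agent.R186
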