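import Crest.Agent.R186.Aug
import Crest.Agent.R186.Setup

/-!
Bimodules over `E = B[z]/(z²)`.
-/

set_option autoImplicit false

namespace Crest.Agent.R186

open MulOpposite Module

variable {K : Type*} [Field K]

section cover

variable {E Y : Type*} [Ring E] [Algebra K E] [FiniteDimensional K E] [AddCommGroup Y] [Module K Y]

/-- the bimodule `Hom_K(DE, Y) = E ⊗ Y` -/
def Bi.cov (β : Bi K E Eᵐᵒᵖ Y) : Bi K E Eᵐᵒᵖ ((E →ₗ[K] K) →ₗ[K] Y) :=
  Bi.hom (Bi.reg K E).dual.r β.r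

/-- the multiplication map `E ⊗ Y → Y` -/
noncomputable def Bi.covπ (β : Bi K E Eᵐᵒᵖ Y) : ((E →ₗ[K] K) →ₗ[K] Y) →ₗ[K] Y :=
  ∑ i, β.l (finBasis K E i) ∘ₗ LinearMap.applyₗ ((finBasis K E).coord i)

theorem Bi.covπ_apply (β : Bi K E Eᵐᵒᵖ Y) (f : (E →ₗ[K] K) →ₗ[K] Y) :
    β.covπ f = ∑ i, β.l (finBasis K E i) (f ((finBasis K E).coord i)) := by
  simp [Bi.covπ, LinearMap.sum_apply]

/-- a linear section of the multiplication map -/
def covSec (K E Y : Type*) [Field K] [Ring E] [Algebra K E] [AddCommGroup Y] [Module K Y] :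
    Y →ₗ[K] ((E →ₗ[K] K) →ₗ[K] Y) :=
  LinearMap.mk₂ K (fun y l => l 1 • y) (fun _ _ _ => by simp) (fun _ _ _ => smul_comm _ _ _)
    (fun _ _ _ => by simp [add_smul]) (fun _ _ _ => by simp [mul_smul])

theorem Bi.covπ_sec (β : Bi K E Eᵐᵒᵖ Y) (y : Y) : β.covπ (covSec K E Y y) = y := by
  rw [Bi.covπ_apply]
  simp only [covSec, LinearMap.mk₂_apply, map_smul, ← LinearMap.smul_apply, ← LinearMap.sum_apply]
  simp only [← map_smul, ← map_sum, Basis.coord_apply, Basis.sum_repr]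
  simp

theorem Bi.hom_covπ (β : Bi K E Eᵐᵒᵖ Y) : Bi.Hom β.cov β β.covπ := by
  constructor
  · intro a f
    have h1 : ∀ i, (β.cov.l a f) ((finBasis K E).coord i) =
        ∑ j, (finBasis K E).repr (a * finBasis K E j) i • f ((finBasis K E).coord j) := by
      intro i
      simp only [← map_smul, ← map_sum]
      show f _ = f _
      congr 1
      refine (finBasis K E).ext fun j => ?_
      simp [LinearMap.sum_apply, Finsupp.single_apply]
    simp only [Bi.covπ_apply, h1, map_sum, map_smul]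
    rw [Finset.sum_comm]
    refine Finset.sum_congr rfl fun j _ => ?_
    simp only [← LinearMap.smul_apply, ← LinearMap.sum_apply]
    simp only [← map_smul, ← map_sum, Basis.sum_repr, rep_mul]
  · intro b f
    simp only [Bi.covπ_apply, map_sum, ← β.comm]
    rfl

end cover

variable {B : Type*} [Ring B] [Algebra K B]

namespace Ez

/-- the variable `z` -/
def z (K B : Type*) [Field K] [Ring B] [Algebra K B] : Ez K B := TE.mk _ 0 1

@[simp] theorem fst_z : (z K B).fst = 0 := rfl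
@[simp] theorem snd_z : (z K B).snd = 1 := rfl

theorem decomp (a : Ez K B) : a = TE.inl _ a.fst * 1 + TE.inl _ a.snd * z K B := by
  ext <;> simp

theorem z_mul (a : Ez K B) : z K B * a = TE.inl _ a.fst * z K B := by ext <;> simp

/-- the substitution `z ↦ t z` -/
def sc (B : Type*) [Ring B] [Algebra K B] (t : K) : Ez K B →ₐ[K] Ez K B :=
  AlgHom.ofLinearMap (TE.inlL _ ∘ₗ TE.fstL _ + t • TE.inr _ ∘ₗ TE.sndL _) (by ext <;> simp)
    fun _ _ => by ext <;> simp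

@[simp] theorem fst_sc (t : K) (a : Ez K B) : (sc B t a).fst = a.fst := by simp [sc]
@[simp] theorem snd_sc (t : K) (a : Ez K B) : (sc B t a).snd = t • a.snd := by simp [sc]

theorem sc_inv_sc {t : K} (ht : t ≠ 0) (a : Ez K B) : sc B t⁻¹ (sc B t a) = a := by
  ext <;> simp [smul_smul, inv_mul_cancel₀ ht]

theorem sc_sc_inv {t : K} (ht : t ≠ 0) (a : Ez K B) : sc B t (sc B t⁻¹ a) = a := by
  ext <;> simp [smul_smul, mul_inv_cancel₀ ht]

theorem sc_inl (t : K) (b : B) : sc B t (TE.inl _ b) = TE.inl _ b := by ext <;> simp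

/-- the regular bimodule with the right action twisted -/
def tw (B : Type*) [Ring B] [Algebra K B] (t : K) : Bi K (Ez K B) (Ez K B)ᵐᵒᵖ (Ez K B) :=
  (Bi.reg K (Ez K B)).res (AlgHom.id K _) (AlgHom.op (sc B t))

@[simp] theorem tw_l (t : K) (a y : Ez K B) : (tw B t).l a y = a * y := rfl
@[simp] theorem tw_r (t : K) (a : (Ez K B)ᵐᵒᵖ) (y : Ez K B) :
    (tw B t).r a y = y * sc B t (unop a) := rfl

/-- `End_K(E)` -/
def U0 (K B : Type*) [Field K] [Ring B] [Algebra K B] :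
    Bi K (Ez K B) (Ez K B)ᵐᵒᵖ (Ez K B →ₗ[K] Ez K B) :=
  Bi.hom (rrep K (Ez K B)) (rrep K (Ez K B))

@[simp] theorem U0_l (a : Ez K B) (φ : Ez K B →ₗ[K] Ez K B) (y : Ez K B) :
    (U0 K B).l a φ y = φ (y * a) := rfl
@[simp] theorem U0_r (a : (Ez K B)ᵐᵒᵖ) (φ : Ez K B →ₗ[K] Ez K B) (y : Ez K B) :
    (U0 K B).r a φ y = φ y * unop a := rfl

/-- `End_B(E)` -/
def Ssub (K B : Type*) [Field K] [Ring B] [Algebra K B] : Submodule K (Ez K B →ₗ[K] Ez K B) where
  carrier := {ψ | ∀ (b : B) y, ψ (TE.inl _ b * y) = TE.inl _ b * ψ y}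
  add_mem' := fun h h' b y => by simp [h b y, h' b y, mul_add]
  zero_mem' := fun b y => by simp
  smul_mem' := fun t ψ h b y => by simp [h b y]

theorem Ssub_apply {ψ : Ez K B →ₗ[K] Ez K B} (h : ψ ∈ Ssub K B) (a : Ez K B) :
    ψ a = TE.inl _ a.fst * ψ 1 + TE.inl _ a.snd * ψ (z K B) := by
  conv_lhs => rw [decomp a, map_add, h, h]

theorem comp_mem_Ssub {ψ ψ' : Ez K B →ₗ[K] Ez K B} (h : ψ ∈ Ssub K B) (h' : ψ' ∈ Ssub K B) :
    ψ ∘ₗ ψ' ∈ Ssub K B := fun b y => by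
  rw [LinearMap.comp_apply, h', h, LinearMap.comp_apply]

theorem mulRight_mem (a : Ez K B) : LinearMap.mulRight K a ∈ Ssub K B := fun b y => by
  simp [mul_assoc]

theorem sc_mem (t : K) : (sc B t).toLinearMap ∈ Ssub K B := fun b y => by
  simp [sc_inl]

/-- `End_B(E)` as a bimodule -/
def βS (K B : Type*) [Field K] [Ring B] [Algebra K B] :
    Bi K (Ez K B) (Ez K B)ᵐᵒᵖ (Ssub K B) :=
  (U0 K B).sub (Ssub K B) (fun a _ h => comp_mem_Ssub h (mulRight_mem a))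
    (fun a _ h => comp_mem_Ssub (mulRight_mem (unop a)) h)

@[simp] theorem βS_l (a : Ez K B) (φ : Ssub K B) (y : Ez K B) :
    ((βS K B).l a φ : Ez K B →ₗ[K] Ez K B) y = (φ : Ez K B →ₗ[K] Ez K B) (y * a) := rfl
@[simp] theorem βS_r (a : (Ez K B)ᵐᵒᵖ) (φ : Ssub K B) (y : Ez K B) :
    ((βS K B).r a φ : Ez K B →ₗ[K] Ez K B) y = (φ : Ez K B →ₗ[K] Ez K B) y * unop a := rfl

/-- values at `1` and `z` -/
def evS (K B : Type*) [Field K] [Ring B] [Algebra K B] : Ssub K B →ₗ[K] Ez K B × Ez K B :=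
  (LinearMap.applyₗ 1 ∘ₗ (Ssub K B).subtype).prod (LinearMap.applyₗ (z K B) ∘ₗ (Ssub K B).subtype)

@[simp] theorem evS_apply (ψ : Ssub K B) :
    evS K B ψ = ((ψ : Ez K B →ₗ[K] Ez K B) 1, (ψ : Ez K B →ₗ[K] Ez K B) (z K B)) := rfl

theorem evS_inj (ψ : Ssub K B) (h : evS K B ψ = 0) : ψ = 0 := by
  apply Subtype.ext
  refine LinearMap.ext fun a => ?_
  have h1 : (ψ : Ez K B →ₗ[K] Ez K B) 1 = 0 := congrArg Prod.fst h
  have h2 : (ψ : Ez K B →ₗ[K] Ez K B) (z K B) = 0 := congrArg Prod.snd h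
  rw [Ssub_apply ψ.2, h1, h2]
  simp

theorem evS_surj (u : Ez K B × Ez K B) : ∃ ψ, evS K B ψ = u := by
  refine ⟨⟨LinearMap.mulRight K u.1 ∘ₗ TE.inlL _ ∘ₗ TE.fstL _ +
    LinearMap.mulRight K u.2 ∘ₗ TE.inlL _ ∘ₗ TE.sndL _, fun b y => ?_⟩, ?_⟩
  · ext <;> simp [mul_add, mul_assoc]
  · ext <;> simp

theorem hom_evS : LM.Hom (βS K B).R ((Bi.reg K (Ez K B)).prod (Bi.reg K (Ez K B))).R (evS K B) :=
  ⟨fun _ _ => trivial, fun _ _ _ => rfl⟩

/-- `E × E ≅ End_B(E)` as left modules -/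
def mkS (K B : Type*) [Field K] [Ring B] [Algebra K B] : Ez K B × Ez K B →ₗ[K] Ssub K B :=
  LinearMap.codRestrict _
    (LinearMap.mk₂ K (fun (u : Ez K B × Ez K B) y => TE.mk _ (y * u.1).snd (y * u.2).snd)
      (fun _ _ _ => by ext <;> simp [mul_add]) (fun _ _ _ => by ext <;> simp)
      (fun _ _ _ => by ext <;> simp [add_mul]) (fun _ _ _ => by ext <;> simp))
    fun u b y => by ext <;> simp [mul_add, mul_assoc]

theorem mkS_apply (u : Ez K B × Ez K B) (y : Ez K B) :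
    (mkS K B u : Ez K B →ₗ[K] Ez K B) y = TE.mk _ (y * u.1).snd (y * u.2).snd := rfl

theorem hom_mkS : LM.Hom ((Bi.reg K (Ez K B)).prod (Bi.reg K (Ez K B))).L (βS K B).L (mkS K B) :=
  ⟨fun _ _ => trivial, fun a u _ => Subtype.ext (LinearMap.ext fun y => by
    show TE.mk _ (y * (a * u.1)).snd (y * (a * u.2)).snd =
      TE.mk _ (y * a * u.1).snd (y * a * u.2).snd
    rw [mul_assoc, mul_assoc])⟩

theorem mkS_inj (u : Ez K B × Ez K B) (h : mkS K B u = 0) : u = 0 := by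
  have h1 := LinearMap.congr_fun (congrArg Subtype.val h) 1
  have h2 := LinearMap.congr_fun (congrArg Subtype.val h) (z K B)
  rw [mkS_apply] at h1 h2
  ext
  · simpa using congrArg TE.fst h2
  · simpa using congrArg TE.fst h1
  · simpa using congrArg TE.snd h2
  · simpa using congrArg TE.snd h1

theorem mkS_surj (ψ : Ssub K B) : ∃ u, mkS K B u = ψ := by
  refine ⟨(TE.mk _ ((ψ : Ez K B →ₗ[K] Ez K B) (z K B)).fst ((ψ : Ez K B →ₗ[K] Ez K B) 1).fst,
    TE.mk _ ((ψ : Ez K B →ₗ[K] Ez K B) (z K B)).snd ((ψ : Ez K B →ₗ[K] Ez K B) 1).snd),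
    Subtype.ext (LinearMap.ext fun y => ?_)⟩
  rw [Ssub_apply ψ.2 y, mkS_apply]
  ext <;> simp

variable [FiniteDimensional K B]

theorem trace_Ssub (tr0 : ∀ b : B, LinearMap.trace K B (LinearMap.mulRight K b) = 0)
    {ψ : Ez K B →ₗ[K] Ez K B} (h : ψ ∈ Ssub K B) : LinearMap.trace K _ ψ = 0 := by
  have h0 : ψ = (ψ ∘ₗ TE.inlL _) ∘ₗ TE.fstL _ + (ψ ∘ₗ TE.inr _) ∘ₗ TE.sndL _ := by
    refine LinearMap.ext fun a => ?_
    simp only [LinearMap.add_apply, LinearMap.comp_apply, ← map_add]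
    congr 1
    ext <;> simp
  have h1 : TE.fstL _ ∘ₗ ψ ∘ₗ TE.inlL _ = LinearMap.mulRight K (ψ 1).fst := by
    refine LinearMap.ext fun b => ?_
    simp only [LinearMap.comp_apply]
    rw [Ssub_apply h]
    simp
  have h2 : TE.sndL _ ∘ₗ ψ ∘ₗ TE.inr _ = LinearMap.mulRight K (ψ (z K B)).snd := by
    refine LinearMap.ext fun b => ?_
    simp only [LinearMap.comp_apply]
    rw [Ssub_apply h]
    simp
  rw [h0, map_add, LinearMap.trace_comp_comm', LinearMap.trace_comp_comm' (TE.sndL _), h1, h2,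
    tr0, tr0, add_zero]

/-- the trace pairing with `End_B(E)` -/
noncomputable def τ (K B : Type*) [Field K] [Ring B] [Algebra K B] :
    (Ez K B →ₗ[K] Ez K B) →ₗ[K] (Ssub K B →ₗ[K] K) :=
  LinearMap.mk₂ K (fun φ ψ => LinearMap.trace K _ (φ ∘ₗ (ψ : Ez K B →ₗ[K] Ez K B)))
    (fun _ _ _ => by simp [LinearMap.add_comp]) (fun _ _ _ => by simp [LinearMap.smul_comp])
    (fun _ _ _ => by simp [LinearMap.comp_add]) (fun _ _ _ => by simp [LinearMap.comp_smul])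

omit [FiniteDimensional K B] in
theorem τ_apply (φ : Ez K B →ₗ[K] Ez K B) (ψ : Ssub K B) :
    τ K B φ ψ = LinearMap.trace K _ (φ ∘ₗ (ψ : Ez K B →ₗ[K] Ez K B)) := rfl

theorem hom_τ : Bi.Hom (U0 K B) (βS K B).dual (τ K B) := by
  constructor
  · intro a φ
    rfl
  · intro a φ
    refine LinearMap.ext fun ψ => ?_
    show LinearMap.trace K _ (LinearMap.mulRight K (unop a) ∘ₗ (φ ∘ₗ (ψ : Ez K B →ₗ[K] Ez K B))) =
      LinearMap.trace K _ ((φ ∘ₗ (ψ : Ez K B →ₗ[K] Ez K B)) ∘ₗ LinearMap.mulRight K (unop a))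
    rw [LinearMap.trace_comp_comm']

theorem τ_surj (l : Ssub K B →ₗ[K] K) : ∃ φ, τ K B φ = l := by
  have h : Function.Injective (τ K B).flip := by
    rw [injective_iff_map_eq_zero]
    intro ψ hψ
    apply Subtype.ext
    refine LinearMap.ext fun y => ?_
    rw [← sub_eq_zero, ← Module.forall_dual_apply_eq_zero_iff K]
    intro l
    have := LinearMap.congr_fun hψ (LinearMap.smulRight l y)
    rw [LinearMap.flip_apply, τ_apply, LinearMap.trace_comp_comm'] at this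
    have h2 : (ψ : Ez K B →ₗ[K] Ez K B) ∘ₗ LinearMap.smulRight l y =
        LinearMap.smulRight l ((ψ : Ez K B →ₗ[K] Ez K B) y) := by ext1; simp
    rw [h2, LinearMap.trace_smulRight] at this
    simpa using this
  exact (LinearMap.flip_injective_iff₁ (B := τ K B)).1 h l

/-- the orthogonal complement of `End_B(E)` -/
noncomputable def βU (K B : Type*) [Field K] [Ring B] [Algebra K B] [FiniteDimensional K B] :
    Bi K (Ez K B) (Ez K B)ᵐᵒᵖ (LinearMap.ker (τ K B)) :=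
  (U0 K B).sub _ hom_τ.ker_l hom_τ.ker_r

@[simp] theorem βU_l (a : Ez K B) (φ : LinearMap.ker (τ K B)) (y : Ez K B) :
    ((βU K B).l a φ : Ez K B →ₗ[K] Ez K B) y = (φ : Ez K B →ₗ[K] Ez K B) (y * a) := rfl
@[simp] theorem βU_r (a : (Ez K B)ᵐᵒᵖ) (φ : LinearMap.ker (τ K B)) (y : Ez K B) :
    ((βU K B).r a φ : Ez K B →ₗ[K] Ez K B) y = (φ : Ez K B →ₗ[K] Ez K B) y * unop a := rfl

theorem ses_U : Bi.SES (βU K B) (U0 K B) (βS K B).dual (LinearMap.ker (τ K B)).subtype (τ K B) :=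
  Bi.ses_ker hom_τ τ_surj _ _

theorem mem_U (tr0 : ∀ b : B, LinearMap.trace K B (LinearMap.mulRight K b) = 0)
    {ψ : Ez K B →ₗ[K] Ez K B} (h : ψ ∈ Ssub K B) : ψ ∈ LinearMap.ker (τ K B) :=
  LinearMap.ext fun ψ' => trace_Ssub tr0 (comp_mem_Ssub h ψ'.2)

omit [FiniteDimensional K B] in
theorem trace_U (φ : LinearMap.ker (τ K B)) :
    LinearMap.trace K _ (φ : Ez K B →ₗ[K] Ez K B) = 0 :=
  LinearMap.congr_fun φ.2 ⟨LinearMap.id, fun _ _ => rfl⟩

/-- the bimodule map from the twisted regular bimodule to `U` -/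
noncomputable def ξ (tr0 : ∀ b : B, LinearMap.trace K B (LinearMap.mulRight K b) = 0) (t : K) :
    Ez K B →ₗ[K] LinearMap.ker (τ K B) :=
  LinearMap.codRestrict _
    (LinearMap.llcomp K _ _ _ (sc B t⁻¹).toLinearMap ∘ₗ (LinearMap.mul K (Ez K B)).flip)
    fun a => mem_U tr0 (comp_mem_Ssub (sc_mem t⁻¹) (mulRight_mem a))

@[simp] theorem ξ_apply (tr0 : ∀ b : B, LinearMap.trace K B (LinearMap.mulRight K b) = 0) (t : K)
    (a y : Ez K B) : (ξ tr0 t a : Ez K B →ₗ[K] Ez K B) y = sc B t⁻¹ (y * a) := rfl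

theorem hom_ξ (tr0 : ∀ b : B, LinearMap.trace K B (LinearMap.mulRight K b) = 0) {t : K}
    (ht : t ≠ 0) : Bi.Hom (tw B t) (βU K B) (ξ tr0 t) := by
  constructor
  · intro a y
    refine Subtype.ext (LinearMap.ext fun x => ?_)
    simp [mul_assoc]
  · intro a y
    refine Subtype.ext (LinearMap.ext fun x => ?_)
    simp [← mul_assoc, sc_inv_sc ht]

end Ez

end Crest.Agent.R186
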