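import Crest.Agent.R186.Core
import Crest.Agent.R178.Homological
import Crest.Prelude.Def_GorProjVanishing

/-!
From matrix complexes to Mathlib's `Ext` groups and to Gorenstein-projective modules.
-/

set_option autoImplicit false

namespace Crest.Agent.R186

universe u

open CategoryTheory Crest.AlgebraR

variable {K : Type u} [Field K] {L : Type u} [Ring L] [Algebra K L] {G : Type} {Γ : GD G}

/-- chains in op-degree `m` (chain degree `-m`) -/
abbrev ChO (K : Type u) [Field K] {L : Type u} [Ring L] [Algebra K L] {G : Type} {Γ : GD G}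
    (P : MD Γ L) (m : ℤ) : Type u := ((Bi.reg K L).Co P.op m).Car

/-- cycles in op-degree `m` (chain degree `-m`) -/
abbrev CyO (K : Type u) [Field K] {L : Type u} [Ring L] [Algebra K L] {G : Type} {Γ : GD G}
    (P : MD Γ L) (m : ℤ) : Type u := ((Bi.reg K L).Z P.op m).Car

/-- the module of chain cycles in degree `-1` -/
abbrev Zmod (K : Type u) [Field K] {L : Type u} [Ring L] [Algebra K L] {G : Type} {Γ : GD G}
    (P : MD Γ L) : Type u := ((Bi.reg K L).Z P.op 1).Car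

namespace ExtB

variable (P : MD Γ L)

theorem ch_zero {m : ℤ} (x : ChO K P m) {g : G} (h : Γ.deg g ≠ -m) : x.val g = 0 :=
  (x.mem g).1 (by simp only [GD.op_deg]; omega)

theorem ch_e {m : ℤ} (x : ChO K P m) (g : G) : x.val g * P.e g = x.val g :=
  (x.mem g).2.1

theorem ch_smul {m : ℤ} (a : L) (x : ChO K P m) (g : G) : (a • x).val g = a * x.val g := rfl

open Classical in
/-- the generator in position `g` -/
noncomputable def gen (K : Type u) [Field K] {L : Type u} [Ring L] [Algebra K L] {G : Type}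
    {Γ : GD G} (P : MD Γ L) (m : ℤ) (g : G) : ChO K P m :=
  LM.Car.mk _ (P.op.pr (Bi.reg K L).r m (Pi.single g 1))
    (P.op.pr_mem (Bi.reg K L).R m fun _ _ => trivial)

open Classical in
theorem gen_val (m : ℤ) (g : G) :
    (gen K P m g).val = P.op.pr (Bi.reg K L).r m (Pi.single g 1) := rfl

theorem gen_self {m : ℤ} {g : G} (h : Γ.deg g = -m) : (gen K P m g).val g = P.e g := by
  classical
  rw [gen_val, MD.pr_pos _ _ _ (by simp only [GD.op_deg]; omega)]
  simp

theorem gen_ne {m : ℤ} {g g' : G} (h : g' ≠ g) : (gen K P m g).val g' = 0 := by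
  classical
  rw [gen_val]
  by_cases h1 : Γ.op.deg g' = m
  · rw [MD.pr_pos _ _ _ h1]
    simp [Pi.single_eq_of_ne h]
  · rw [MD.pr_neg _ _ _ h1]

theorem gen_eq_zero {m : ℤ} {g : G} (h : Γ.deg g ≠ -m) : gen K P m g = 0 := by
  ext g'
  by_cases h1 : g' = g
  · subst h1
    exact ch_zero P _ h
  · exact gen_ne P h1

theorem e_smul_gen (m : ℤ) (g : G) : P.e g • gen K P m g = gen K P m g := by
  by_cases h : Γ.deg g = -m
  · ext g'
    rw [ch_smul]
    by_cases h1 : g' = g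
    · subst h1
      rw [gen_self P h, P.ee]
    · rw [gen_ne P h1, mul_zero]
  · rw [gen_eq_zero P h, smul_zero]

theorem expand {m : ℤ} (x : ChO K P m) : x = ∑ g ∈ Γ.fib (-m), x.val g • gen K P m g := by
  ext g'
  rw [LM.Car.val_sum, Finset.sum_apply]
  by_cases h : Γ.deg g' = -m
  · rw [Finset.sum_eq_single g']
    · rw [ch_smul, gen_self P h, ch_e]
    · intro g _ hg
      rw [ch_smul, gen_ne P (Ne.symm hg), mul_zero]
    · intro h1
      exact (h1 (by rwa [Γ.mem_fib])).elim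
  · rw [ch_zero P x h]
    symm
    exact Finset.sum_eq_zero fun g _ => ch_zero P _ h

/-- the coordinates in the finite fibre -/
def coords (m : ℤ) : ChO K P m →ₗ[L] (Γ.fib (-m) → L) where
  toFun x g := x.val g
  map_add' _ _ := rfl
  map_smul' _ _ := rfl

theorem comb_coords (m : ℤ) :
    (Fintype.linearCombination L (fun g : Γ.fib (-m) => gen K P m g)).comp (coords P m) =
      LinearMap.id := by
  refine LinearMap.ext fun x => ?_
  rw [LinearMap.comp_apply, Fintype.linearCombination_apply, LinearMap.id_apply]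
  conv_rhs => rw [expand P x]
  exact Finset.sum_coe_sort (Γ.fib (-m)) (fun g => x.val g • gen K P m g)

theorem ch_projective (m : ℤ) : Module.Projective L (ChO K P m) :=
  Module.Projective.of_split _ _ (comb_coords P m)

theorem ch_finite (m : ℤ) : Module.Finite L (ChO K P m) :=
  Module.Finite.of_surjective (Fintype.linearCombination L (fun g : Γ.fib (-m) => gen K P m g))
    fun x => ⟨coords P m x, LinearMap.congr_fun (comb_coords P m) x⟩

/-- the inclusion of the cycles -/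
def incl (m : ℤ) : CyO K P m →ₗ[L] ChO K P m where
  toFun x := LM.Car.mk _ x.val x.mem.1
  map_add' _ _ := rfl
  map_smul' _ _ := rfl

theorem incl_val {m : ℤ} (x : CyO K P m) : (incl P m x).val = x.val := rfl

theorem incl_inj (m : ℤ) : Function.Injective (incl (K := K) P m) := fun _ _ h =>
  LM.Car.ext (congrArg (fun x : ChO K P m => x.val) h)

/-- the differential with values in the cycles -/
def dZ (m m' : ℤ) (h : m + 1 = m') : ChO K P m →ₗ[L] CyO K P m' where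
  toFun x := LM.Car.mk _ (P.op.dl (Bi.reg K L).r x.val)
    (h ▸ ((Bi.reg K L).inner P.op).δ_mem_Z x.mem)
  map_add' _ _ := LM.Car.ext (map_add (P.op.dl (Bi.reg K L).r) _ _)
  map_smul' a x := LM.Car.ext ((Bi.reg K L).l_dl P.op a x.val)

theorem dZ_val {m m' : ℤ} (h : m + 1 = m') (x : ChO K P m) :
    (dZ P m m' h x).val = P.op.dl (Bi.reg K L).r x.val := rfl

/-- the chain differential -/
def dd (m m' : ℤ) (h : m + 1 = m') : ChO K P m →ₗ[L] ChO K P m' := incl P m' ∘ₗ dZ P m m' h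

theorem dd_val {m m' : ℤ} (h : m + 1 = m') (x : ChO K P m) :
    (dd P m m' h x).val = P.op.dl (Bi.reg K L).r x.val := rfl

theorem dd_apply {m m' : ℤ} (h : m + 1 = m') (x : ChO K P m) (g : G) :
    (dd P m m' h x).val g = ∑ g' ∈ Γ.fib (Γ.deg g + 1), x.val g' * P.D g' g :=
  P.op_δ_apply (Bi.reg K L).R x.val g

theorem exact_incl_dZ {m m' : ℤ} (h : m + 1 = m') :
    Function.Exact (incl (K := K) P m) (dZ P m m' h) := by
  intro x
  constructor
  · intro hx
    exact ⟨LM.Car.mk _ x.val ⟨x.mem, congrArg LM.Car.val hx⟩, rfl⟩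
  · rintro ⟨y, rfl⟩
    exact LM.Car.ext y.mem.2

theorem dZ_surj (hch : (P.op.cx (Bi.reg K L).R).Acyc) {m m' : ℤ} (h : m + 1 = m') :
    Function.Surjective (dZ (K := K) P m m' h) := by
  intro y
  obtain ⟨b, hb, hb'⟩ := hch m' y.val y.mem
  rw [show m' - 1 = m by omega] at hb
  exact ⟨LM.Car.mk _ b hb, LM.Car.ext hb'⟩

theorem ses (hch : (P.op.cx (Bi.reg K L).R).Acyc) {m m' : ℤ} (h : m + 1 = m') :
    R178.SES (incl (K := K) P m) (dZ P m m' h) :=
  ⟨incl_inj P m, dZ_surj P hch h, exact_incl_dZ P h⟩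

theorem exact_dd_dZ (hch : (P.op.cx (Bi.reg K L).R).Acyc) {m₀ m m' : ℤ} (h₀ : m₀ + 1 = m)
    (h : m + 1 = m') : Function.Exact (dd (K := K) P m₀ m h₀) (dZ P m m' h) := by
  intro x
  rw [exact_incl_dZ P h x]
  constructor
  · rintro ⟨y, rfl⟩
    obtain ⟨z, rfl⟩ := dZ_surj P hch h₀ y
    exact ⟨z, rfl⟩
  · rintro ⟨z, rfl⟩
    exact ⟨_, rfl⟩

theorem exact_dd_dd (hch : (P.op.cx (Bi.reg K L).R).Acyc) {m₀ m m' : ℤ} (h₀ : m₀ + 1 = m)
    (h : m + 1 = m') : Function.Exact (dd (K := K) P m₀ m h₀) (dd P m m' h) := by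
  intro x
  rw [← exact_dd_dZ P hch h₀ h x]
  exact (injective_iff_map_eq_zero' _).1 (incl_inj P m') _

theorem dd_dd {m₀ m m' : ℤ} (h₀ : m₀ + 1 = m) (h : m + 1 = m') :
    dd (K := K) P m m' h ∘ₗ dd P m₀ m h₀ = 0 :=
  LinearMap.ext fun x => LM.Car.ext (P.op.dl_dl _ x.val)

section N

variable {Y : Type*} [AddCommGroup Y] [Module K Y] (N : LM K L Y)

/-- the cochain of a linear map -/
noncomputable def toCo {m : ℤ} (f : ChO K P m →ₗ[L] N.Car) : G → Y :=
  fun g => (f (gen K P m g)).val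

theorem toCo_mem {m : ℤ} (f : ChO K P m →ₗ[L] N.Car) : toCo P N f ∈ (P.cx N).Co (-m) := by
  intro g
  refine ⟨fun h => ?_, ?_, LM.Car.mem _⟩
  · simp only [toCo]
    rw [gen_eq_zero P h, map_zero, LM.Car.val_zero]
  · simp only [toCo]
    rw [← LM.Car.val_smul, ← map_smul, e_smul_gen]

theorem map_expand {m : ℤ} (f : ChO K P m →ₗ[L] N.Car) (x : ChO K P m) :
    (f x).val = ∑ g ∈ Γ.fib (-m), N.ρ (x.val g) (toCo P N f g) := by
  conv_lhs => rw [expand P x]
  rw [map_sum, LM.Car.val_sum]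
  refine Finset.sum_congr rfl fun g _ => ?_
  rw [map_smul, LM.Car.val_smul]
  rfl

theorem toCo_inj {m : ℤ} {f f' : ChO K P m →ₗ[L] N.Car} (h : toCo P N f = toCo P N f') :
    f = f' := by
  refine LinearMap.ext fun x => LM.Car.ext ?_
  rw [map_expand, map_expand, h]

theorem toCo_zero {m : ℤ} : toCo P N (0 : ChO K P m →ₗ[L] N.Car) = 0 := rfl

theorem toCo_surj {m : ℤ} {c : G → Y} (hc : c ∈ (P.cx N).Co (-m)) :
    ∃ f : ChO K P m →ₗ[L] N.Car, toCo P N f = c := by
  refine ⟨(Fintype.linearCombination L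
    (fun g : Γ.fib (-m) => LM.Car.mk N (c g) (hc g).2.2)).comp (coords P m), ?_⟩
  funext g
  simp only [toCo]
  by_cases h : Γ.deg g = -m
  · rw [LinearMap.comp_apply, Fintype.linearCombination_apply, LM.Car.val_sum,
      Finset.sum_eq_single (⟨g, by rwa [Γ.mem_fib]⟩ : Γ.fib (-m))]
    · rw [LM.Car.val_smul]
      show N.ρ ((gen K P m g).val g) (c g) = c g
      rw [gen_self P h, (hc g).2.1]
    · intro g' _ hg'
      rw [LM.Car.val_smul]
      show N.ρ ((gen K P m g).val g') (c g') = 0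
      rw [gen_ne P (fun h1 => hg' (Subtype.ext h1))]
      simp
    · intro h1
      exact (h1 (Finset.mem_univ _)).elim
  · rw [gen_eq_zero P h, map_zero, LM.Car.val_zero, (hc g).1 h]

theorem toCo_comp {m m' : ℤ} (h : m + 1 = m') (f : ChO K P m' →ₗ[L] N.Car) :
    toCo P N (f ∘ₗ dd P m m' h) = (P.cx N).δ (toCo P N f) := by
  refine MD.co_ext (toCo_mem P N _) (by
    have := (P.cx N).mem _ _ (toCo_mem P N f)
    rwa [show -m' + 1 = -m by omega] at this) fun g hg => ?_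
  rw [MD.δ_apply, show Γ.deg g - 1 = -m' by omega]
  show (f (dd P m m' h (gen K P m g))).val = _
  rw [map_expand]
  refine Finset.sum_congr rfl fun g' hg' => ?_
  rw [Γ.mem_fib] at hg'
  rw [dd_apply, Finset.sum_eq_single g]
  · rw [gen_self P hg, P.eD]
  · intro g'' _ h1
    rw [gen_ne P h1, zero_mul]
  · intro h1
    exact (h1 (by rw [Γ.mem_fib]; omega)).elim

theorem factor_of_van {m₀ m m' : ℤ} (h₀ : m₀ + 1 = m) (h : m + 1 = m') (hv : (P.cx N).Van (-m))
    (f : ChO K P m →ₗ[L] N.Car) (hf : f ∘ₗ dd P m₀ m h₀ = 0) :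
    ∃ ψ : ChO K P m' →ₗ[L] N.Car, ψ ∘ₗ dd P m m' h = f := by
  have h1 : toCo P N f ∈ (P.cx N).Z (-m) := ⟨toCo_mem P N f, by
    show (P.cx N).δ _ = 0
    rw [← toCo_comp P N h₀, hf, toCo_zero]⟩
  obtain ⟨b, hb, hb'⟩ := hv _ h1
  rw [show -m - 1 = -m' by omega] at hb
  obtain ⟨ψ, rfl⟩ := toCo_surj P N hb
  exact ⟨ψ, toCo_inj P N (by rw [toCo_comp, hb'])⟩

theorem van_of_factor {m₀ m m' : ℤ} (h₀ : m₀ + 1 = m) (h : m + 1 = m')
    (H : ∀ f : ChO K P m →ₗ[L] N.Car, f ∘ₗ dd P m₀ m h₀ = 0 →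
      ∃ ψ : ChO K P m' →ₗ[L] N.Car, ψ ∘ₗ dd P m m' h = f) : (P.cx N).Van (-m) := by
  intro c hc
  obtain ⟨f, rfl⟩ := toCo_surj P N hc.1
  obtain ⟨ψ, rfl⟩ := H f (toCo_inj P N (by rw [toCo_comp, toCo_zero]; exact hc.2))
  refine ⟨toCo P N ψ, ?_, (toCo_comp P N h ψ).symm⟩
  rw [show -m - 1 = -m' by omega]
  exact toCo_mem P N ψ

theorem extend_of_van (hch : (P.op.cx (Bi.reg K L).R).Acyc) {m : ℤ} (hv : (P.cx N).Van (1 - m))
    (φ : CyO K P m →ₗ[L] N.Car) : ∃ ψ : ChO K P m →ₗ[L] N.Car, ψ ∘ₗ incl P m = φ := by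
  have h₀ : m - 2 + 1 = m - 1 := by ring
  have h : m - 1 + 1 = m := by ring
  obtain ⟨ψ, hψ⟩ := factor_of_van P N h₀ h (by rwa [neg_sub]) (φ ∘ₗ dZ P (m - 1) m h) (by
    refine LinearMap.ext fun x => ?_
    have := (exact_dd_dZ P hch h₀ h).apply_apply_eq_zero x
    simp only [LinearMap.comp_apply, this, map_zero, LinearMap.zero_apply])
  refine ⟨ψ, LinearMap.ext fun y => ?_⟩
  obtain ⟨x, rfl⟩ := dZ_surj P hch h y
  exact LinearMap.congr_fun hψ x

end N

theorem ev_one {M₁ M₂ M₃ : Type u} [AddCommGroup M₁] [AddCommGroup M₂] [AddCommGroup M₃]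
    [Module L M₁] [Module L M₂] [Module L M₃] {f : M₁ →ₗ[L] M₂} {g : M₂ →ₗ[L] M₃}
    (h : R178.SES f g) [Module.Projective L M₂] {S : ModuleCat.{u} L}
    (H : ∀ φ : M₁ →ₗ[L] S, ∃ ψ : M₂ →ₗ[L] S, ψ ∘ₗ f = φ) : R178.EV S M₃ 1 := by
  intro x₃
  obtain ⟨x₁, rfl⟩ := Abelian.Ext.contravariant_sequence_exact₃ h.shortExact S x₃
    (R178.ev_succ_of_projective S 0 _) (add_zero 1)
  obtain ⟨φ, rfl⟩ := (Abelian.Ext.mk₀_bijective _ _).2 x₁
  obtain ⟨ψ, hψ⟩ := H φ.hom
  have : φ = h.sc.f ≫ ModuleCat.ofHom ψ := by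
    ext1
    exact hψ.symm
  rw [this, ← Abelian.Ext.mk₀_comp_mk₀, ShortComplex.ShortExact.extClass_comp_assoc]

theorem ev_cyc (hch : (P.op.cx (Bi.reg K L).R).Acyc) {Y : Type u} [AddCommGroup Y] [Module K Y]
    (N : LM K L Y) (i : ℕ) : ∀ m m' : ℤ, m + 1 = m' → (P.cx N).Van (1 - m + i) →
      R178.EV (ModuleCat.of L N.Car) (CyO K P m') (i + 1) := by
  induction i with
  | zero =>
    intro m m' h hv
    have := ch_projective (K := K) P m
    exact ev_one (ses P hch h) fun φ => extend_of_van P N hch (by simpa using hv) φ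
  | succ i ih =>
    intro m m' h hv
    have := ch_projective (K := K) P m
    refine (ses P hch h).ev₃_succ (ih (m - 1) m (by ring) ?_) (R178.ev_succ_of_projective _ _)
    rwa [show 1 - (m - 1) + (i : ℤ) = 1 - m + ((i + 1 : ℕ) : ℤ) by push_cast; ring]

/-- the regular module -/
def regEquiv (K : Type u) [Field K] (L : Type u) [Ring L] [Algebra K L] :
    (Bi.reg K L).L.Car ≃ₗ[L] L where
  toFun x := x.val
  invFun y := LM.Car.mk _ y trivial
  map_add' _ _ := rfl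
  map_smul' _ _ := rfl
  left_inv _ := rfl
  right_inv _ := rfl

end ExtB

open ExtB

variable (P : MD Γ L)

theorem ext_van (hch : (P.op.cx (Bi.reg K L).R).Acyc) {Y : Type u} [AddCommGroup Y] [Module K Y]
    (N : LM K L Y) (hN : ∀ i : ℤ, 0 < i → (P.cx N).Van i) :
    ∀ i : ℕ, 0 < i →
      Subsingleton (Abelian.Ext (ModuleCat.of L (Zmod K P)) (ModuleCat.of L N.Car) i) := by
  intro i hi
  obtain ⟨j, rfl⟩ : ∃ j, i = j + 1 := ⟨i - 1, by omega⟩
  have := ev_cyc P hch N j 0 1 (zero_add 1) (hN _ (by omega))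
  exact ⟨fun a b => (this a).trans (this b).symm⟩

theorem van_one_of_projective (hch : (P.op.cx (Bi.reg K L).R).Acyc) {Y : Type*} [AddCommGroup Y]
    [Module K Y] (N : LM K L Y) (h : Module.Projective L (Zmod K P)) : (P.cx N).Van 1 := by
  have h1 : (0 : ℤ) + 1 = 1 := zero_add 1
  have h2 : (-1 : ℤ) + 1 = 0 := by norm_num
  have h3 : (-2 : ℤ) + 1 = -1 := by norm_num
  obtain ⟨s, hs⟩ := Module.projective_lifting_property (dZ (K := K) P 0 1 h1) LinearMap.id
    (dZ_surj P hch h1)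
  have hsplit := ((exact_incl_dZ (K := K) P h1).split_tfae (incl_inj P 0)
    (dZ_surj P hch h1)).out 0 1
  obtain ⟨r, hr⟩ : ∃ r : ChO K P 0 →ₗ[L] CyO K P 0, r ∘ₗ incl P 0 = LinearMap.id :=
    hsplit.1 (show ∃ l : CyO K P 1 →ₗ[L] ChO K P 0, dZ P 0 1 h1 ∘ₗ l = LinearMap.id from ⟨s, hs⟩)
  have := van_of_factor P N h3 h2 fun f hf => by
    have hk : LinearMap.ker (dZ (K := K) P (-1) 0 h2) ≤ LinearMap.ker f := by
      intro x hx
      obtain ⟨y, rfl⟩ := (exact_dd_dZ P hch h3 h2 x).1 hx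
      exact LinearMap.congr_fun hf y
    refine ⟨((LinearMap.ker (dZ (K := K) P (-1) 0 h2)).liftQ f hk ∘ₗ
      ((dZ (K := K) P (-1) 0 h2).quotKerEquivOfSurjective (dZ_surj P hch h2)).symm.toLinearMap) ∘ₗ
        r, LinearMap.ext fun x => ?_⟩
    have h4 : r (dd P (-1) 0 h2 x) = dZ P (-1) 0 h2 x := LinearMap.congr_fun hr _
    simp only [LinearMap.comp_apply, h4, LinearEquiv.coe_coe]
    rw [LinearMap.quotKerEquivOfSurjective_symm_apply, Submodule.liftQ_apply]
  simpa using this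

theorem not_projective (hch : (P.op.cx (Bi.reg K L).R).Acyc) (ch : L →ₐ[K] K) (g₁ : G)
    (hdeg : Γ.deg g₁ = 1) (h1 : ch (P.e g₁) = 1) (h0 : ∀ g g', ch (P.D g g') = 0) :
    ¬ Module.Projective L (Zmod K P) := by
  classical
  intro h
  have hv := van_one_of_projective P hch (LM.top (chRep ch)) h
  have hδ : ∀ c, (P.cx (LM.top (chRep ch))).δ c = 0 := by
    intro c
    funext g
    rw [MD.δ_apply]
    simp [h0]
  have hmem : (Pi.single g₁ 1 : G → K) ∈ (P.cx (LM.top (chRep ch))).Co 1 := by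
    refine fun g => ⟨fun hg => ?_, ?_, trivial⟩
    · exact Pi.single_eq_of_ne (fun h2 : g = g₁ => hg (h2 ▸ hdeg)) _
    · by_cases hg : g = g₁
      · subst hg
        simp [h1]
      · simp [Pi.single_eq_of_ne hg]
  obtain ⟨b, -, hb⟩ := hv (Pi.single g₁ 1) ⟨hmem, hδ _⟩
  rw [hδ] at hb
  have := congrFun hb g₁
  simp at this

theorem finite_Z [FiniteDimensional K L] : Module.Finite L (Zmod K P) := by
  have := ch_finite (K := K) P 1
  have h1 : Module.Finite K (ChO K P 1) := Module.Finite.trans L _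
  have h2 : Module.Finite K (Zmod K P) :=
    Module.Finite.of_injective ((incl (K := K) P 1).restrictScalars K) (incl_inj P 1)
  exact Module.Finite.of_restrictScalars_finite K L _

theorem isGP [FiniteDimensional K L] (hch : (P.op.cx (Bi.reg K L).R).Acyc) (hcoch : (P.cx (Bi.reg K L).L).Acyc) :
    IsGorensteinProjective L (Zmod K P) := by
  have hd : ∀ n : ℤ, -(n + 1) + 1 = -n := fun n => by ring
  refine ⟨fun n => ChO K P (-n), fun _ => inferInstance, fun _ => inferInstance,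
    fun n => dd P (-(n + 1)) (-n) (hd n), fun n => ⟨ch_finite P _, ch_projective P _⟩,
    fun n => exact_dd_dd P hch _ _, fun n f => ⟨fun hf => ?_, ?_⟩, ⟨?_⟩⟩
  · obtain ⟨ψ, hψ⟩ := factor_of_van P (Bi.reg K L).L (hd (n + 1)) (hd n) (hcoch _)
      ((regEquiv K L).symm.toLinearMap ∘ₗ f) (by
        have : f ∘ₗ dd P (-(n + 1 + 1)) (-(n + 1)) (hd (n + 1)) = 0 := hf
        rw [LinearMap.comp_assoc, this, LinearMap.comp_zero])
    refine ⟨(regEquiv K L).toLinearMap ∘ₗ ψ, ?_⟩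
    show ((regEquiv K L).toLinearMap ∘ₗ ψ) ∘ₗ dd P (-(n + 1)) (-n) (hd n) = f
    rw [LinearMap.comp_assoc, hψ]
    exact LinearMap.ext fun x => rfl
  · rintro ⟨ψ, rfl⟩
    show (ψ ∘ₗ dd P (-(n + 1)) (-n) (hd n)) ∘ₗ dd P (-(n + 1 + 1)) (-(n + 1)) (hd (n + 1)) = 0
    rw [LinearMap.comp_assoc, dd_dd, LinearMap.comp_zero]
  · have h1 : -(0 : ℤ) + 1 = 1 := by norm_num
    exact ((dZ (K := K) P (-0) 1 h1).quotKerEquivOfSurjective (dZ_surj P hch h1)).symm.trans
      (Submodule.quotEquivOfEq _ _ (exact_dd_dZ P hch (hd 0) h1).linearMap_ker_eq)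

theorem core_gpv (h : Core K L Γ P) (hq : Nonempty ((L ⧸ Ring.jacobson L) ≃ₐ[K] (Fin 8 → K)))
    (h4 : Ring.jacobson L ^ 4 ≠ ⊥) : GorProjVanishingData K L (Zmod K P) := by
  have := h.fin
  obtain ⟨χ, g₁, h1, h2, h3⟩ := h.chi
  refine ⟨h.fin, hq, h4, finite_Z P, not_projective P h.ch χ g₁ h1 h2 h3, isGP P h.ch h.coch,
    ext_van P h.ch _ fun i hi => h.van i (by omega) (by omega), fun i hi => ?_⟩
  have h5 := ext_van P h.ch (Bi.reg K L).L (fun i _ => h.coch i) i hi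
  let e := (regEquiv K L).toModuleIso
  refine ⟨fun a b => ?_⟩
  have h6 : ∀ a : Abelian.Ext (ModuleCat.of L (Zmod K P)) (ModuleCat.of L L) i,
      a = (a.comp (Abelian.Ext.mk₀ e.inv) (add_zero i)).comp (Abelian.Ext.mk₀ e.hom)
        (add_zero i) := by
    intro a
    rw [Abelian.Ext.comp_assoc_of_third_deg_zero, Abelian.Ext.mk₀_comp_mk₀, e.inv_hom_id,
      Abelian.Ext.comp_mk₀_id]
  rw [h6 a, h6 b, Subsingleton.elim (a.comp (Abelian.Ext.mk₀ e.inv) (add_zero i))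
    (b.comp (Abelian.Ext.mk₀ e.inv) (add_zero i))]

end Crest.Agent.R186
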