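import Crest.Agent.R186.Nak
import Crest.Agent.R178.Homological

/-!
The four corollaries S0282 - S0285 of the existence of a non-self-injective algebra of infinite
dominant dimension (`Nak K`).
-/

set_option autoImplicit false

universe u

open CategoryTheory Abelian Crest.AlgebraR Crest.Agent.R178

namespace Crest.Agent.R186

section add

variable {Γ : Type u} [Ring Γ] {W : Type u} [AddCommGroup W] [Module Γ W]
  {X : Type u} [AddCommGroup X] [Module Γ X]

lemma inAdd_split (h : InAdd Γ W X) : ∃ (n : ℕ) (i : X →ₗ[Γ] (Fin n → W))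
    (s : (Fin n → W) →ₗ[Γ] X), s.comp i = LinearMap.id := by
  obtain ⟨n, Y, _, _, ⟨e⟩⟩ := h
  refine ⟨n, e.toLinearMap.comp (LinearMap.inl Γ X Y),
    (LinearMap.fst Γ X Y).comp e.symm.toLinearMap, ?_⟩
  ext x; simp

lemma inAdd_finite [Module.Finite Γ W] (h : InAdd Γ W X) : Module.Finite Γ X := by
  obtain ⟨n, i, s, hs⟩ := inAdd_split h
  exact Module.Finite.of_surjective s fun x => ⟨i x, LinearMap.congr_fun hs x⟩

lemma inAdd_projective [Module.Projective Γ W] (h : InAdd Γ W X) : Module.Projective Γ X := by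
  obtain ⟨n, i, s, hs⟩ := inAdd_split h
  have : Module.Projective Γ (Fin n → W) :=
    Module.Projective.of_equiv' (DirectSum.linearEquivFunOnFintype Γ (Fin n) fun _ => W)
  exact Module.Projective.of_split i s hs

lemma inAdd_injective [Module.Injective Γ W] (h : InAdd Γ W X) : Module.Injective Γ X := by
  obtain ⟨n, i, s, hs⟩ := inAdd_split h
  refine ⟨fun A B _ _ _ _ f hf g => ?_⟩
  obtain ⟨l, hl⟩ := Module.Injective.out (Q := Fin n → W) f hf (i.comp g)
  refine ⟨s.comp l, fun x => ?_⟩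
  rw [LinearMap.comp_apply, hl]
  exact LinearMap.congr_fun hs (g x)

lemma inAdd_hom_zero {S : Type u} [AddCommGroup S] [Module Γ S] (hS : ∀ f : S →ₗ[Γ] W, f = 0)
    (h : InAdd Γ W X) (f : S →ₗ[Γ] X) : f = 0 := by
  obtain ⟨n, i, s, hs⟩ := inAdd_split h
  ext x
  have h1 : i (f x) = 0 := by
    funext k
    exact LinearMap.congr_fun (hS ((LinearMap.proj k).comp (i.comp f))) x
  have h2 : s (i (f x)) = f x := LinearMap.congr_fun hs (f x)
  rw [← h2, h1, map_zero]; rfl

lemma hom_exact_of_injective [Module.Injective Γ W] {A B D : Type u} [AddCommGroup A]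
    [AddCommGroup B] [AddCommGroup D] [Module Γ A] [Module Γ B] [Module Γ D]
    {f : A →ₗ[Γ] B} {g : B →ₗ[Γ] D} (h : Function.Exact f g) :
    Function.Exact (fun φ : D →ₗ[Γ] W => φ ∘ₗ g) (fun φ : B →ₗ[Γ] W => φ ∘ₗ f) := by
  intro φ
  constructor
  · intro hφ
    have hle : LinearMap.ker g ≤ LinearMap.ker φ := by
      intro x hx
      obtain ⟨y, rfl⟩ := (h x).1 hx
      exact LinearMap.congr_fun hφ y
    have hinj : Function.Injective ((LinearMap.ker g).liftQ g le_rfl) :=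
      LinearMap.ker_eq_bot.1 (Submodule.ker_liftQ_eq_bot _ _ _ le_rfl)
    obtain ⟨l, hl⟩ := Module.Injective.out (Q := W) _ hinj ((LinearMap.ker g).liftQ φ hle)
    refine ⟨l, ?_⟩
    ext x
    simpa using hl (Submodule.Quotient.mk x)
  · rintro ⟨ψ, rfl⟩
    change (ψ ∘ₗ g) ∘ₗ f = 0
    rw [LinearMap.comp_assoc, h.linearMap_comp_eq_zero, LinearMap.comp_zero]

end add

section cosyz

variable {Γ : Type u} [Ring Γ] {C : ℕ → Type u} [∀ j, AddCommGroup (C j)] [∀ j, Module Γ (C j)]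
  {ε : Γ →ₗ[Γ] C 0} {d : ∀ j : ℕ, C j →ₗ[Γ] C (j + 1)}

/-- the cosyzygies -/
abbrev Zc (d : ∀ j : ℕ, C j →ₗ[Γ] C (j + 1)) (j : ℕ) : ModuleCat.{u} Γ :=
  ModuleCat.of Γ (LinearMap.ker (d j))

lemma cosyz_ses (hd : ∀ j, Function.Exact (d j) (d (j + 1))) (j : ℕ) :
    SES (LinearMap.ker (d j)).subtype ((d j).codRestrict (LinearMap.ker (d (j + 1)))
      fun x => (hd j).apply_apply_eq_zero x) where
  inj := Subtype.val_injective
  surj := fun ⟨y, hy⟩ => by
    obtain ⟨x, hx⟩ := (hd j y).1 hy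
    exact ⟨x, Subtype.ext hx⟩
  ex := fun x => by
    constructor
    · intro hx
      exact ⟨⟨x, congrArg Subtype.val hx⟩, rfl⟩
    · rintro ⟨⟨y, hy⟩, rfl⟩
      exact Subtype.ext hy

lemma cosyz_iso (hε : Function.Injective ε) (h0 : Function.Exact ε (d 0)) :
    Nonempty (ModuleCat.of Γ Γ ≅ Zc d 0) := by
  refine ⟨(LinearEquiv.ofBijective (ε.codRestrict (LinearMap.ker (d 0))
    fun x => h0.apply_apply_eq_zero x) ⟨fun x y h => hε (congrArg Subtype.val h), ?_⟩).toModuleIso⟩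
  rintro ⟨y, hy⟩
  obtain ⟨x, hx⟩ := (h0 y).1 hy
  exact ⟨x, Subtype.ext hx⟩

lemma cosyz_pd (hε : Function.Injective ε) (h0 : Function.Exact ε (d 0))
    (hd : ∀ j, Function.Exact (d j) (d (j + 1))) (hp : ∀ j, Module.Projective Γ (C j)) (n : ℕ) :
    HasProjectiveDimensionLT (Zc d n) (n + 1) := by
  have hp' : ∀ j, Projective (ModuleCat.of Γ (C j)) := fun j => by
    rw [← IsProjective.iff_projective]; exact hp j
  induction n with
  | zero =>
    obtain ⟨e⟩ := cosyz_iso hε h0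
    have : Projective (ModuleCat.of Γ Γ) := by
      rw [← IsProjective.iff_projective]; infer_instance
    exact hasProjectiveDimensionLT_of_iso e 1
  | succ n ih =>
    have := hp' n
    exact (cosyz_ses hd n).shortExact.hasProjectiveDimensionLT_X₃ (n + 1) ih
      (hasProjectiveDimensionLT_of_ge (ModuleCat.of Γ (C n)) 1 _ (by omega))

lemma cosyz_not_pd (hε : Function.Injective ε) (h0 : Function.Exact ε (d 0))
    (hd : ∀ j, Function.Exact (d j) (d (j + 1))) (hp : ∀ j, Module.Projective Γ (C j))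
    (hi : ∀ j, Module.Injective Γ (C j)) (hΓ : ¬ Module.Injective Γ Γ) (n : ℕ) :
    ¬ HasProjectiveDimensionLT (Zc d (n + 1)) (n + 1) := by
  have hp' : ∀ j, Projective (ModuleCat.of Γ (C j)) := fun j => by
    rw [← IsProjective.iff_projective]; exact hp j
  induction n with
  | zero =>
    intro h
    obtain ⟨e⟩ := cosyz_iso hε h0
    have h1 : Projective (cosyz_ses hd 0).sc.X₃ :=
      projective_iff_hasProjectiveDimensionLT_one.2 h
    let s := (cosyz_ses hd 0).shortExact.splittingOfProjective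
    have h2 : Injective (ModuleCat.of Γ (C 0)) :=
      (Module.injective_iff_injective_object _ _).1 (hi 0)
    let r : Retract (Zc d 0) (ModuleCat.of Γ (C 0)) := ⟨(cosyz_ses hd 0).sc.f, s.r, s.f_r⟩
    have h3 := r.hasInjectiveDimensionLT 1
    have h4 := hasInjectiveDimensionLT_of_iso e.symm 1
    exact hΓ ((Module.injective_iff_injective_object _ _).2
      (injective_iff_hasInjectiveDimensionLT_one.2 h4))
  | succ n ih =>
    intro h
    exact ih (((cosyz_ses hd (n + 1)).shortExact.hasProjectiveDimensionLT_X₃_iff n (hp' _)).1 h)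

lemma cosyz_not_id (hε : Function.Injective ε) (h0 : Function.Exact ε (d 0))
    (hd : ∀ j, Function.Exact (d j) (d (j + 1))) (hp : ∀ j, Module.Projective Γ (C j))
    (hi : ∀ j, Module.Injective Γ (C j)) (hΓ : ¬ Module.Injective Γ Γ) (n : ℕ) :
    ¬ HasInjectiveDimensionLT (ModuleCat.of Γ Γ) n := by
  intro h
  have hi' : ∀ j, Injective (ModuleCat.of Γ (C j)) := fun j =>
    (Module.injective_iff_injective_object _ _).1 (hi j)
  obtain ⟨e⟩ := cosyz_iso hε h0
  have key : ∀ j m : ℕ, HasInjectiveDimensionLT (Zc d 0) (j + m + 1) →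
      HasInjectiveDimensionLT (Zc d j) (m + 1) := by
    intro j
    induction j with
    | zero => intro m hm; simpa using hm
    | succ j ih =>
      intro m hm
      refine ((cosyz_ses hd j).shortExact.hasInjectiveDimensionLT_X₃_iff m (hi' j)).2 ?_
      exact ih (m + 1) (by rwa [show j + (m + 1) + 1 = j + 1 + m + 1 by omega])
  have h1 := hasInjectiveDimensionLT_of_iso e n
  have h2 : Injective (cosyz_ses hd n).sc.X₁ :=
    injective_iff_hasInjectiveDimensionLT_one.2
      (key n 0 (hasInjectiveDimensionLT_of_ge (Zc d 0) n _ (by omega)))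
  let s := (cosyz_ses hd n).shortExact.splittingOfInjective
  have h3 : Projective (ModuleCat.of Γ (C n)) := by
    rw [← IsProjective.iff_projective]; exact hp n
  let r : Retract (Zc d (n + 1)) (ModuleCat.of Γ (C n)) := ⟨s.s, (cosyz_ses hd n).sc.g, s.s_g⟩
  have h4 := r.hasProjectiveDimensionLT 1
  exact cosyz_not_pd hε h0 hd hp hi hΓ n (hasProjectiveDimensionLT_of_ge _ 1 _ (by omega))

lemma cosyz_finite_id (hε : Function.Injective ε) (h0 : Function.Exact ε (d 0))
    (hd : ∀ j, Function.Exact (d j) (d (j + 1))) (hi : ∀ j, Module.Injective Γ (C j))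
    {r : ℕ} (hr : Subsingleton (C r)) : HasInjectiveDimensionLT (ModuleCat.of Γ Γ) r := by
  have hi' : ∀ j, Injective (ModuleCat.of Γ (C j)) := fun j =>
    (Module.injective_iff_injective_object _ _).1 (hi j)
  obtain ⟨e⟩ := cosyz_iso hε h0
  have key : ∀ k m : ℕ, HasInjectiveDimensionLT (Zc d k) m →
      HasInjectiveDimensionLT (Zc d 0) (m + k) := by
    intro k
    induction k with
    | zero => intro m hm; exact hm
    | succ k ih =>
      intro m hm
      have := hi' k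
      have h1 := (cosyz_ses hd k).shortExact.hasInjectiveDimensionLT_X₁ m hm
        (hasInjectiveDimensionLT_of_ge (ModuleCat.of Γ (C k)) 1 _ (by omega))
      have h2 := ih (m + 1) h1
      rwa [show m + 1 + k = m + (k + 1) by omega] at h2
  have hz : Limits.IsZero (Zc d r) := ModuleCat.isZero_of_subsingleton _
  have h1 := key r 0 hz.hasInjectiveDimensionLT_zero
  rw [zero_add] at h1
  exact hasInjectiveDimensionLT_of_iso e.symm r

lemma cosyz_ext (hd : ∀ j, Function.Exact (d j) (d (j + 1)))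
    (hi : ∀ j, Module.Injective Γ (C j)) {S : Type u} [AddCommGroup S] [Module Γ S]
    (hS : ∀ j, ∀ f : S →ₗ[Γ] C j, f = 0) (i : ℕ) :
    ∀ j, ∀ e : Ext (ModuleCat.of Γ S) (Zc d j) i, e = 0 := by
  induction i with
  | zero =>
    intro j
    refine (ev_zero_iff (Zc d j)).2 fun φ => ?_
    ext x
    exact LinearMap.congr_fun (hS j ((LinearMap.ker (d j)).subtype.comp φ)) x
  | succ i ih =>
    intro j e
    have : Injective (cosyz_ses hd j).sc.X₂ :=
      (Module.injective_iff_injective_object _ _).1 (hi j)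
    obtain ⟨x₃, rfl⟩ := Ext.covariant_sequence_exact₁ _ (cosyz_ses hd j).shortExact e
      (Ext.eq_zero_of_injective _) rfl
    rw [ih (j + 1) x₃, Ext.zero_comp]

end cosyz

theorem nak_S0282 (K : Type u) [Field K] (h : Nak K) :
    ∃ (Γ : Type u) (_ : Ring Γ) (_ : Algebra K Γ), FiniteDimensional K Γ ∧
      ∃ S : ModuleCat.{u} Γ, IsSimpleModule Γ S ∧
        ∀ i : ℕ, Subsingleton (Abelian.Ext S (ModuleCat.of Γ Γ) i) := by
  obtain ⟨Γ, _, _, hfd, W, _, _, hWf, hWp, hWi, ⟨C, _, _, ε, d, hC, hε, h0, hd⟩, hΓ,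
    S, _, _, hS, hSW⟩ := h
  refine ⟨Γ, inferInstance, inferInstance, hfd, ModuleCat.of Γ S, hS, fun i => ?_⟩
  obtain ⟨e⟩ := cosyz_iso hε h0
  refine subsingleton_of_forall_eq 0 fun x => ?_
  have h1 := cosyz_ext hd (fun j => inAdd_injective (hC j))
    (fun j => inAdd_hom_zero hSW (hC j)) i 0 (x.comp (Ext.mk₀ e.hom) (add_zero i))
  rw [← x.comp_mk₀_id, ← e.hom_inv_id, ← Ext.mk₀_comp_mk₀, ← Ext.comp_assoc_of_third_deg_zero, h1,
    Ext.zero_comp]

theorem nak_S0283 (K : Type u) [Field K] (h : Nak K) :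
    ∃ (Γ : Type u) (_ : Ring Γ) (_ : Algebra K Γ), FiniteDimensional K Γ ∧
      ∀ n : ℕ, 1 ≤ n → ∃ C : ModuleCat.{u} Γ, Module.Finite Γ C ∧
        projectiveDimension C = (n : WithBot ℕ∞) := by
  obtain ⟨Γ, _, _, hfd, W, _, _, hWf, hWp, hWi, ⟨C, _, _, ε, d, hC, hε, h0, hd⟩, hΓ,
    S, _, _, hS, hSW⟩ := h
  refine ⟨Γ, inferInstance, inferInstance, hfd, fun n hn => ?_⟩
  obtain ⟨n, rfl⟩ : ∃ k, n = k + 1 := ⟨n - 1, by omega⟩
  refine ⟨Zc d (n + 1), ?_, le_antisymm ?_ ?_⟩
  · have := inAdd_finite (hC n)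
    exact Module.Finite.of_surjective _ (cosyz_ses hd n).surj
  · rw [projectiveDimension_le_iff]
    exact cosyz_pd hε h0 hd (fun j => inAdd_projective (hC j)) _
  · rw [projectiveDimension_ge_iff]
    exact cosyz_not_pd hε h0 hd (fun j => inAdd_projective (hC j))
      (fun j => inAdd_injective (hC j)) hΓ n

theorem nak_S0284 (K : Type u) [Field K] (h : Nak K) :
    ∃ (Γ : Type u) (_ : Ring Γ) (_ : Algebra K Γ), FiniteDimensional K Γ ∧
      (∃ (I : ℕ → ModuleCat.{u} Γ) (ε : Γ →ₗ[Γ] I 0) (d : ∀ j : ℕ, I j →ₗ[Γ] I (j + 1)),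
        Function.Injective ε ∧ Function.Exact ε (d 0) ∧ (∀ j, Function.Exact (d j) (d (j + 1))) ∧
        ∀ j, Module.Projective Γ (I j) ∧ Module.Injective Γ (I j)) ∧
      ∀ n : ℕ, ¬ HasInjectiveDimensionLT (ModuleCat.of Γ Γ) n := by
  obtain ⟨Γ, _, _, hfd, W, _, _, hWf, hWp, hWi, ⟨C, _, _, ε, d, hC, hε, h0, hd⟩, hΓ,
    S, _, _, hS, hSW⟩ := h
  exact ⟨Γ, inferInstance, inferInstance, hfd, ⟨fun j => ModuleCat.of Γ (C j), ε, d, hε, h0, hd,
    fun j => ⟨inAdd_projective (hC j), inAdd_injective (hC j)⟩⟩,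
    cosyz_not_id hε h0 hd (fun j => inAdd_projective (hC j)) (fun j => inAdd_injective (hC j)) hΓ⟩

theorem nak_S0285 (K : Type u) [Field K] (h : Nak K) :
    ∃ (Γ : Type u) (_ : Ring Γ) (_ : Algebra K Γ), FiniteDimensional K Γ ∧
      ∃ (W : Type u) (_ : AddCommGroup W) (_ : Module Γ W), Module.Finite Γ W ∧
        Module.Projective Γ W ∧ Module.Injective Γ W ∧
        IsWakamatsuTilting Γ W ∧ ¬ IsTilting Γ W := by
  obtain ⟨Γ, _, _, hfd, W, _, _, hWf, hWp, hWi, ⟨C, _, _, ε, d, hC, hε, h0, hd⟩, hΓ,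
    S, _, _, hS, hSW⟩ := h
  refine ⟨Γ, inferInstance, inferInstance, hfd, W, inferInstance, inferInstance, hWf, hWp, hWi,
    ⟨fun i hi => ?_, C, inferInstance, inferInstance, ε, d, ⟨hC, hε, h0, hd⟩, fun φ => ?_,
      hom_exact_of_injective h0, fun j => hom_exact_of_injective (hd j)⟩, ?_⟩
  · obtain ⟨i, rfl⟩ : ∃ k, i = k + 1 := ⟨i - 1, by omega⟩
    exact subsingleton_of_forall_eq 0 (ev_succ_of_projective (ModuleCat.of Γ W) i)
  · obtain ⟨l, hl⟩ := Module.Injective.out (Q := W) ε hε φ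
    exact ⟨l, LinearMap.ext hl⟩
  · rintro ⟨-, -, C', _, _, ε', d', r, ⟨hC', hε', h0', hd'⟩, hr⟩
    exact cosyz_not_id hε h0 hd (fun j => inAdd_projective (hC j))
      (fun j => inAdd_injective (hC j)) hΓ (r + 1)
      (cosyz_finite_id hε' h0' hd' (fun j => inAdd_injective (hC' j)) (hr _ (Nat.lt_succ_self r)))

end Crest.Agent.R186
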