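import Crest.Agent.R186.Kunneth

/-!
Tensor product of data `SD`.
-/

set_option autoImplicit false

namespace Crest.Agent.R186

open scoped TensorProduct

section aux

variable {G₁ G₂ : Type*} {Γ₁ : GD G₁} {Γ₂ : GD G₂}

theorem GD.sdt_finite_range {G : Type*} (Γ : GD G) (a b : ℤ) :
    {g | a ≤ Γ.deg g ∧ Γ.deg g ≤ b}.Finite := by
  refine ((Set.finite_Icc a b).biUnion fun n _ => (Γ.fib n).finite_toSet).subset ?_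
  intro g hg
  exact Set.mem_biUnion (x := Γ.deg g) hg (by simp)

theorem GD.sdt_exists_of_nonneg (Γ₁ : GD G₁) (Γ₂ : GD G₂) (h₁ : ∀ g, 0 ≤ Γ₁.deg g)
    (h₂ : ∀ g, 0 ≤ Γ₂.deg g) :
    ∃ Γ : GD (G₁ × G₂), ∀ g₁ g₂, Γ.deg (g₁, g₂) = Γ₁.deg g₁ + Γ₂.deg g₂ := by
  have h : ∀ n, {g : G₁ × G₂ | Γ₁.deg g.1 + Γ₂.deg g.2 = n}.Finite := fun n =>
    ((Γ₁.sdt_finite_range 0 n).prod (Γ₂.sdt_finite_range 0 n)).subset fun g hg => by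
      have h3 := h₁ g.1
      have h4 := h₂ g.2
      have h5 : Γ₁.deg g.1 + Γ₂.deg g.2 = n := hg
      exact ⟨⟨h3, by omega⟩, ⟨h4, by omega⟩⟩
  exact ⟨⟨fun g => Γ₁.deg g.1 + Γ₂.deg g.2, fun n => (h n).toFinset, fun g n => by simp⟩,
    fun _ _ => rfl⟩

theorem GD.sdt_exists_of_nonpos (Γ₁ : GD G₁) (Γ₂ : GD G₂) (h₁ : ∀ g, Γ₁.deg g ≤ 0)
    (h₂ : ∀ g, Γ₂.deg g ≤ 0) :
    ∃ Γ : GD (G₁ × G₂), ∀ g₁ g₂, Γ.deg (g₁, g₂) = Γ₁.deg g₁ + Γ₂.deg g₂ := by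
  obtain ⟨Γ, hΓ⟩ := GD.sdt_exists_of_nonneg Γ₁.op Γ₂.op (fun g => by simpa using h₁ g)
    (fun g => by simpa using h₂ g)
  exact ⟨Γ.op, fun g₁ g₂ => by simp only [GD.op_deg, hΓ]; ring⟩

variable {Γ : GD (G₁ × G₂)} (hΓ : ∀ g₁ g₂, Γ.deg (g₁, g₂) = Γ₁.deg g₁ + Γ₂.deg g₂)
include hΓ

open Classical in
theorem sdt_sum_fst {A : Type*} [AddCommMonoid A] (n : ℤ) (a : G₂) (F : G₁ × G₂ → A) :
    ∑ g ∈ Γ.fib n, (if a = g.2 then F g else 0) = ∑ g ∈ Γ₁.fib (n - Γ₂.deg a), F (g, a) := by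
  symm
  refine Finset.sum_of_injOn (fun g => (g, a)) (fun _ _ _ _ h => congrArg Prod.fst h)
    (fun g hg => ?_) (fun g hg h => if_neg ?_) fun g _ => (if_pos rfl).symm
  · rw [Finset.mem_coe, GD.mem_fib] at hg ⊢
    rw [hΓ]; omega
  · rintro rfl
    refine h ⟨g.1, ?_, rfl⟩
    have := hΓ g.1 g.2
    rw [GD.mem_fib] at hg
    rw [Finset.mem_coe, GD.mem_fib]
    simp only [Prod.mk.eta] at this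
    omega

open Classical in
theorem sdt_sum_snd {A : Type*} [AddCommMonoid A] (n : ℤ) (a : G₁) (F : G₁ × G₂ → A) :
    ∑ g ∈ Γ.fib n, (if a = g.1 then F g else 0) = ∑ g ∈ Γ₂.fib (n - Γ₁.deg a), F (a, g) := by
  symm
  refine Finset.sum_of_injOn (fun g => (a, g)) (fun _ _ _ _ h => congrArg Prod.snd h)
    (fun g hg => ?_) (fun g hg h => if_neg ?_) fun g _ => (if_pos rfl).symm
  · rw [Finset.mem_coe, GD.mem_fib] at hg ⊢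
    rw [hΓ]; omega
  · rintro rfl
    refine h ⟨g.2, ?_, rfl⟩
    have := hΓ g.1 g.2
    rw [GD.mem_fib] at hg
    rw [Finset.mem_coe, GD.mem_fib]
    simp only [Prod.mk.eta] at this
    omega

omit hΓ
variable {K R₁ R₂ : Type*} [Field K] [Ring R₁] [Algebra K R₁] [Ring R₂] [Algebra K R₂]

open Classical in
/-- the differential of the tensor product -/
noncomputable def sdtD (K : Type*) [Field K] [Algebra K R₁] [Algebra K R₂] (M₁ : MD Γ₁ R₁)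
    (M₂ : MD Γ₂ R₂) (g g' : G₁ × G₂) : R₁ ⊗[K] R₂ :=
  (if g.2 = g'.2 then M₁.D g.1 g'.1 ⊗ₜ M₂.e g.2 else 0) +
    (if g.1 = g'.1 then M₁.e g.1 ⊗ₜ M₂.D g.2 g'.2 else 0)

include hΓ

theorem sdt_sum_D_mul (M₁ : MD Γ₁ R₁) (M₂ : MD Γ₂ R₂) (g₁ : G₁) (g₂ : G₂)
    (F : G₁ × G₂ → R₁ ⊗[K] R₂) :
    ∑ g' ∈ Γ.fib (Γ.deg (g₁, g₂) - 1), sdtD K M₁ M₂ (g₁, g₂) g' * F g' =
      ∑ g' ∈ Γ₁.fib (Γ₁.deg g₁ - 1), (M₁.D g₁ g' ⊗ₜ M₂.e g₂) * F (g', g₂) +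
      ∑ g' ∈ Γ₂.fib (Γ₂.deg g₂ - 1), (M₁.e g₁ ⊗ₜ M₂.D g₂ g') * F (g₁, g') := by
  simp only [sdtD, add_mul, ite_mul, zero_mul, Finset.sum_add_distrib]
  rw [sdt_sum_fst hΓ _ g₂ fun g' => (M₁.D g₁ g'.1 ⊗ₜ[K] M₂.e g₂) * F g',
    sdt_sum_snd hΓ _ g₁ fun g' => (M₁.e g₁ ⊗ₜ[K] M₂.D g₂ g'.2) * F g', hΓ,
    show Γ₁.deg g₁ + Γ₂.deg g₂ - 1 - Γ₂.deg g₂ = Γ₁.deg g₁ - 1 by ring,
    show Γ₁.deg g₁ + Γ₂.deg g₂ - 1 - Γ₁.deg g₁ = Γ₂.deg g₂ - 1 by ring]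

theorem sdt_sum_mul_D (M₁ : MD Γ₁ R₁) (M₂ : MD Γ₂ R₂) (g₁ : G₁) (g₂ : G₂)
    (F : G₁ × G₂ → R₁ ⊗[K] R₂) :
    ∑ g' ∈ Γ.fib (Γ.deg (g₁, g₂) + 1), F g' * sdtD K M₁ M₂ g' (g₁, g₂) =
      ∑ g' ∈ Γ₁.fib (Γ₁.deg g₁ + 1), F (g', g₂) * (M₁.D g' g₁ ⊗ₜ M₂.e g₂) +
      ∑ g' ∈ Γ₂.fib (Γ₂.deg g₂ + 1), F (g₁, g') * (M₁.e g₁ ⊗ₜ M₂.D g' g₂) := by
  classical
  have h1 := sdt_sum_fst hΓ (Γ.deg (g₁, g₂) + 1) g₂ fun g' => F g' * (M₁.D g'.1 g₁ ⊗ₜ[K] M₂.e g'.2)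
  have h2 := sdt_sum_snd hΓ (Γ.deg (g₁, g₂) + 1) g₁ fun g' => F g' * (M₁.e g'.1 ⊗ₜ[K] M₂.D g'.2 g₂)
  rw [show Γ.deg (g₁, g₂) + 1 - Γ₂.deg g₂ = Γ₁.deg g₁ + 1 by rw [hΓ]; ring] at h1
  rw [show Γ.deg (g₁, g₂) + 1 - Γ₁.deg g₁ = Γ₂.deg g₂ + 1 by rw [hΓ]; ring] at h2
  rw [← h1, ← h2, ← Finset.sum_add_distrib]
  refine Finset.sum_congr rfl fun x _ => ?_
  simp only [sdtD, mul_add, mul_ite, mul_zero]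
  congr 1
  · exact if_congr eq_comm rfl rfl
  · exact if_congr eq_comm rfl rfl

theorem sdt_sq [CharP K 2] (M₁ : MD Γ₁ R₁) (M₂ : MD Γ₂ R₂) (g g'' : G₁ × G₂)
    (h : Γ.deg g'' + 2 = Γ.deg g) :
    ∑ g' ∈ Γ.fib (Γ.deg g - 1), sdtD K M₁ M₂ g g' * sdtD K M₁ M₂ g' g'' = 0 := by
  classical
  obtain ⟨g₁, g₂⟩ := g
  obtain ⟨k₁, k₂⟩ := g''
  rw [sdt_sum_D_mul hΓ]
  rw [hΓ, hΓ] at h
  have h1 : ∑ g' ∈ Γ₁.fib (Γ₁.deg g₁ - 1),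
      (M₁.D g₁ g' ⊗ₜ[K] M₂.e g₂) * sdtD K M₁ M₂ (g', g₂) (k₁, k₂) =
      if Γ₁.deg k₁ = Γ₁.deg g₁ - 1 then M₁.D g₁ k₁ ⊗ₜ[K] M₂.D g₂ k₂ else 0 := by
    simp only [sdtD, mul_add, mul_ite, mul_zero, Finset.sum_add_distrib,
      Algebra.TensorProduct.tmul_mul_tmul, M₂.ee, M₁.De, M₂.eD, Finset.sum_ite_eq', GD.mem_fib]
    rw [add_eq_right]
    split_ifs with h2
    · subst h2
      rw [← TensorProduct.sum_tmul, M₁.sq g₁ k₁ (by omega), TensorProduct.zero_tmul]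
    · simp
  have h2 : ∑ g' ∈ Γ₂.fib (Γ₂.deg g₂ - 1),
      (M₁.e g₁ ⊗ₜ[K] M₂.D g₂ g') * sdtD K M₁ M₂ (g₁, g') (k₁, k₂) =
      if Γ₂.deg k₂ = Γ₂.deg g₂ - 1 then M₁.D g₁ k₁ ⊗ₜ[K] M₂.D g₂ k₂ else 0 := by
    simp only [sdtD, mul_add, mul_ite, mul_zero, Finset.sum_add_distrib,
      Algebra.TensorProduct.tmul_mul_tmul, M₁.ee, M₂.De, M₁.eD, Finset.sum_ite_eq', GD.mem_fib]
    rw [add_eq_left]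
    split_ifs with h2
    · subst h2
      rw [← TensorProduct.tmul_sum, M₂.sq g₂ k₂ (by omega), TensorProduct.tmul_zero]
    · simp
  rw [h1, h2]
  by_cases h3 : Γ₁.deg k₁ = Γ₁.deg g₁ - 1
  · rw [if_pos h3, if_pos (by omega), ← two_smul K, CharTwo.two_eq_zero, zero_smul]
  · rw [if_neg h3, if_neg (by omega), add_zero]

/-- the tensor product of two complexes -/
noncomputable def sdtM (K : Type*) [Field K] [CharP K 2] [Algebra K R₁] [Algebra K R₂]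
    (M₁ : MD Γ₁ R₁) (M₂ : MD Γ₂ R₂) : MD Γ (R₁ ⊗[K] R₂) where
  e g := M₁.e g.1 ⊗ₜ M₂.e g.2
  D := sdtD K M₁ M₂
  ee g := by rw [Algebra.TensorProduct.tmul_mul_tmul, M₁.ee, M₂.ee]
  eD g g' := by
    simp only [sdtD, mul_add, mul_ite, mul_zero, Algebra.TensorProduct.tmul_mul_tmul, M₁.ee,
      M₂.ee, M₁.eD, M₂.eD]
  De g g' := by
    simp only [sdtD, add_mul, ite_mul, zero_mul, Algebra.TensorProduct.tmul_mul_tmul, M₁.De,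
      M₂.De]
    congr 1
    · split_ifs with h
      · rw [← h, M₂.ee]
      · rfl
    · split_ifs with h
      · rw [← h, M₁.ee]
      · rfl
  sq := sdt_sq hΓ M₁ M₂

open Classical in
theorem sdt_one_co [CharP K 2] (M₁ : MD Γ₁ R₁) (M₂ : MD Γ₂ R₂)
    {n₁ n₂ : ℤ} {a₁ : G₁} {a₂ : G₂} {z₁ : R₁} {z₂ : R₂} {π₁ : R₁ →ₗ[K] K} {π₂ : R₂ →ₗ[K] K}
    (ha₁ : Γ₁.deg a₁ = n₁) (ha₂ : Γ₂.deg a₂ = n₂)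
    (h₁ : (M₁.cx (Bi.reg K R₁).L).One n₁ (Pi.single a₁ z₁) (π₁ ∘ₗ LinearMap.proj a₁))
    (h₂ : (M₂.cx (Bi.reg K R₂).L).One n₂ (Pi.single a₂ z₂) (π₂ ∘ₗ LinearMap.proj a₂))
    (π : R₁ ⊗[K] R₂ →ₗ[K] K) (hπ : ∀ y₁ y₂, π (y₁ ⊗ₜ y₂) = π₁ y₁ * π₂ y₂) :
    ((sdtM hΓ K M₁ M₂).cx (Bi.reg K (R₁ ⊗[K] R₂)).L).One (n₁ + n₂)
      (Pi.single (a₁, a₂) (z₁ ⊗ₜ z₂)) (π ∘ₗ LinearMap.proj (a₁, a₂)) :=
  one_tensor M₁ (lrep K R₁) M₂ (lrep K R₂) (sdtM hΓ K M₁ M₂) (lrep K _) (LinearEquiv.refl K _) hΓ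
    (fun g₁ g₂ y₁ y₂ => by simp [sdtM])
    (fun g₁ g₂ g₁' g₂' y₁ y₂ _ => by simp [sdtM, sdtD]) ha₁ ha₂ h₁ h₂ π hπ

open Classical in
theorem sdt_one_ch [CharP K 2] (M₁ : MD Γ₁ R₁) (M₂ : MD Γ₂ R₂)
    {n₁ n₂ : ℤ} {a₁ : G₁} {a₂ : G₂} {z₁ : R₁} {z₂ : R₂} {π₁ : R₁ →ₗ[K] K} {π₂ : R₂ →ₗ[K] K}
    (ha₁ : -Γ₁.deg a₁ = n₁) (ha₂ : -Γ₂.deg a₂ = n₂)
    (h₁ : (M₁.op.cx (Bi.reg K R₁).R).One n₁ (Pi.single a₁ z₁) (π₁ ∘ₗ LinearMap.proj a₁))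
    (h₂ : (M₂.op.cx (Bi.reg K R₂).R).One n₂ (Pi.single a₂ z₂) (π₂ ∘ₗ LinearMap.proj a₂))
    (π : R₁ ⊗[K] R₂ →ₗ[K] K) (hπ : ∀ y₁ y₂, π (y₁ ⊗ₜ y₂) = π₁ y₁ * π₂ y₂) :
    ((sdtM hΓ K M₁ M₂).op.cx (Bi.reg K (R₁ ⊗[K] R₂)).R).One (n₁ + n₂)
      (Pi.single (a₁, a₂) (z₁ ⊗ₜ z₂)) (π ∘ₗ LinearMap.proj (a₁, a₂)) :=
  one_tensor M₁.op (rrep K R₁) M₂.op (rrep K R₂) (sdtM hΓ K M₁ M₂).op (rrep K _)
    (LinearEquiv.refl K _) (fun g₁ g₂ => by simp only [GD.op_deg, hΓ]; ring)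
    (fun g₁ g₂ y₁ y₂ => by simp [sdtM])
    (fun g₁ g₂ g₁' g₂' y₁ y₂ _ => by
      simp only [MD.op_D, MD.op_e, rrep_apply, MulOpposite.unop_op, sdtM, sdtD, mul_add, mul_ite,
        mul_zero, LinearEquiv.refl_apply, Algebra.TensorProduct.tmul_mul_tmul]
      congr 1
      · by_cases h : g₂ = g₂'
        · subst h; simp
        · rw [if_neg h, if_neg (Ne.symm h)]
      · by_cases h : g₁ = g₁'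
        · subst h; simp
        · rw [if_neg h, if_neg (Ne.symm h)]) ha₁ ha₂ h₁ h₂ π hπ

end aux

theorem SD.exists_tensor {K R₁ R₂ : Type*} [Field K] [CharP K 2] [Ring R₁] [Algebra K R₁]
    [Ring R₂] [Algebra K R₂] {GP₁ GQ₁ GP₂ GQ₂ : Type} {ΓP₁ : GD GP₁} {ΓQ₁ : GD GQ₁}
    {ΓP₂ : GD GP₂} {ΓQ₂ : GD GQ₂} (S₁ : SD K R₁ ΓP₁ ΓQ₁) (S₂ : SD K R₂ ΓP₂ ΓQ₂) :
    ∃ (ΓP : GD (GP₁ × GP₂)) (ΓQ : GD (GQ₁ × GQ₂)) (S : SD K (R₁ ⊗[K] R₂) ΓP ΓQ),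
      S.d = S₁.d + S₂.d := by
  obtain ⟨ΓP, hP⟩ := GD.sdt_exists_of_nonneg ΓP₁ ΓP₂ S₁.degP S₂.degP
  obtain ⟨ΓQ, hQ⟩ := GD.sdt_exists_of_nonpos ΓQ₁ ΓQ₂ S₁.degQ S₂.degQ
  let χ : R₁ ⊗[K] R₂ →ₐ[K] K := Algebra.TensorProduct.lift S₁.χ S₂.χ fun _ _ => Commute.all _ _
  have hχ : ∀ y₁ y₂, χ (y₁ ⊗ₜ y₂) = S₁.χ y₁ * S₂.χ y₂ := fun _ _ =>
    Algebra.TensorProduct.lift_tmul ..
  let pr : (R₁ →ₗ[K] K) → (R₂ →ₗ[K] K) → R₁ ⊗[K] R₂ →ₗ[K] K := fun π₁ π₂ =>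
    LinearMap.mul' K K ∘ₗ TensorProduct.map π₁ π₂
  have hpr : ∀ π₁ π₂ y₁ y₂, pr π₁ π₂ (y₁ ⊗ₜ y₂) = π₁ y₁ * π₂ y₂ := fun _ _ _ _ => by simp [pr]
  have hχD : ∀ {G₁ G₂ : Type} {Γ₁ : GD G₁} {Γ₂ : GD G₂} (M₁ : MD Γ₁ R₁) (M₂ : MD Γ₂ R₂),
      (∀ g g', S₁.χ (M₁.D g g') = 0) → (∀ g g', S₂.χ (M₂.D g g') = 0) →
      ∀ g g', χ (sdtD K M₁ M₂ g g') = 0 := by
    intro G₁ G₂ Γ₁ Γ₂ M₁ M₂ h₁ h₂ g g'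
    unfold sdtD
    rw [map_add]
    split_ifs <;> simp [hχ, h₁, h₂]
  refine ⟨ΓP, ΓQ,
    { P := sdtM hP K S₁.P S₂.P
      Q := sdtM hQ K S₁.Q S₂.Q
      d := S₁.d + S₂.d
      α := fun g g' => S₁.α g.1 g'.1 ⊗ₜ S₂.α g.2 g'.2
      χ := χ
      p₀ := (S₁.p₀, S₂.p₀)
      p₁ := (S₁.p₁, S₂.p₁)
      q₀ := (S₁.q₀, S₂.q₀)
      q₁ := (S₁.q₁, S₂.q₁)
      πP := pr S₁.πP S₂.πP
      πQ := pr S₁.πQ S₂.πQ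
      degP := fun g => by rw [hP g.1 g.2]; exact add_nonneg (S₁.degP _) (S₂.degP _)
      degQ := fun g => by rw [hQ g.1 g.2]; exact add_nonpos (S₁.degQ _) (S₂.degQ _)
      deg_p₀ := by rw [hP, S₁.deg_p₀, S₂.deg_p₀, add_zero]
      deg_q₀ := by rw [hQ, S₁.deg_q₀, S₂.deg_q₀, add_zero]
      deg_p₁ := by rw [hP, S₁.deg_p₁, S₂.deg_p₁]
      deg_q₁ := by rw [hQ, S₁.deg_q₁, S₂.deg_q₁, neg_add]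
      eα := fun g g' => by simp [sdtM, S₁.eα, S₂.eα]
      αe := fun g g' => by simp [sdtM, S₁.αe, S₂.αe]
      α_deg := fun g g' h => ?_
      α_chain := fun g g'' h => ?_
      α_p₀ := fun g' h => ?_
      α_q₀ := fun g h => ?_
      χP := hχD _ _ S₁.χP S₂.χP
      χQ := hχD _ _ S₁.χQ S₂.χQ
      χα := fun g g' => by rw [hχ, S₁.χα, zero_mul]
      χ_p₀ := (hχ _ _).trans (by rw [S₁.χ_p₀, S₂.χ_p₀, one_mul])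
      χ_q₀ := (hχ _ _).trans (by rw [S₁.χ_q₀, S₂.χ_q₀, one_mul])
      χ_eP := fun g h => (hχ _ _).trans ?_
      χ_eQ := fun g h => (hχ _ _).trans ?_
      Pch := ?_
      Qco := ?_
      Qch := ?_
      Pco := ?_ }, rfl⟩
  · rw [hP g.1 g.2, hQ g'.1 g'.2] at h
    by_cases h1 : ΓQ₁.deg g'.1 + S₁.d = ΓP₁.deg g.1
    · rw [S₂.α_deg g.2 g'.2 (by omega), TensorProduct.tmul_zero]
    · rw [S₁.α_deg g.1 g'.1 h1, TensorProduct.zero_tmul]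
  · obtain ⟨g₁, g₂⟩ := g
    obtain ⟨k₁, k₂⟩ := g''
    rw [show ΓP.deg (g₁, g₂) - (S₁.d + S₂.d) = ΓQ.deg (k₁, k₂) + 1 by omega]
    rw [hP, hQ] at h
    change ∑ g' ∈ _, sdtD K S₁.P S₂.P (g₁, g₂) g' * _ = ∑ g' ∈ _, _ * sdtD K S₁.Q S₂.Q g' (k₁, k₂)
    rw [sdt_sum_D_mul hP, sdt_sum_mul_D hQ]
    simp only [Algebra.TensorProduct.tmul_mul_tmul, S₁.eα, S₂.eα, S₁.αe, S₂.αe,
      ← TensorProduct.sum_tmul, ← TensorProduct.tmul_sum]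
    congr 1
    · by_cases h2 : ΓQ₂.deg k₂ + S₂.d = ΓP₂.deg g₂
      · rw [S₁.α_chain g₁ k₁ (by omega), show ΓP₁.deg g₁ - S₁.d = ΓQ₁.deg k₁ + 1 by omega]
      · rw [S₂.α_deg g₂ k₂ h2, TensorProduct.tmul_zero, TensorProduct.tmul_zero]
    · by_cases h2 : ΓQ₁.deg k₁ + S₁.d = ΓP₁.deg g₁
      · rw [S₂.α_chain g₂ k₂ (by omega), show ΓP₂.deg g₂ - S₂.d = ΓQ₂.deg k₂ + 1 by omega]
      · rw [S₁.α_deg g₁ k₁ h2, TensorProduct.zero_tmul, TensorProduct.zero_tmul]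
  · by_cases h1 : g'.1 = S₁.q₁
    · rw [S₂.α_p₀ g'.2 fun h2 => h (Prod.ext h1 h2), TensorProduct.tmul_zero]
    · rw [S₁.α_p₀ g'.1 h1, TensorProduct.zero_tmul]
  · by_cases h1 : g.1 = S₁.p₁
    · rw [S₂.α_q₀ g.2 fun h2 => h (Prod.ext h1 h2), TensorProduct.tmul_zero]
    · rw [S₁.α_q₀ g.1 h1, TensorProduct.zero_tmul]
  · by_cases h1 : g.1 = S₁.p₀
    · rw [S₂.χ_eP g.2 fun h2 => h (Prod.ext h1 h2), mul_zero]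
    · rw [S₁.χ_eP g.1 h1, zero_mul]
  · by_cases h1 : g.1 = S₁.q₀
    · rw [S₂.χ_eQ g.2 fun h2 => h (Prod.ext h1 h2), mul_zero]
    · rw [S₁.χ_eQ g.1 h1, zero_mul]
  · have := sdt_one_ch hP S₁.P S₂.P (by rw [S₁.deg_p₀, neg_zero]) (by rw [S₂.deg_p₀, neg_zero])
      S₁.Pch S₂.Pch χ.toLinearMap hχ
    rw [add_zero] at this
    convert this <;> rfl
  · have := sdt_one_co hQ S₁.Q S₂.Q S₁.deg_q₀ S₂.deg_q₀ S₁.Qco S₂.Qco χ.toLinearMap hχ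
    rw [add_zero] at this
    convert this <;> rfl
  · convert sdt_one_ch hQ S₁.Q S₂.Q (by rw [S₁.deg_q₁, neg_neg]) (by rw [S₂.deg_q₁, neg_neg])
      S₁.Qch S₂.Qch _ (hpr _ _)
    rfl
  · convert sdt_one_co hP S₁.P S₂.P S₁.deg_p₁ S₂.deg_p₁ S₁.Pco S₂.Pco _ (hpr _ _)
    rfl

end Crest.Agent.R186
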