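import Crest.Agent.R186.XDef

/-!
The homotopy `xs` and the cohomology of `X` with values in `K[z]/(z²)`.
-/

set_option autoImplicit false

namespace Crest.Agent.R186

namespace SD

variable {K B : Type*} [Field K] [CharP K 2] [Ring B] [Algebra K B] {GP GQ : Type} {ΓP : GD GP}
  {ΓQ : GD GQ} (S : SD K B ΓP ΓQ)

theorem X_D : S.X.D = S.xD := rfl
theorem X_e : S.X.e = S.xe := rfl

theorem ind_δ_apply (c : (GP × ℕ) ⊕ (GQ × ℕ) → Ez K K) (g : (GP × ℕ) ⊕ (GQ × ℕ)) :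
    (S.X.cx (LM.top ((lrep K (Ez K K)).comp (Ez.ch S.χ)))).δ c g =
      ∑ g' ∈ S.ΓX.fib (S.ΓX.deg g - 1), Ez.ch S.χ (S.xD g g') * c g' := rfl

theorem ind_δ_inl_zero (c : (GP × ℕ) ⊕ (GQ × ℕ) → Ez K K) (a : GP) :
    (S.X.cx (LM.top ((lrep K (Ez K K)).comp (Ez.ch S.χ)))).δ c (.inl (a, 0)) = 0 := by
  rw [ind_δ_apply]
  refine Finset.sum_eq_zero ?_
  rintro (⟨a', l'⟩ | ⟨a', l'⟩) _ <;> ext <;> simp [xD, apply_ite S.χ, S.χP, S.χα]

theorem ind_δ_inl_succ (c : (GP × ℕ) ⊕ (GQ × ℕ) → Ez K K) (a : GP) (l : ℕ) :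
    (S.X.cx (LM.top ((lrep K (Ez K K)).comp (Ez.ch S.χ)))).δ c (.inl (a, l + 1)) =
      TE.mk _ 0 (S.χ (S.P.e a) * (c (.inl (a, l))).fst) := by
  rw [ind_δ_apply, S.sum_fib_single _ (.inl (a, l))]
  · ext <;> simp [xD, mul_comm]
  · rintro (⟨a', l'⟩ | ⟨a', l'⟩) hg
    · have : ¬ (a = a' ∧ l = l') := fun h => hg (by rw [h.1, h.2])
      ext <;> simp [xD, apply_ite S.χ, S.χP, this]
    · ext <;> simp [xD]
  · simp only [ΓX_deg, xdeg_inl]; push_cast; ring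

theorem ind_δ_inr (c : (GP × ℕ) ⊕ (GQ × ℕ) → Ez K K) (a : GQ) (l : ℕ) :
    (S.X.cx (LM.top ((lrep K (Ez K K)).comp (Ez.ch S.χ)))).δ c (.inr (a, l)) =
      TE.mk _ 0 (S.χ (S.Q.e a) * (c (.inr (a, l + 1))).fst) := by
  rw [ind_δ_apply, S.sum_fib_single _ (.inr (a, l + 1))]
  · ext <;> simp [xD, mul_comm]
  · rintro (⟨a', l'⟩ | ⟨a', l'⟩) hg
    · simp [xD]
    · have : ¬ (a = a' ∧ l + 1 = l') := fun h => hg (by rw [h.1, h.2])
      ext <;> simp [xD, apply_ite S.χ, S.χQ, this]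
  · simp only [ΓX_deg, xdeg_inr]; push_cast; ring

theorem ind_mem_Co {n : ℤ} {c : (GP × ℕ) ⊕ (GQ × ℕ) → Ez K K} :
    c ∈ (S.X.cx (LM.top ((lrep K (Ez K K)).comp (Ez.ch S.χ)))).Co n ↔
      (∀ g, S.xdeg g ≠ n → c g = 0) ∧ (∀ a l, a ≠ S.p₀ → c (.inl (a, l)) = 0) ∧
        ∀ a l, a ≠ S.q₀ → c (.inr (a, l)) = 0 := by
  constructor
  · intro hc
    refine ⟨fun g => (hc g).1, fun a l ha => ?_, fun a l ha => ?_⟩
    · rw [← (hc _).2.1]
      change Ez.ch S.χ (S.xe (.inl (a, l))) * _ = 0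
      ext <;> simp [xe, S.χ_eP a ha]
    · rw [← (hc _).2.1]
      change Ez.ch S.χ (S.xe (.inr (a, l))) * _ = 0
      ext <;> simp [xe, S.χ_eQ a ha]
  · rintro ⟨h1, h2, h3⟩ g
    refine ⟨h1 g, ?_, trivial⟩
    change Ez.ch S.χ (S.xe g) * _ = _
    rcases g with ⟨a, l⟩ | ⟨a, l⟩
    · by_cases ha : a = S.p₀
      · subst ha
        ext <;> simp [xe, S.χ_p₀]
      · rw [h2 a l ha, mul_zero]
    · by_cases ha : a = S.q₀
      · subst ha
        ext <;> simp [xe, S.χ_q₀]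
      · rw [h3 a l ha, mul_zero]

theorem ind_bd {j : ℤ} {c : (GP × ℕ) ⊕ (GQ × ℕ) → Ez K K}
    (hc : c ∈ (S.X.cx (LM.top ((lrep K (Ez K K)).comp (Ez.ch S.χ)))).Z j)
    (h1 : (c (.inl (S.p₀, 0))).snd = 0) (h2 : (c (.inr (S.q₀, 0))).fst = 0) :
    c ∈ (S.X.cx (LM.top ((lrep K (Ez K K)).comp (Ez.ch S.χ)))).Bd j := by
  obtain ⟨c1, c2, c3⟩ := S.ind_mem_Co.1 (DG.mem_Z.1 hc).1
  have hδ := (DG.mem_Z.1 hc).2
  have f1 : ∀ a l, (c (.inl (a, l))).fst = 0 := by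
    intro a l
    by_cases ha : a = S.p₀
    · subst ha
      have := congrArg TE.snd (congrFun hδ (.inl (S.p₀, l + 1)))
      rw [ind_δ_inl_succ] at this
      simpa [S.χ_p₀] using this
    · rw [c2 a l ha, TE.fst_zero]
  have f2 : ∀ a l, (c (.inr (a, l))).fst = 0 := by
    intro a l
    by_cases ha : a = S.q₀
    · subst ha
      rcases l with _ | l
      · exact h2
      · have := congrArg TE.snd (congrFun hδ (.inr (S.q₀, l)))
        rw [ind_δ_inr] at this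
        simpa [S.χ_q₀] using this
    · rw [c3 a l ha, TE.fst_zero]
  let b : (GP × ℕ) ⊕ (GQ × ℕ) → Ez K K := fun g =>
    match g with
    | .inl (a, l) => TE.mk _ (c (.inl (a, l + 1))).snd 0
    | .inr (_, 0) => 0
    | .inr (a, l + 1) => TE.mk _ (c (.inr (a, l))).snd 0
  refine ⟨b, S.ind_mem_Co.2 ⟨?_, ?_, ?_⟩, ?_⟩
  · rintro (⟨a, l⟩ | ⟨a, _ | l⟩) hg
    · have := c1 (.inl (a, l + 1)) (by simp only [xdeg_inl] at hg ⊢; push_cast; omega)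
      ext <;> simp [b, this]
    · rfl
    · have := c1 (.inr (a, l)) (by simp only [xdeg_inr] at hg ⊢; push_cast at hg; omega)
      ext <;> simp [b, this]
  · intro a l ha
    ext <;> simp [b, c2 a _ ha]
  · rintro a (_ | l) ha
    · rfl
    · ext <;> simp [b, c3 a _ ha]
  · funext g
    rcases g with ⟨a, _ | l⟩ | ⟨a, l⟩
    · rw [ind_δ_inl_zero]
      by_cases ha : a = S.p₀
      · subst ha
        ext <;> simp [f1, h1]
      · rw [c2 a _ ha]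
    · rw [ind_δ_inl_succ]
      by_cases ha : a = S.p₀
      · subst ha
        ext <;> simp [f1, b, S.χ_p₀]
      · ext <;> simp [b, c2 a _ ha]
    · rw [ind_δ_inr]
      by_cases ha : a = S.q₀
      · subst ha
        ext <;> simp [f2, b, S.χ_q₀]
      · ext <;> simp [b, c3 a _ ha]

theorem x_ind_van (j : ℤ) (h1 : j ≠ 1) (h2 : j ≠ S.d) :
    (S.X.cx (LM.top ((lrep K (Ez K K)).comp (Ez.ch S.χ)))).Van j := by
  intro c hc
  obtain ⟨c1, -, -⟩ := S.ind_mem_Co.1 (DG.mem_Z.1 hc).1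
  refine S.ind_bd hc ?_ ?_
  · rw [c1 _ (by simp [S.deg_p₀, h1.symm]), TE.snd_zero]
  · rw [c1 _ (by simp [S.deg_q₀, h2.symm]), TE.fst_zero]

theorem x_ind_one (hd : S.d ≠ 1) :
    (S.X.cx (LM.top ((lrep K (Ez K K)).comp (Ez.ch S.χ)))).Rel 1 1 := by
  refine DG.rel_one_of_functional (TE.sndL _ ∘ₗ LinearMap.proj (Sum.inl (S.p₀, 0)))
    fun c hc h => ?_
  obtain ⟨c1, -, -⟩ := S.ind_mem_Co.1 (DG.mem_Z.1 hc).1
  refine S.ind_bd hc h ?_
  rw [c1 _ (by simp [S.deg_q₀, hd]), TE.fst_zero]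

omit [CharP K 2] in
theorem xs_ne_right (q : K) {g g' : (GP × ℕ) ⊕ (GQ × ℕ)} (h : S.xs q g g' ≠ 0) :
    (∃ a l, g = .inl (a, l) ∧ g' = .inl (a, l + 1)) ∨
      ∃ a l, g = .inr (a, l + 1) ∧ g' = .inr (a, l) := by
  rcases g with ⟨a, l⟩ | ⟨a, l⟩ <;> rcases g' with ⟨a', l'⟩ | ⟨a', l'⟩
  · simp only [xs] at h
    split_ifs at h with h1
    · obtain ⟨rfl, rfl⟩ := h1
      exact Or.inl ⟨a, l, rfl, rfl⟩
    · exact (h rfl).elim
  · exact (h rfl).elim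
  · exact (h rfl).elim
  · simp only [xs] at h
    split_ifs at h with h1
    · obtain ⟨rfl, rfl⟩ := h1
      exact Or.inr ⟨a, l', rfl, rfl⟩
    · exact (h rfl).elim

omit [CharP K 2] in
theorem xs_eq_zero (q : K) {g g' : (GP × ℕ) ⊕ (GQ × ℕ)}
    (h1 : ∀ a l, g = .inl (a, l) → g' ≠ .inl (a, l + 1))
    (h2 : ∀ a l, g = .inr (a, l + 1) → g' ≠ .inr (a, l)) : S.xs q g g' = 0 := by
  by_contra h
  rcases S.xs_ne_right q h with ⟨a, l, h3, h4⟩ | ⟨a, l, h3, h4⟩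
  · exact h1 a l h3 h4
  · exact h2 a l h3 h4

omit [CharP K 2] in
theorem sum1_inl_zero (q : K) (n : ℤ) (a : GP) (F : (GP × ℕ) ⊕ (GQ × ℕ) → Ez K B) :
    ∑ g' ∈ S.ΓX.fib n, S.xs q g' (.inl (a, 0)) (F g') = 0 :=
  Finset.sum_eq_zero fun g' _ => by rw [S.xs_eq_zero q (by simp) (by simp), LinearMap.zero_apply]

omit [CharP K 2] in
theorem sum1_inl_succ (q : K) (n : ℤ) (a : GP) (l : ℕ) (F : (GP × ℕ) ⊕ (GQ × ℕ) → Ez K B)
    (h : ΓP.deg a + l + 1 = n) :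
    ∑ g' ∈ S.ΓX.fib n, S.xs q g' (.inl (a, l + 1)) (F g') =
      TE.mk _ ((1 + q ^ (-(l + 1 : ℤ))) • ((F (.inl (a, l))).snd * S.P.e a)) 0 := by
  rw [S.sum_fib_single _ (.inl (a, l)) _ _ h]
  · ext <;> simp [xs]
  · intro g hg
    rw [S.xs_eq_zero q _ (by simp), LinearMap.zero_apply]
    rintro a' l' rfl h
    simp only [Sum.inl.injEq, Prod.mk.injEq, Nat.add_right_cancel_iff] at h
    exact hg (by rw [h.1, h.2])

omit [CharP K 2] in
theorem sum1_inr (q : K) (n : ℤ) (a : GQ) (l : ℕ) (F : (GP × ℕ) ⊕ (GQ × ℕ) → Ez K B)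
    (h : ΓQ.deg a - (l + 1 : ℕ) + S.d = n) :
    ∑ g' ∈ S.ΓX.fib n, S.xs q g' (.inr (a, l)) (F g') =
      TE.mk _ ((1 + q ^ (l + 1 : ℤ)) • ((F (.inr (a, l + 1))).snd * S.Q.e a)) 0 := by
  rw [S.sum_fib_single _ (.inr (a, l + 1)) _ _ h]
  · ext <;> simp [xs]
  · intro g hg
    rw [S.xs_eq_zero q (by simp), LinearMap.zero_apply]
    rintro a' l' rfl h
    simp only [Sum.inr.injEq, Prod.mk.injEq] at h
    exact hg (by rw [h.1, h.2])

omit [CharP K 2] in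
theorem sum2_inl (q : K) (a : GP) (l : ℕ) (y : Ez K B) (F : (GP × ℕ) ⊕ (GQ × ℕ) → Ez K B) :
    ∑ g' ∈ S.ΓX.fib (ΓP.deg a + l + 1 + 1), S.xs q (.inl (a, l)) g' y * F g' =
      TE.mk _ ((1 + q ^ (-(l + 1 : ℤ))) • (y.snd * S.P.e a)) 0 * F (.inl (a, l + 1)) := by
  rw [S.sum_fib_single _ (.inl (a, l + 1))]
  · congr 1
    ext <;> simp [xs]
  · intro g hg
    rw [S.xs_eq_zero q _ (by simp), LinearMap.zero_apply, zero_mul]
    rintro a' l' h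
    simp only [Sum.inl.injEq, Prod.mk.injEq] at h
    rwa [← h.1, ← h.2]
  · simp only [xdeg_inl]; push_cast; ring

omit [CharP K 2] in
theorem sum2_inr_zero (q : K) (n : ℤ) (a : GQ) (y : Ez K B)
    (F : (GP × ℕ) ⊕ (GQ × ℕ) → Ez K B) :
    ∑ g' ∈ S.ΓX.fib n, S.xs q (.inr (a, 0)) g' y * F g' = 0 :=
  Finset.sum_eq_zero fun g' _ => by
    rw [S.xs_eq_zero q (by simp) (by simp), LinearMap.zero_apply, zero_mul]

omit [CharP K 2] in
theorem sum2_inr_succ (q : K) (a : GQ) (l : ℕ) (y : Ez K B)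
    (F : (GP × ℕ) ⊕ (GQ × ℕ) → Ez K B) :
    ∑ g' ∈ S.ΓX.fib (ΓQ.deg a - (l + 1 : ℕ) + S.d + 1), S.xs q (.inr (a, l + 1)) g' y * F g' =
      TE.mk _ ((1 + q ^ (l + 1 : ℤ)) • (y.snd * S.Q.e a)) 0 * F (.inr (a, l)) := by
  rw [S.sum_fib_single _ (.inr (a, l))]
  · congr 1
    ext <;> simp [xs]
  · intro g hg
    rw [S.xs_eq_zero q (by simp), LinearMap.zero_apply, zero_mul]
    rintro a' l' h
    simp only [Sum.inr.injEq, Prod.mk.injEq, Nat.add_right_cancel_iff] at h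
    rwa [← h.1, ← h.2]
  · simp only [xdeg_inr]; push_cast; ring

open Classical in
theorem x_s_rel (q : K) (g g'' : (GP × ℕ) ⊕ (GQ × ℕ)) (y : Ez K B)
    (h : S.ΓX.deg g = S.ΓX.deg g'') :
    ∑ g' ∈ S.ΓX.fib (S.ΓX.deg g - 1), S.xs q g' g'' (y * S.X.D g g') +
      ∑ g' ∈ S.ΓX.fib (S.ΓX.deg g + 1), S.xs q g g' y * S.X.D g' g'' =
    if g = g'' then TE.mk _ ((1 + q ^ (-xw g)) • (y * S.X.e g).fst)
      ((1 + q ^ (-xw g - 1)) • (y * S.X.e g).snd) else 0 := by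
  have h11 : (1 + 1 : K) = 0 := add_self_char2 K 1
  rw [X_D, X_e]
  rcases g with ⟨a, l⟩ | ⟨a, l⟩ <;> rcases g'' with ⟨a'', l''⟩ | ⟨a'', l''⟩ <;>
    simp only [ΓX_deg, xdeg_inl, xdeg_inr] at h ⊢
  · rw [S.sum2_inl q a l y fun g' => S.xD g' (.inl (a'', l''))]
    rcases l'' with _ | l''
    · rw [S.sum1_inl_zero q _ a'' fun g' => y * S.xD (.inl (a, l)) g']
      by_cases hg : a = a'' ∧ l = 0
      · obtain ⟨rfl, rfl⟩ := hg
        ext <;> simp [xD, xe, xw, h11, S.P.ee]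
      · ext <;> simp [xD, hg]
    · rw [S.sum1_inl_succ q _ a'' l'' (fun g' => y * S.xD (.inl (a, l)) g')
        (by push_cast at h; omega)]
      by_cases hg : a = a'' ∧ l = l'' + 1
      · obtain ⟨rfl, rfl⟩ := hg
        ext <;> simp [xD, xe, xw, S.P.ee, mul_assoc, sub_eq_add_neg, add_comm, add_left_comm]
      · by_cases hl : l = l''
        · subst hl
          ext <;> simp [xD, S.P.eD, S.P.De, mul_assoc, add_self_char2 K]
        · ext <;> simp [xD, hg, hl]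
  · rw [S.sum2_inl q a l y fun g' => S.xD g' (.inr (a'', l'')),
      S.sum1_inr q _ a'' l'' (fun g' => y * S.xD (.inl (a, l)) g') (by push_cast; omega)]
    ext <;> simp [xD]
  · rw [Finset.sum_eq_zero, Finset.sum_eq_zero]
    · simp
    · rintro (⟨a', l'⟩ | ⟨a', l'⟩) _ <;> simp [xD, xs]
    · rintro (⟨a', l'⟩ | ⟨a', l'⟩) _ <;> simp [xD, xs]
  · rw [S.sum1_inr q _ a'' l'' (fun g' => y * S.xD (.inr (a, l)) g') (by push_cast; omega)]
    rcases l with _ | l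
    · rw [S.sum2_inr_zero q _ a y fun g' => S.xD g' (.inr (a'', l''))]
      by_cases hg : a = a'' ∧ l'' = 0
      · obtain ⟨rfl, rfl⟩ := hg
        ext <;> simp [xD, xe, xw, h11, S.Q.ee, mul_assoc]
      · have hg' : ¬ (a = a'' ∧ 0 = l'') := fun h => hg ⟨h.1, h.2.symm⟩
        ext <;> simp [xD, hg, hg']
    · rw [S.sum2_inr_succ q a l y fun g' => S.xD g' (.inr (a'', l''))]
      by_cases hg : a = a'' ∧ l + 1 = l''
      · obtain ⟨rfl, rfl⟩ := hg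
        ext <;> simp [xD, xe, xw, S.Q.ee, mul_assoc]
      · by_cases hl : l = l''
        · subst hl
          ext <;> simp [xD, S.Q.eD, S.Q.De, mul_assoc, add_self_char2 K]
        · ext <;> simp [xD, hg, hl]

end SD

end Crest.Agent.R186
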