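import Crest.Agent.R186.XExact
import Crest.Agent.R186.XFacts

/-!
Assembling `Setup` from `SD`.
-/

set_option autoImplicit false

namespace Crest.Agent.R186

namespace SD

variable {K B : Type*} [Field K] [CharP K 2] [Ring B] [Algebra K B] {GP GQ : Type} {ΓP : GD GP}
  {ΓQ : GD GQ} (S : SD K B ΓP ΓQ)

/-- the data over `B[z]/(z²)` -/
noncomputable def setup (hd : S.d = 4) (q : K) : Setup K B q S.ΓX S.X where
  χ := S.χ
  w := xw
  p := xp
  g₀ := .inl (S.p₀, 0)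
  s := S.xs q
  e_snd := by rintro (⟨a, l⟩ | ⟨a, l⟩) <;> rfl
  D_fst := by
    rintro (⟨a, l⟩ | ⟨a, l⟩) (⟨a', l'⟩ | ⟨a', l'⟩) h <;> simp only [X, xD, xw] at h ⊢
    · rw [TE.fst_mk, if_neg (by omega)]
    · rfl
    · rfl
    · rw [TE.fst_mk, if_neg (by omega)]
  D_snd := by
    rintro (⟨a, l⟩ | ⟨a, l⟩) (⟨a', l'⟩ | ⟨a', l'⟩) h <;> simp only [X, xD, xw] at h ⊢
    · rw [TE.snd_mk, if_neg (by omega)]
    · rw [TE.snd_mk, if_neg (by omega)]
    · rfl
    · rw [TE.snd_mk, if_neg (by omega)]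
  χD := by
    rintro (⟨a, l⟩ | ⟨a, l⟩) (⟨a', l'⟩ | ⟨a', l'⟩) <;> simp only [X, xD, TE.fst_mk]
    · split_ifs <;> simp [S.χP]
    · simp
    · simp
    · split_ifs <;> simp [S.χQ]
  deg_g₀ := by simp [S.deg_p₀]
  w_g₀ := rfl
  p_g₀ := trivial
  χ_g₀ := S.χ_p₀
  χe := by
    rintro (⟨a, l⟩ | ⟨a, l⟩) h h'
    · have hl : l = 0 := by simpa [xw] using h
      subst hl
      exact S.χ_eP a fun h => h' (by rw [h])
    · simp only [xw] at h
      omega
  Dp := S.xD_np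
  deg_p := by
    rintro (⟨a, l⟩ | ⟨a, l⟩) h
    · have := S.degP a
      simp only [ΓX_deg, xdeg_inl]
      omega
    · exact h.elim
  deg_np := by
    rintro (⟨a, l⟩ | ⟨a, l⟩) h
    · exact (h trivial).elim
    · have := S.degQ a
      simp only [ΓX_deg, xdeg_inr]
      omega
  A1 := S.x_A1 _
  A2 := S.x_A2
  A3 := S.x_A3
  ind_van j h1 h2 := S.x_ind_van j h1 (by omega)
  ind_one := S.x_ind_one (by omega)
  s_lin := by
    rintro (⟨a, l⟩ | ⟨a, l⟩) (⟨a', l'⟩ | ⟨a', l'⟩) b y <;> simp only [xs]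
    · split_ifs <;> ext <;> simp [mul_assoc]
    · simp
    · simp
    · split_ifs <;> ext <;> simp [mul_assoc]
  s_e := by
    rintro (⟨a, l⟩ | ⟨a, l⟩) (⟨a', l'⟩ | ⟨a', l'⟩) y <;> simp only [xs, X, xe]
    · split_ifs <;> ext <;> simp [mul_assoc, MD.ee]
    · simp
    · simp
    · split_ifs <;> ext <;> simp [mul_assoc, MD.ee]
  s_e' := by
    rintro (⟨a, l⟩ | ⟨a, l⟩) (⟨a', l'⟩ | ⟨a', l'⟩) y <;> simp only [xs, X, xe]
    · split_ifs with h
      · rw [← h.1]; ext <;> simp [mul_assoc, MD.ee]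
      · simp
    · simp
    · simp
    · split_ifs with h
      · rw [← h.1]; ext <;> simp [mul_assoc, MD.ee]
      · simp
  s_rel g g'' y h := by convert S.x_s_rel q g g'' y h

end SD

end Crest.Agent.R186
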