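import Mathlib
import Crest.Prelude.Def_Tilting

/-!
Interface: a finite-dimensional algebra of infinite dominant dimension that is not self-injective,
with the bookkeeping needed for the four corollaries S0282 - S0285.
-/

set_option autoImplicit false

universe u

namespace Crest.Agent.R186

/-- `Γ` is a finite-dimensional `K`-algebra, `W` a finitely generated projective and injective
left module, `Γ` has an exact coresolution by modules in `add W`, `Γ` is not left self-injective,
and some simple module has no nonzero map to `W`. -/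
def Nak (K : Type u) [Field K] : Prop :=
  ∃ (Γ : Type u) (_ : Ring Γ) (_ : Algebra K Γ), FiniteDimensional K Γ ∧
    ∃ (W : Type u) (_ : AddCommGroup W) (_ : Module Γ W),
      Module.Finite Γ W ∧ Module.Projective Γ W ∧ Module.Injective Γ W ∧
      (∃ (C : ℕ → Type u) (_ : ∀ j, AddCommGroup (C j)) (_ : ∀ j, Module Γ (C j))
        (ε : Γ →ₗ[Γ] C 0) (d : ∀ j : ℕ, C j →ₗ[Γ] C (j + 1)),
        Crest.AlgebraR.IsAddCoresolution Γ W C ε d) ∧
      ¬ Module.Injective Γ Γ ∧
      ∃ (S : Type u) (_ : AddCommGroup S) (_ : Module Γ S),
        IsSimpleModule Γ S ∧ ∀ f : S →ₗ[Γ] W, f = 0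

end Crest.Agent.R186
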