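import Crest.Agent.R186.Tach
import Crest.Agent.R186.Nak
import Crest.Agent.R178.Homological

/-!
The Morita–Tachikawa correspondence: a counterexample to Tachikawa's second conjecture gives an
algebra `End(A ⊕ M)ᵒᵖ` of infinite dominant dimension that is not self-injective.
-/

set_option autoImplicit false

universe u

open CategoryTheory Abelian Crest.Agent.R178

namespace Crest.Agent.R186

namespace TN

/-! ### Symmetric algebras -/

section sym

variable {K A : Type u} [Field K] [Ring A] [Algebra K A]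

lemma exists_lift (φ : A ≃ₗ[K] Module.Dual K A) (hφ : ∀ a x b y : A, φ (a * x * b) y = φ x (b * y * a))
    {N : Type u} [AddCommGroup N] [Module A N] [Module K N] [IsScalarTower K A N]
    (l : Module.Dual K N) : ∃ f : N →ₗ[A] A, ∀ x, φ 1 (f x) = l x := by
  have h1 : ∀ x y : A, φ x y = φ 1 (y * x) := fun x y => by
    have := hφ x 1 1 y
    simpa using this
  have h2 : ∀ x y : A, φ x y = φ 1 (x * y) := fun x y => by
    have := hφ 1 1 x y
    simpa using this
  let L : N → Module.Dual K A := fun x =>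
    { toFun := fun y => l (y • x)
      map_add' := fun y z => by rw [add_smul, map_add]
      map_smul' := fun c y => by rw [smul_assoc, map_smul]; rfl }
  have hL : ∀ x y, L x y = l (y • x) := fun _ _ => rfl
  refine ⟨{ toFun := fun x => φ.symm (L x), map_add' := ?_, map_smul' := ?_ }, ?_⟩
  · intro x y
    rw [← map_add]
    congr 1
    ext z
    simp [hL]
  · intro a x
    apply φ.injective
    ext z
    rw [LinearEquiv.apply_symm_apply, RingHom.id_apply, smul_eq_mul, h1, ← mul_assoc, ← h1,
      LinearEquiv.apply_symm_apply, hL, hL, mul_smul]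
  · intro x
    have := h2 (φ.symm (L x)) 1
    rw [mul_one, LinearEquiv.apply_symm_apply, hL, one_smul] at this
    exact this.symm

lemma injective_self (h : Crest.AlgebraR.IsSymmetricAlgebra K A) : Module.Injective A A := by
  obtain ⟨φ, hφ⟩ := h
  have h1 : ∀ x y : A, φ x y = φ 1 (y * x) := fun x y => by
    have := hφ x 1 1 y
    simpa using this
  refine Module.Baer.injective fun I g => ?_
  let l₀ : (I.restrictScalars K) →ₗ[K] K :=
    { toFun := fun x => φ 1 (g ⟨x.1, x.2⟩)
      map_add' := fun x y => by rw [← map_add, ← map_add]; rfl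
      map_smul' := fun c x => by
        rw [RingHom.id_apply, ← map_smul, ← LinearMap.map_smul_of_tower]; rfl }
  obtain ⟨l, hl⟩ := LinearMap.exists_extend l₀
  obtain ⟨f, hf⟩ := exists_lift φ hφ l
  refine ⟨f, fun x hx => φ.injective ?_⟩
  ext y
  have e := LinearMap.congr_fun hl ⟨y • x, I.smul_mem y hx⟩
  rw [h1, h1 (g _), ← smul_eq_mul, ← map_smul, hf, ← smul_eq_mul, ← map_smul]
  exact e

lemma exists_embed [FiniteDimensional K A] (h : Crest.AlgebraR.IsSymmetricAlgebra K A)
    (N : Type u) [AddCommGroup N] [Module A N] [Module.Finite A N] :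
    ∃ (n : ℕ) (f : N →ₗ[A] (Fin n → A)), Function.Injective f := by
  obtain ⟨φ, hφ⟩ := h
  letI : Module K N := Module.compHom N (algebraMap K A)
  haveI : IsScalarTower K A N := IsScalarTower.of_algebraMap_smul fun _ _ => rfl
  haveI : FiniteDimensional K N := Module.Finite.trans A N
  let b := Module.finBasis K N
  choose f hf using fun i => exists_lift φ hφ (b.coord i)
  refine ⟨_, LinearMap.pi f, ?_⟩
  rw [injective_iff_map_eq_zero]
  intro x hx
  refine b.ext_elem fun i => ?_
  have h1 : f i x = 0 := congrFun hx i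
  have h2 := hf i x
  rw [h1, map_zero] at h2
  rw [map_zero]
  exact h2.symm

end sym

/-! ### Ext vanishing in the second variable -/

section ext

variable {A : Type u} [Ring A]

/-- `Ext^i (T, N) = 0` for all `i > 0`. -/
def EW (T : ModuleCat.{u} A) (N : Type u) [AddCommGroup N] [Module A N] : Prop :=
  ∀ i : ℕ, ∀ e : Ext T (ModuleCat.of A N) (i + 1), e = 0

variable {M₁ M₂ M₃ : Type u} [AddCommGroup M₁] [AddCommGroup M₂] [AddCommGroup M₃]
    [Module A M₁] [Module A M₂] [Module A M₃] {f : M₁ →ₗ[A] M₂} {g : M₂ →ₗ[A] M₃}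

lemma ew_of_injective (T : ModuleCat.{u} A) [Module.Injective A M₁] : EW T M₁ := by
  intro i e
  have := Module.injective_object_of_injective_module A M₁
  exact e.eq_zero_of_injective

lemma ew₂ (h : SES f g) {T : ModuleCat.{u} A} (h₁ : EW T M₁) (h₃ : EW T M₃) : EW T M₂ := by
  intro i x₂
  obtain ⟨x₁, rfl⟩ := Ext.covariant_sequence_exact₂ T h.shortExact x₂ (h₃ _ _)
  rw [h₁ _ x₁, Ext.zero_comp]

lemma ew₃ (h : SES f g) {T : ModuleCat.{u} A} (h₁ : EW T M₁) (h₂ : EW T M₂) : EW T M₃ := by
  intro i x₃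
  obtain ⟨x₂, rfl⟩ := Ext.covariant_sequence_exact₃ T h.shortExact x₃ rfl (h₁ _ _)
  rw [h₂ _ x₂, Ext.zero_comp]

lemma lift_of_ew (h : SES f g) {T : Type u} [AddCommGroup T] [Module A T]
    (h₁ : EW (ModuleCat.of A T) M₁) (ψ : T →ₗ[A] M₃) : ∃ χ : T →ₗ[A] M₂, g ∘ₗ χ = ψ := by
  obtain ⟨x₂, hx⟩ := Ext.covariant_sequence_exact₃ (ModuleCat.of A T) h.shortExact
    (Ext.mk₀ (ModuleCat.ofHom ψ)) rfl (h₁ 0 _)
  obtain ⟨χ, rfl⟩ := (Ext.mk₀_bijective _ _).2 x₂
  rw [Ext.mk₀_comp_mk₀] at hx
  have := (Ext.mk₀_bijective _ _).1 hx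
  exact ⟨χ.hom, congrArg ModuleCat.Hom.hom this⟩

end ext

/-! ### The functor `Hom (T, -)` -/

section H

variable (A : Type u) [Ring A] (T : Type u) [AddCommGroup T] [Module A T]

/-- the opposite endomorphism ring -/
abbrev Gam : Type u := (Module.End A T)ᵐᵒᵖ

/-- `Hom (T, N)` as a left module over `End(T)ᵒᵖ` -/
def H (N : Type u) [AddCommGroup N] [Module A N] : Type u := T →ₗ[A] N

variable {A T}
variable {N N' N'' : Type u} [AddCommGroup N] [Module A N] [AddCommGroup N'] [Module A N']
  [AddCommGroup N''] [Module A N'']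

instance : AddCommGroup (H A T N) := inferInstanceAs (AddCommGroup (T →ₗ[A] N))

/-- the underlying linear map -/
def H.val (h : H A T N) : T →ₗ[A] N := h

/-- the element given by a linear map -/
def H.mk (h : T →ₗ[A] N) : H A T N := h

instance : Module (Gam A T) (H A T N) where
  smul x h := H.mk (h.val ∘ₗ x.unop)
  one_smul _ := rfl
  mul_smul _ _ _ := rfl
  smul_zero _ := rfl
  smul_add _ _ _ := rfl
  add_smul x y h := LinearMap.comp_add _ _ h.val
  zero_smul h := LinearMap.comp_zero h.val

lemma H.ext' {h h' : H A T N} (e : ∀ t, h.val t = h'.val t) : h = h' := LinearMap.ext e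

@[simp] lemma H.val_smul (x : Gam A T) (h : H A T N) (t : T) :
    (x • h).val t = h.val (x.unop t) := rfl

@[simp] lemma H.val_add (h h' : H A T N) (t : T) : (h + h').val t = h.val t + h'.val t := rfl

@[simp] lemma H.val_zero (t : T) : (0 : H A T N).val t = 0 := rfl

@[simp] lemma H.val_mk (h : T →ₗ[A] N) : (H.mk h).val = h := rfl

variable (T) in
/-- functoriality -/
def Hmap (f : N →ₗ[A] N') : H A T N →ₗ[Gam A T] H A T N' where
  toFun h := H.mk (f ∘ₗ h.val)
  map_add' h h' := H.ext' fun t => by simp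
  map_smul' _ _ := rfl

@[simp] lemma Hmap_val (f : N →ₗ[A] N') (h : H A T N) (t : T) :
    (Hmap T f h).val t = f (h.val t) := rfl

lemma Hmap_injective {f : N →ₗ[A] N'} (hf : Function.Injective f) :
    Function.Injective (Hmap T f) := fun h h' e =>
  H.ext' fun t => hf (congrArg (fun z : H A T N' => z.val t) e)

lemma Hmap_exact {f : N →ₗ[A] N'} {g : N' →ₗ[A] N''} (h : SES f g) :
    Function.Exact (Hmap T f) (Hmap T g) := by
  intro y
  constructor
  · intro hy
    have h1 : ∀ t, y.val t ∈ LinearMap.range f := fun t =>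
      (h.ex (y.val t)).1 (congrArg (fun z : H A T N'' => z.val t) hy)
    refine ⟨H.mk ((LinearEquiv.ofInjective f h.inj).symm.toLinearMap ∘ₗ
      y.val.codRestrict _ h1), H.ext' fun t => ?_⟩
    have := (LinearEquiv.ofInjective f h.inj).apply_symm_apply ⟨y.val t, h1 t⟩
    exact congrArg Subtype.val this
  · rintro ⟨x, rfl⟩
    exact H.ext' fun t => h.ex.apply_apply_eq_zero _

lemma Hmap_surjective {f : N →ₗ[A] N'} {g : N' →ₗ[A] N''} (h : SES f g)
    (h₁ : EW (ModuleCat.of A T) N) : Function.Surjective (Hmap T g) := fun y => by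
  obtain ⟨χ, hχ⟩ := lift_of_ew h h₁ y.val
  exact ⟨H.mk χ, hχ⟩

variable (A T) in
/-- `H T` is the regular module -/
def HT : Gam A T ≃ₗ[Gam A T] H A T T where
  toFun x := H.mk x.unop
  invFun h := MulOpposite.op h.val
  map_add' _ _ := rfl
  map_smul' _ _ := rfl
  left_inv _ := rfl
  right_inv _ := rfl

variable (A T) in
/-- `H` commutes with finite powers -/
def Hpi (n : ℕ) : H A T (Fin n → A) ≃ₗ[Gam A T] (Fin n → H A T A) where
  toFun h i := H.mk (LinearMap.proj i ∘ₗ h.val)
  invFun h := H.mk (LinearMap.pi fun i => (h i).val)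
  map_add' _ _ := rfl
  map_smul' _ _ := rfl
  left_inv _ := rfl
  right_inv _ := rfl

lemma inAdd_pi (n : ℕ) : Crest.AlgebraR.InAdd (Gam A T) (H A T A) (H A T (Fin n → A)) :=
  ⟨n, PUnit, inferInstance, inferInstance, ⟨(LinearEquiv.prodUnique).trans (Hpi A T n)⟩⟩

variable (ι : A →ₗ[A] T) (π : T →ₗ[A] A)

/-- the endomorphism `s ↦ π s • t` -/
def rho (t : T) : Gam A T := MulOpposite.op (LinearMap.toSpanSingleton A T t ∘ₗ π)

@[simp] lemma rho_apply (t s : T) : (rho π t).unop s = π s • t := rfl

lemma rho_add (t s : T) : rho π (t + s) = rho π t + rho π s :=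
  MulOpposite.unop_injective (LinearMap.ext fun z => by simp)

lemma rho_zero : rho π (0 : T) = 0 :=
  MulOpposite.unop_injective (LinearMap.ext fun z => by simp)

lemma rho_mul (t : T) (x : Gam A T) : rho π t * x = rho π (x.unop t) :=
  MulOpposite.unop_injective (LinearMap.ext fun z => by simp)

lemma rho_smul (hπ : ∀ a, π (ι a) = a) (a : A) (t : T) :
    rho π (a • t) = rho π (ι a) * rho π t := by
  rw [rho_mul, rho_apply, hπ]

lemma projective_W (hπ : ∀ a, π (ι a) = a) : Module.Projective (Gam A T) (H A T A) :=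
  Module.Projective.of_split ((HT A T).symm.toLinearMap ∘ₗ Hmap T ι)
    (Hmap T π ∘ₗ (HT A T).toLinearMap) (LinearMap.ext fun h => H.ext' fun t => hπ _)

lemma finite_W (hπ : ∀ a, π (ι a) = a) : Module.Finite (Gam A T) (H A T A) :=
  Module.Finite.of_surjective (Hmap T π ∘ₗ (HT A T).toLinearMap) fun h =>
    ⟨(HT A T).symm (Hmap T ι h), H.ext' fun t => hπ _⟩

lemma injective_H (hπ : ∀ a, π (ι a) = a) [Module.Injective A N] :
    Module.Injective (Gam A T) (H A T N) := by
  refine Module.Baer.injective fun I g => ?_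
  let I' : Submodule A T :=
    { carrier := {t | rho π t ∈ I}
      add_mem' := fun {s t} hs ht => by
        show rho π (s + t) ∈ I
        rw [rho_add]; exact I.add_mem hs ht
      zero_mem' := by
        show rho π 0 ∈ I
        rw [rho_zero]; exact I.zero_mem
      smul_mem' := fun a t ht => by
        show rho π (a • t) ∈ I
        rw [rho_smul ι π hπ]; exact I.mul_mem_left _ ht }
  let g₀ : I' →ₗ[A] N :=
    { toFun := fun t => (g ⟨rho π t.1, t.2⟩).val (ι 1)
      map_add' := fun s t => by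
        rw [← H.val_add, ← map_add]
        congr 3
        exact Subtype.ext (rho_add π _ _)
      map_smul' := fun a t => by
        have e : (⟨rho π (a • t).1, (a • t).2⟩ : I) = rho π (ι a) • (⟨rho π t.1, t.2⟩ : I) :=
          Subtype.ext (rho_smul ι π hπ a t)
        rw [e, map_smul, H.val_smul, rho_apply, hπ, one_smul, RingHom.id_apply, ← map_smul,
          ← map_smul, smul_eq_mul, mul_one] }
  obtain ⟨w, hw⟩ := Module.Injective.out (Q := N) I'.subtype I'.injective_subtype g₀
  refine ⟨LinearMap.toSpanSingleton _ _ (H.mk w), fun x hx => H.ext' fun s => ?_⟩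
  have h1 : x.unop s ∈ I' := by
    show rho π (x.unop s) ∈ I
    rw [← rho_mul]; exact I.mul_mem_left _ hx
  have h2 := hw ⟨x.unop s, h1⟩
  have e : (⟨rho π (x.unop s), h1⟩ : I) = rho π s • (⟨x, hx⟩ : I) :=
    Subtype.ext (rho_mul π s x).symm
  have h3 : g₀ ⟨x.unop s, h1⟩ = (g ⟨x, hx⟩).val s := by
    show (g ⟨rho π (x.unop s), h1⟩).val (ι 1) = _
    rw [e, map_smul, H.val_smul, rho_apply, hπ, one_smul]
  rw [← h3, ← h2]
  rfl

variable (A T) in
/-- endomorphisms that lift to the free module on `T` -/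
def J : Ideal (Gam A T) where
  carrier := {x | ∃ h : T →ₗ[A] (T →₀ A), Finsupp.linearCombination A id ∘ₗ h = x.unop}
  add_mem' := by
    rintro x y ⟨h, hh⟩ ⟨h', hh'⟩
    exact ⟨h + h', by rw [LinearMap.comp_add, hh, hh']; rfl⟩
  zero_mem' := ⟨0, LinearMap.comp_zero _⟩
  smul_mem' := by
    rintro y x ⟨h, hh⟩
    exact ⟨h ∘ₗ y.unop, by rw [← LinearMap.comp_assoc, hh]; rfl⟩

lemma rho_mem_J (t : T) : rho π t ∈ J A T :=
  ⟨Finsupp.lsingle t ∘ₗ π, LinearMap.ext fun s => by simp⟩

lemma J_ne_top (hT : ¬ Module.Projective A T) : J A T ≠ ⊤ := by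
  intro h
  obtain ⟨s, hs⟩ : (1 : Gam A T) ∈ J A T := h ▸ Submodule.mem_top
  exact hT ⟨s, fun t => LinearMap.congr_fun hs t⟩

lemma not_injective_Gam (hπ : ∀ a, π (ι a) = a) (hT : ¬ Module.Projective A T) {n : ℕ}
    {f : T →ₗ[A] (Fin n → A)} (hf : Function.Injective f) :
    ¬ Module.Injective (Gam A T) (Gam A T) := by
  intro hI
  obtain ⟨r, hr⟩ := hI.out (Hmap T f ∘ₗ (HT A T).toLinearMap)
    ((Hmap_injective hf).comp (HT A T).injective) LinearMap.id
  apply J_ne_top hT
  rw [Ideal.eq_top_iff_one]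
  have h1 := hr 1
  have key : ∀ h : H A T (Fin n → A), r h ∈ J A T := by
    intro h
    have e : h = ∑ i, MulOpposite.op (ι ∘ₗ LinearMap.proj i ∘ₗ h.val) •
        (rho π (ι 1) • H.mk (LinearMap.single A (fun _ => A) i ∘ₗ π)) := by
      apply (Hpi A T n).injective
      rw [map_sum]
      funext j
      rw [Finset.sum_apply, Finset.sum_eq_single j]
      · refine H.ext' fun t => ?_
        show h.val t j = (Pi.single j (π (π (ι (h.val t j)) • ι 1)) : Fin n → A) j
        rw [Pi.single_eq_same, map_smul, hπ, hπ, smul_eq_mul, mul_one]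
      · intro i _ hij
        refine H.ext' fun t => ?_
        show (Pi.single i (π (π (ι (h.val t i)) • ι 1)) : Fin n → A) j = 0
        rw [Pi.single_eq_of_ne hij.symm]
      · simp
    rw [e, map_sum]
    refine Submodule.sum_mem _ fun i _ => ?_
    rw [map_smul, map_smul, smul_eq_mul, smul_eq_mul, rho_mul]
    exact (J A T).mul_mem_left _ (rho_mem_J π _)
  have := key ((Hmap T f ∘ₗ (HT A T).toLinearMap) 1)
  rwa [h1] at this

lemma exists_simple (hπ : ∀ a, π (ι a) = a) (hT : ¬ Module.Projective A T) :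
    ∃ (S : Type u) (_ : AddCommGroup S) (_ : Module (Gam A T) S),
      IsSimpleModule (Gam A T) S ∧ ∀ f : S →ₗ[Gam A T] H A T A, f = 0 := by
  obtain ⟨m, hm, hJ⟩ := Ideal.exists_le_maximal _ (J_ne_top hT)
  refine ⟨Gam A T ⧸ m, inferInstance, inferInstance, isSimpleModule_iff_isCoatom.2 hm.out, ?_⟩
  intro f
  refine LinearMap.ext fun s => H.ext' fun t => ?_
  obtain ⟨x, rfl⟩ := Submodule.Quotient.mk_surjective m s
  have h1 : rho π t • (Submodule.Quotient.mk x : Gam A T ⧸ m) = 0 := by
    rw [← Submodule.Quotient.mk_smul, Submodule.Quotient.mk_eq_zero, smul_eq_mul, rho_mul]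
    exact hJ (rho_mem_J π _)
  have h2 : (f (rho π t • Submodule.Quotient.mk x)).val (ι 1) =
      (f (Submodule.Quotient.mk x)).val t := by
    rw [map_smul, H.val_smul, rho_apply, hπ, one_smul]
  rw [← h2, h1, map_zero]
  rfl

end H

/-! ### The coresolution -/

section cores

variable (A : Type u) [Ring A] (T : Type u) [AddCommGroup T] [Module A T]

/-- finitely generated modules without higher extensions from `T` -/
structure Good where
  N : ModuleCat.{u} A
  fin : Module.Finite A N
  ew : EW (ModuleCat.of A T) N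

variable {A T}

/-- one step of the coresolution -/
structure Step (X : Good A T) where
  n : ℕ
  Y : Good A T
  f : X.N →ₗ[A] (Fin n → A)
  g : (Fin n → A) →ₗ[A] Y.N
  ses : SES f g

lemma nonempty_step [Module.Injective A A]
    (hemb : ∀ (N : Type u) [AddCommGroup N] [Module A N] [Module.Finite A N],
      ∃ (n : ℕ) (f : N →ₗ[A] (Fin n → A)), Function.Injective f) (X : Good A T) :
    Nonempty (Step X) := by
  haveI := X.fin
  obtain ⟨n, f, hf⟩ := hemb X.N
  have ses : SES f (LinearMap.range f).mkQ :=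
    ⟨hf, Submodule.mkQ_surjective _, LinearMap.exact_map_mkQ_range f⟩
  exact ⟨⟨n, ⟨ModuleCat.of A ((Fin n → A) ⧸ LinearMap.range f), inferInstance,
    ew₃ ses X.ew (ew_of_injective _)⟩, f, (LinearMap.range f).mkQ, ses⟩⟩

/-- the sequence of cosyzygies -/
def seq (st : ∀ X : Good A T, Step X) (X : Good A T) : ℕ → Good A T
  | 0 => X
  | j + 1 => (st (seq st X j)).Y

lemma exists_cores (st : ∀ X : Good A T, Step X) [Module.Finite A T]
    (hT : EW (ModuleCat.of A T) T) :
    ∃ (C : ℕ → Type u) (_ : ∀ j, AddCommGroup (C j)) (_ : ∀ j, Module (Gam A T) (C j))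
      (ε : Gam A T →ₗ[Gam A T] C 0) (d : ∀ j : ℕ, C j →ₗ[Gam A T] C (j + 1)),
      Crest.AlgebraR.IsAddCoresolution (Gam A T) (H A T A) C ε d := by
  let X : Good A T := ⟨ModuleCat.of A T, inferInstance, hT⟩
  let s : ∀ j, Step (seq st X j) := fun j => st (seq st X j)
  have hsurj : ∀ j, Function.Surjective (Hmap T (s j).g) := fun j =>
    Hmap_surjective (s j).ses (seq st X j).ew
  have hinj : ∀ j, Function.Injective (Hmap T (s j).f) := fun j => Hmap_injective (s j).ses.inj
  have hex : ∀ j, Function.Exact (Hmap T (s j).f) (Hmap T (s j).g) := fun j =>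
    Hmap_exact (s j).ses
  refine ⟨fun j => H A T (Fin (s j).n → A), inferInstance, inferInstance,
    Hmap T (s 0).f ∘ₗ (HT A T).toLinearMap,
    fun j => Hmap T (s (j + 1)).f ∘ₗ Hmap T (s j).g, fun j => inAdd_pi _,
    (hinj 0).comp (HT A T).injective, ?_, fun j => ?_⟩
  · intro y
    constructor
    · intro hy
      have h1 : Hmap T (s 0).g y = 0 := hinj 1 (hy.trans (map_zero _).symm)
      obtain ⟨x, hx⟩ := (hex 0 y).1 h1
      exact ⟨(HT A T).symm x, hx⟩
    · rintro ⟨x, rfl⟩
      show Hmap T (s 1).f (Hmap T (s 0).g (Hmap T (s 0).f _)) = 0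
      rw [(hex 0).apply_apply_eq_zero]
      exact map_zero (Hmap T (s 1).f)
  · intro y
    constructor
    · intro hy
      have h1 : Hmap T (s (j + 1)).g y = 0 := hinj (j + 2) (hy.trans (map_zero _).symm)
      obtain ⟨x, hx⟩ := (hex (j + 1) y).1 h1
      obtain ⟨z, hz⟩ := hsurj j x
      exact ⟨z, by rw [← hx, ← hz]; rfl⟩
    · rintro ⟨x, rfl⟩
      show Hmap T (s (j + 2)).f (Hmap T (s (j + 1)).g (Hmap T (s (j + 1)).f _)) = 0
      rw [(hex (j + 1)).apply_apply_eq_zero]
      exact map_zero (Hmap T (s (j + 2)).f)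

end cores

end TN

open TN

theorem nak_of_tach (K : Type u) [Field K] (h : Tach K) : Nak K := by
  obtain ⟨A, _, _, hfd, hsym, M, hMf, hMp, hM⟩ := h
  haveI := injective_self hsym
  let T : Type u := A × M
  let ι : A →ₗ[A] T := LinearMap.inl A A M
  let π : T →ₗ[A] A := LinearMap.fst A A M
  have hπ : ∀ a, π (ι a) = a := fun _ => rfl
  have hT : ¬ Module.Projective A T := fun hT =>
    hMp (Module.Projective.of_split (LinearMap.inr A A M) (LinearMap.snd A A M) rfl)
  have ses : SES ι (LinearMap.snd A A M) :=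
    ⟨LinearMap.inl_injective, LinearMap.snd_surjective, Function.Exact.inl_snd⟩
  have hMM : EW M M := fun i e => by
    have := hM (i + 1) (Nat.succ_pos i)
    exact Subsingleton.elim _ _
  have hMT : EW M T := ew₂ ses (ew_of_injective _) hMM
  have hTT : EW (ModuleCat.of A T) T := fun i =>
    ses.ev₂ (S := ModuleCat.of A T) (ev_succ_of_projective _ i) (hMT i)
  have hemb := exists_embed hsym
  letI : Module K T := Module.compHom T (algebraMap K A)
  haveI : IsScalarTower K A T := IsScalarTower.of_algebraMap_smul fun _ _ => rfl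
  haveI : FiniteDimensional K T := Module.Finite.trans A T
  haveI : FiniteDimensional K (Module.End A T) :=
    Module.Finite.of_injective (LinearMap.restrictScalarsₗ K A T T K)
      (LinearMap.restrictScalars_injective K)
  obtain ⟨n, f, hf⟩ := hemb T
  refine ⟨Gam A T, inferInstance, inferInstance, inferInstance, H A T A, inferInstance,
    inferInstance, finite_W ι π hπ, projective_W ι π hπ, injective_H ι π hπ,
    exists_cores (fun X => (nonempty_step hemb X).some) hTT,
    not_injective_Gam ι π hπ hT hf, exists_simple ι π hπ hT⟩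

end Crest.Agent.R186
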