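import Crest.Agent.R186.Main3
import Crest.Agent.R186.CAlg
import Crest.Agent.R186.SDTensor
import Crest.Agent.R186.SetupOfSD
import Crest.Agent.R186.CoreTach
import Crest.Agent.R186.TachNak
import Crest.Agent.R186.NakCor
import Crest.Agent.R186.BaseChange

/-!
Assembly.
-/

set_option autoImplicit false

namespace Crest.Agent.R186

open scoped TensorProduct

universe u

theorem trace_mulRight_tensor {K C : Type*} [Field K] [Ring C] [Algebra K C]
    [FiniteDimensional K C] (h : ∀ c : C, LinearMap.trace K C (LinearMap.mulRight K c) = 0)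
    (b : C ⊗[K] C) : LinearMap.trace K _ (LinearMap.mulRight K b) = 0 := by
  induction b using TensorProduct.induction_on with
  | zero => simp
  | tmul c c' =>
    have : LinearMap.mulRight K (c ⊗ₜ[K] c') =
        TensorProduct.map (LinearMap.mulRight K c) (LinearMap.mulRight K c') := by
      ext x y
      simp
    rw [this, LinearMap.trace_tensorProduct', h, zero_mul]
  | add b b' hb hb' =>
    have : LinearMap.mulRight K (b + b') = LinearMap.mulRight K b + LinearMap.mulRight K b' := by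
      ext1
      ext x y
      simp [mul_add]
    rw [this, map_add, hb, hb', add_zero]

theorem SplitBasic.te {K A Y ι : Type*} [Field K] [Ring A] [Algebra K A] [AddCommGroup Y]
    [Module K Y] (β : Bi K A Aᵐᵒᵖ Y) (h : SplitBasic K A ι) : SplitBasic K (TE β) ι :=
  SplitBasic.of_surjective (TE.fstA β) (fun a => ⟨TE.mk β a 0, rfl⟩)
    (isNilpotent_ker_of_sq_zero _ fun x y hx hy => by
      have hx' : x.fst = 0 := hx
      have hy' : y.fst = 0 := hy
      ext <;> simp [hx', hy']) h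

theorem exists_core (K : Type u) [Field K] [CharP K 2] (q : K) (hq : q ≠ 0)
    (hq' : ∀ n : ℤ, n ≠ 0 → q ^ n ≠ 1) :
    ∃ (Λ : Type u) (_ : Ring Λ) (_ : Algebra K Λ) (G : Type) (Γ : GD G) (P : MD Γ Λ),
      Core K Λ Γ P ∧ Nonempty ((Λ ⧸ Ring.jacobson Λ) ≃ₐ[K] (Fin 8 → K)) ∧
        Ring.jacobson Λ ^ 4 ≠ ⊥ := by
  obtain ⟨C, _, _, _, htr, hsp, ⟨x, y, hx, hy, hxy⟩, ΓP, ΓQ, S, hS⟩ := cdata K q hq hq'
  obtain ⟨ΓP', ΓQ', S', hS'⟩ := S.exists_tensor S
  have tr0 := trace_mulRight_tensor htr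
  let T := S'.setup (by rw [hS', hS]; rfl) q
  have hE : SplitBasic K (Ez K (C ⊗[K] C)) (Fin 2 × Fin 2) := (hsp.tensor hsp).te _
  have hΛ : SplitBasic K (Tri (βF tr0 hq)) (Fin 8) :=
    ((hE.prod hE).te _).reindex (Fintype.equivFinOfCardEq (by simp))
  refine ⟨Tri (βF tr0 hq), inferInstance, inferInstance, _, _, _, T.core tr0 hq hq', hΛ.quot, ?_⟩
  let j : C ⊗[K] C → Tri (βF tr0 hq) := fun b => TE.inl _ (TE.inl _ b, 0)
  have hj : ∀ a b, j (a * b) = j a * j b := fun a b => by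
    simp only [j, ← map_mul, Prod.mk_mul_mk, mul_zero]
  have hn : ∀ b, IsNilpotent b → j b ∈ Ring.jacobson (Tri (βF tr0 hq)) := by
    intro b hb
    refine hΛ.mem_jacobson_of_isNilpotent (IsNilpotent.map ?_ _)
    obtain ⟨n, hn⟩ := hb.map (TE.inl (Bi.reg K (C ⊗[K] C)))
    exact ⟨n + 1, by simp [pow_succ, hn]⟩
  refine jacobson_pow_four_ne_bot
    (hn (y ⊗ₜ 1) (hy.map Algebra.TensorProduct.includeLeftRingHom))
    (hn (x ⊗ₜ 1) (hx.map Algebra.TensorProduct.includeLeftRingHom))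
    (hn (1 ⊗ₜ y) (hy.map (Algebra.TensorProduct.includeRight (R := K) (A := C))))
    (hn (1 ⊗ₜ x) (hx.map (Algebra.TensorProduct.includeRight (R := K) (A := C)))) ?_
  rw [← hj, ← hj, ← hj]
  intro h0
  have h1 : (y * x) ⊗ₜ[K] (y * x) = 0 := by
    simpa [j] using congrArg (fun t => t.fst.1.fst) h0
  obtain ⟨l, hl⟩ := Module.Projective.exists_dual_eq_one K hxy
  have h2 := congrArg (TensorProduct.lift ((LinearMap.mul K K).compl₁₂ l l)) h1
  simp [hl] at h2

/-- the base field -/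
abbrev k0 : Type := FractionRing (MvPolynomial (Fin 3) (ZMod 2))

theorem exists_q (K : Type u) [Field K] [Algebra k0 K] :
    ∃ (_ : CharP K 2) (q : K), q ≠ 0 ∧ ∀ n : ℤ, n ≠ 0 → q ^ n ≠ 1 := by
  let f : MvPolynomial (Fin 3) (ZMod 2) →+* K := (algebraMap k0 K).comp (algebraMap _ k0)
  have hf : Function.Injective f :=
    (algebraMap k0 K).injective.comp (IsFractionRing.injective _ _)
  have h0 : f (MvPolynomial.X 0) ≠ 0 := fun h =>
    MvPolynomial.X_ne_zero (0 : Fin 3) (hf (h.trans (map_zero f).symm))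
  have h1 : ∀ n : ℕ, n ≠ 0 → f (MvPolynomial.X 0) ^ n ≠ 1 := by
    intro n hn h
    have h2 : (MvPolynomial.X 0 : MvPolynomial (Fin 3) (ZMod 2)) ^ n = 1 :=
      hf (by rw [map_pow, h, map_one])
    have h3 := congrArg (MvPolynomial.eval fun _ => (0 : ZMod 2)) h2
    simp [hn] at h3
  refine ⟨charP_of_injective_ringHom hf 2, f (MvPolynomial.X 0), h0, fun n hn h => ?_⟩
  refine h1 n.natAbs (by omega) ?_
  rcases Int.natAbs_eq n with h2 | h2
  · rw [← zpow_natCast, ← h2, h]
  · rw [h2, zpow_neg, inv_eq_one, zpow_natCast] at h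
    exact h

theorem tach (K : Type u) [Field K] [Algebra k0 K] : Tach K := by
  obtain ⟨_, q, hq, hq'⟩ := exists_q K
  obtain ⟨Λ, _, _, G, Γ, P, h, -⟩ := exists_core K q hq hq'
  exact core_tach h

theorem nak (K : Type u) [Field K] [Algebra k0 K] : Nak K := nak_of_tach K (tach K)

theorem exists_gpv : ∃ (Λ : Type) (_ : Ring Λ) (_ : Algebra k0 Λ) (Z : Type) (_ : AddCommGroup Z)
    (_ : Module Λ Z) (_ : Module k0 Z) (_ : IsScalarTower k0 Λ Z),
    Crest.AlgebraR.GorProjVanishingData k0 Λ Z := by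
  obtain ⟨_, q, hq, hq'⟩ := exists_q k0
  obtain ⟨Λ, _, _, G, Γ, P, h, h1, h2⟩ := exists_core k0 q hq hq'
  exact ⟨Λ, inferInstance, inferInstance, Zmod k0 P, inferInstance, inferInstance, inferInstance,
    inferInstance, core_gpv P h h1 h2⟩

end Crest.Agent.R186
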