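import Crest.Agent.R186.Setup

/-!
Künneth formula for complexes with one-dimensional cohomology (characteristic two, no signs).
-/

set_option autoImplicit false

namespace Crest.Agent.R186

open scoped TensorProduct

section Aux

variable {K : Type*} [Field K]

theorem kun_inner_inv {V : Type*} [AddCommGroup V] [Module K V] (δ : V →ₗ[K] V) :
    ∃ s : V →ₗ[K] V, ∀ c, δ (s (δ c)) = δ c := by
  obtain ⟨g, hg⟩ := δ.rangeRestrict.exists_rightInverse_of_surjective δ.range_rangeRestrict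
  obtain ⟨s, hs⟩ := g.exists_extend
  refine ⟨s, fun c => ?_⟩
  have h1 : s (δ c) = g (δ.rangeRestrict c) := LinearMap.congr_fun hs (δ.rangeRestrict c)
  rw [h1]
  exact congrArg Subtype.val (LinearMap.congr_fun hg (δ.rangeRestrict c))

/-- An ungraded differential space with one-dimensional cohomology. -/
structure KunData {V : Type*} [AddCommGroup V] [Module K V] (δ E : V →ₗ[K] V) (z : V)
    (p : V →ₗ[K] K) : Prop where
  δδ : ∀ c, δ (δ c) = 0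
  EE : ∀ c, E (E c) = E c
  Eδ : ∀ c, E (δ c) = δ c
  δE : ∀ c, δ (E c) = δ c
  δz : δ z = 0
  Ez : E z = z
  pz : p z = 1
  pδ : ∀ c, p (δ c) = 0
  pE : ∀ c, p (E c) = p c
  ex : ∀ c, E c = c → δ c = 0 → p c = 0 → ∃ b, δ b = c

theorem KunData.exists_htpy {V : Type*} [AddCommGroup V] [Module K V] {δ E : V →ₗ[K] V} {z : V}
    {p : V →ₗ[K] K} (D : KunData δ E z p) : ∃ h : V →ₗ[K] V, (∀ c, E (h c) = h c) ∧
      (∀ c, h (E c) = h c) ∧ ∀ c, δ (h c) + h (δ c) = E c - p c • z := by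
  obtain ⟨s₀, hs₀⟩ := kun_inner_inv δ
  let s : V →ₗ[K] V := E ∘ₗ s₀ - (p ∘ₗ s₀).smulRight z
  have s_apply : ∀ c, s c = E (s₀ c) - p (s₀ c) • z := fun _ => rfl
  have Es : ∀ c, E (s c) = s c := fun c => by simp [s_apply, D.EE, D.Ez]
  have ps : ∀ c, p (s c) = 0 := fun c => by simp [s_apply, D.pE, D.pz]
  have δs : ∀ c, δ (s (δ c)) = δ c := fun c => by simp [s_apply, D.δE, D.δz, hs₀]
  let u : V →ₗ[K] V := E - s ∘ₗ δ - p.smulRight z
  have u_apply : ∀ c, u c = E c - s (δ c) - p c • z := fun _ => rfl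
  refine ⟨s ∘ₗ u, fun c => Es _, fun c => ?_, fun c => ?_⟩
  · simp [u_apply, D.EE, D.δE, D.pE]
  · obtain ⟨b, hb⟩ := D.ex (u c) (by simp [u_apply, D.EE, Es, D.Ez])
      (by simp [u_apply, D.δE, δs, D.δz]) (by simp [u_apply, D.pE, ps, D.pz])
    have h1 : δ (s (u c)) = u c := by rw [← hb, δs]
    have h2 : u (δ c) = δ c := by simp [u_apply, D.Eδ, D.δδ, D.pδ]
    rw [LinearMap.comp_apply, LinearMap.comp_apply, h1, h2, u_apply]
    abel

theorem KunData.tensor [CharP K 2] {V₁ V₂ : Type*} [AddCommGroup V₁] [Module K V₁]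
    [AddCommGroup V₂] [Module K V₂] {δ₁ E₁ : V₁ →ₗ[K] V₁} {z₁ : V₁} {p₁ : V₁ →ₗ[K] K}
    {δ₂ E₂ : V₂ →ₗ[K] V₂} {z₂ : V₂} {p₂ : V₂ →ₗ[K] K} (D₁ : KunData δ₁ E₁ z₁ p₁)
    (D₂ : KunData δ₂ E₂ z₂ p₂) (t : V₁ ⊗[K] V₂)
    (ht : (TensorProduct.map δ₁ E₂ + TensorProduct.map E₁ δ₂) t = 0) :
    ∃ b, (TensorProduct.map δ₁ E₂ + TensorProduct.map E₁ δ₂) b =
      TensorProduct.map E₁ E₂ t - TensorProduct.map (p₁.smulRight z₁) (p₂.smulRight z₂) t := by
  obtain ⟨h₁, a₁, b₁, c₁⟩ := D₁.exists_htpy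
  obtain ⟨h₂, a₂, b₂, c₂⟩ := D₂.exists_htpy
  let H := TensorProduct.map h₁ E₂ + TensorProduct.map (p₁.smulRight z₁) h₂
  have key : ∀ t, (TensorProduct.map δ₁ E₂ + TensorProduct.map E₁ δ₂) (H t) +
      H ((TensorProduct.map δ₁ E₂ + TensorProduct.map E₁ δ₂) t) =
      TensorProduct.map E₁ E₂ t - TensorProduct.map (p₁.smulRight z₁) (p₂.smulRight z₂) t := by
    intro t
    induction t using TensorProduct.induction_on with
    | zero => simp
    | add x y hx hy =>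
      simp only [map_add]
      rw [add_add_add_comm, hx, hy]
      abel
    | tmul x y =>
      simp only [H, LinearMap.add_apply, TensorProduct.map_tmul, map_add,
        LinearMap.smulRight_apply, map_smul, D₁.δz, D₁.Ez, D₁.pδ, D₁.pE, D₂.EE, D₂.δE, D₂.Eδ,
        a₁, b₁, a₂, b₂, smul_zero, zero_smul, TensorProduct.zero_tmul, add_zero, zero_add]
      have e1 : δ₁ (h₁ x) ⊗ₜ[K] E₂ y + h₁ (δ₁ x) ⊗ₜ[K] E₂ y =
          E₁ x ⊗ₜ[K] E₂ y - (p₁ x • z₁) ⊗ₜ[K] E₂ y := by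
        rw [← TensorProduct.add_tmul, c₁, TensorProduct.sub_tmul]
      have e2 : (p₁ x • z₁) ⊗ₜ[K] δ₂ (h₂ y) + (p₁ x • z₁) ⊗ₜ[K] h₂ (δ₂ y) =
          (p₁ x • z₁) ⊗ₜ[K] E₂ y - (p₁ x • z₁) ⊗ₜ[K] (p₂ y • z₂) := by
        rw [← TensorProduct.tmul_add, c₂, TensorProduct.tmul_sub]
      have e3 : h₁ x ⊗ₜ[K] δ₂ y + h₁ x ⊗ₜ[K] δ₂ y = 0 := by
        rw [← two_smul K, show (2 : K) = 0 from CharP.cast_eq_zero K 2, zero_smul]
      linear_combination (norm := abel) e1 + e2 + e3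
  exact ⟨H t, by rw [← key, ht, map_zero, add_zero]⟩

theorem kun_inj_left {W G Y : Type*} [AddCommGroup W] [Module K W] [AddCommGroup Y] [Module K Y]
    (t : W ⊗[K] (G → Y)) (h : ∀ g, (LinearMap.proj g : (G → Y) →ₗ[K] Y).lTensor W t = 0) :
    t = 0 := by
  classical
  let ℬ := Module.Basis.ofVectorSpace K W
  have key : ∀ (t : W ⊗[K] (G → Y)) i g, TensorProduct.equivFinsuppOfBasisLeft ℬ t i g =
      TensorProduct.equivFinsuppOfBasisLeft ℬ
        ((LinearMap.proj g : (G → Y) →ₗ[K] Y).lTensor W t) i := by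
    intro t i g
    induction t using TensorProduct.induction_on with
    | zero => simp
    | add x y hx hy => simp [hx, hy]
    | tmul x y => simp
  apply (TensorProduct.equivFinsuppOfBasisLeft ℬ).injective
  ext i g
  rw [key, h]
  simp

theorem kun_inj_right {W G Y : Type*} [AddCommGroup W] [Module K W] [AddCommGroup Y] [Module K Y]
    (t : (G → Y) ⊗[K] W) (h : ∀ g, (LinearMap.proj g : (G → Y) →ₗ[K] Y).rTensor W t = 0) :
    t = 0 := by
  classical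
  let ℬ := Module.Basis.ofVectorSpace K W
  have key : ∀ (t : (G → Y) ⊗[K] W) i g, TensorProduct.equivFinsuppOfBasisRight ℬ t i g =
      TensorProduct.equivFinsuppOfBasisRight ℬ
        ((LinearMap.proj g : (G → Y) →ₗ[K] Y).rTensor W t) i := by
    intro t i g
    induction t using TensorProduct.induction_on with
    | zero => simp
    | add x y hx hy => simp [hx, hy]
    | tmul x y => simp
  apply (TensorProduct.equivFinsuppOfBasisRight ℬ).injective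
  ext i g
  rw [key, h]
  simp

/-- the external product of cochains -/
noncomputable def kunB {G₁ G₂ Y₁ Y₂ Y : Type*} [AddCommGroup Y₁] [Module K Y₁] [AddCommGroup Y₂]
    [Module K Y₂] [AddCommGroup Y] [Module K Y] (φ : Y₁ ⊗[K] Y₂ ≃ₗ[K] Y) :
    (G₁ → Y₁) ⊗[K] (G₂ → Y₂) →ₗ[K] (G₁ × G₂ → Y) :=
  LinearMap.pi fun g => φ.toLinearMap ∘ₗ TensorProduct.map (LinearMap.proj g.1) (LinearMap.proj g.2)

section B

variable {G₁ G₂ Y₁ Y₂ Y : Type*} [AddCommGroup Y₁] [Module K Y₁] [AddCommGroup Y₂]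
    [Module K Y₂] [AddCommGroup Y] [Module K Y] (φ : Y₁ ⊗[K] Y₂ ≃ₗ[K] Y)

theorem kunB_tmul (c₁ : G₁ → Y₁) (c₂ : G₂ → Y₂) (g : G₁ × G₂) :
    kunB φ (c₁ ⊗ₜ c₂) g = φ (c₁ g.1 ⊗ₜ c₂ g.2) := rfl

theorem kunB_inj (t : (G₁ → Y₁) ⊗[K] (G₂ → Y₂)) (h : kunB φ t = 0) : t = 0 := by
  refine kun_inj_right t fun g₁ => kun_inj_left _ fun g₂ => ?_
  rw [← LinearMap.comp_apply, LinearMap.lTensor_comp_rTensor]
  exact φ.map_eq_zero_iff.1 (congrFun h (g₁, g₂))

theorem kunB_single [DecidableEq G₁] [DecidableEq G₂] [DecidableEq (G₁ × G₂)] (g₁ : G₁) (g₂ : G₂)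
    (y₁ : Y₁) (y₂ : Y₂) :
    kunB φ ((Pi.single g₁ y₁ : G₁ → Y₁) ⊗ₜ (Pi.single g₂ y₂ : G₂ → Y₂)) =
      Pi.single (g₁, g₂) (φ (y₁ ⊗ₜ y₂)) := by
  ext ⟨a, b⟩
  rw [kunB_tmul]
  by_cases ha : a = g₁
  · by_cases hb : b = g₂
    · subst ha hb
      simp
    · simp [hb]
  · simp [ha]

theorem kunB_surj [DecidableEq (G₁ × G₂)] (g : G₁ × G₂) (y : Y) :
    (Pi.single g y : G₁ × G₂ → Y) ∈ LinearMap.range (kunB φ) := by
  classical
  obtain ⟨t, rfl⟩ := φ.surjective y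
  induction t using TensorProduct.induction_on with
  | zero => simp
  | add x y hx hy =>
    rw [map_add, Pi.single_add]
    exact Submodule.add_mem _ hx hy
  | tmul x y => exact ⟨_, kunB_single φ g.1 g.2 x y⟩

end B

variable {G R Y : Type*} {Γ : GD G} [Ring R] [Algebra K R] [AddCommGroup Y] [Module K Y]

/-- the idempotent on functions -/
def kunE (M : MD Γ R) (ρ : R →ₐ[K] Module.End K Y) : (G → Y) →ₗ[K] (G → Y) :=
  LinearMap.pi fun g => ρ (M.e g) ∘ₗ LinearMap.proj g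

theorem kunE_apply (M : MD Γ R) (ρ : R →ₐ[K] Module.End K Y) (c : G → Y) (g : G) :
    kunE M ρ c g = ρ (M.e g) (c g) := rfl

theorem kun_dl_pr (M : MD Γ R) (ρ : R →ₐ[K] Module.End K Y) (n : ℤ) (c : G → Y) :
    M.dl ρ (M.pr ρ (n - 1) c) = M.pr ρ n (M.dl ρ c) := by
  have h1 := (M.cx (LM.top ρ)).mem' (M.pr_mem (LM.top ρ) (n - 1) (c := c) fun _ _ => trivial)
  refine MD.co_ext h1 (M.pr_mem (LM.top ρ) n fun _ _ => trivial) fun g hg => ?_
  rw [M.dl_pr ρ c (by omega), M.pr_pos _ _ hg, M.e_dl]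

theorem kunData_of_one [DecidableEq G] (M : MD Γ R) (ρ : R →ₐ[K] Module.End K Y) {n₀ : ℤ} {a : G}
    {z : Y} {π : Y →ₗ[K] K} (ha : Γ.deg a = n₀)
    (h : (M.cx (LM.top ρ)).One n₀ (Pi.single a z) (π ∘ₗ LinearMap.proj a)) :
    KunData (M.dl ρ) (kunE M ρ) (Pi.single a z) (π ∘ₗ ρ (M.e a) ∘ₗ LinearMap.proj a) where
  δδ := M.dl_dl ρ
  EE c := funext fun g => by simp only [kunE_apply]; rw [← rep_mul, M.ee]
  Eδ c := funext fun g => M.e_dl ρ c g
  δE c := funext fun g => Finset.sum_congr rfl fun g' _ => by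
    rw [kunE_apply, ← rep_mul, M.De]
  δz := h.z_mem.2
  Ez := funext fun g => (h.z_mem.1 g).2.1
  pz := (congrArg π (h.z_mem.1 a).2.1).trans h.π_z
  pδ c := by
    have := h.π_δ _ _ (M.pr_mem (LM.top ρ) (n₀ - 1) (c := c) fun _ _ => trivial)
    change π (M.dl ρ (M.pr ρ (n₀ - 1) c) a) = 0 at this
    rw [kun_dl_pr, M.pr_pos _ _ ha] at this
    exact this
  pE c := by
    change π (ρ _ (ρ _ _)) = π _
    rw [← rep_mul, M.ee]
    rfl
  ex c h1 h2 h3 := by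
    have key : ∀ n, M.pr ρ n c ∈ (M.cx (LM.top ρ)).Bd n := by
      intro n
      have hm := M.pr_mem (LM.top ρ) n (c := c) fun _ _ => trivial
      refine h.exact n _ ⟨hm, ?_⟩ ?_
      · change M.dl ρ (M.pr ρ n c) = 0
        have := kun_dl_pr M ρ (n + 1) c
        rwa [add_sub_cancel_right, h2, map_zero] at this
      · by_cases hn : n = n₀
        · change π (M.pr ρ n c a) = 0
          rw [M.pr_pos _ _ (ha.trans hn.symm)]
          exact h3
        · exact h.π_deg n _ hm hn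
    choose b _ hb using key
    refine ⟨fun g => b (Γ.deg g + 1) g, funext fun g => ?_⟩
    have h4 := congrFun (hb (Γ.deg g)) g
    rw [M.pr_pos _ _ rfl, ← kunE_apply, h1] at h4
    rw [← h4, MD.dl_apply, MD.δ_apply]
    refine Finset.sum_congr rfl fun g' hg' => ?_
    rw [(Γ.mem_fib _ _).1 hg', sub_add_cancel]
    rfl

end Aux

open Classical in
theorem one_tensor {K : Type*} [Field K] [CharP K 2]
    {G₁ G₂ : Type*} {Γ₁ : GD G₁} {Γ₂ : GD G₂} {Γ : GD (G₁ × G₂)}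
    {R₁ R₂ R : Type*} [Ring R₁] [Algebra K R₁] [Ring R₂] [Algebra K R₂] [Ring R] [Algebra K R]
    {Y₁ Y₂ Y : Type*} [AddCommGroup Y₁] [Module K Y₁] [AddCommGroup Y₂] [Module K Y₂]
    [AddCommGroup Y] [Module K Y]
    (M₁ : MD Γ₁ R₁) (ρ₁ : R₁ →ₐ[K] Module.End K Y₁) (M₂ : MD Γ₂ R₂) (ρ₂ : R₂ →ₐ[K] Module.End K Y₂)
    (M : MD Γ R) (ρ : R →ₐ[K] Module.End K Y) (φ : Y₁ ⊗[K] Y₂ ≃ₗ[K] Y)
    (hdeg : ∀ g₁ g₂, Γ.deg (g₁, g₂) = Γ₁.deg g₁ + Γ₂.deg g₂)
    (he : ∀ g₁ g₂ y₁ y₂, ρ (M.e (g₁, g₂)) (φ (y₁ ⊗ₜ y₂)) =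
      φ (ρ₁ (M₁.e g₁) y₁ ⊗ₜ ρ₂ (M₂.e g₂) y₂))
    (hD : ∀ g₁ g₂ g₁' g₂' y₁ y₂, Γ.deg (g₁, g₂) = Γ.deg (g₁', g₂') + 1 →
      ρ (M.D (g₁, g₂) (g₁', g₂')) (φ (y₁ ⊗ₜ y₂)) =
        (if g₂ = g₂' then φ (ρ₁ (M₁.D g₁ g₁') y₁ ⊗ₜ ρ₂ (M₂.e g₂) y₂) else 0) +
        (if g₁ = g₁' then φ (ρ₁ (M₁.e g₁) y₁ ⊗ₜ ρ₂ (M₂.D g₂ g₂') y₂) else 0))
    {n₁ n₂ : ℤ} {a₁ : G₁} {a₂ : G₂} {z₁ : Y₁} {z₂ : Y₂} {π₁ : Y₁ →ₗ[K] K} {π₂ : Y₂ →ₗ[K] K}
    (ha₁ : Γ₁.deg a₁ = n₁) (ha₂ : Γ₂.deg a₂ = n₂)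
    (h₁ : (M₁.cx (LM.top ρ₁)).One n₁ (Pi.single a₁ z₁) (π₁ ∘ₗ LinearMap.proj a₁))
    (h₂ : (M₂.cx (LM.top ρ₂)).One n₂ (Pi.single a₂ z₂) (π₂ ∘ₗ LinearMap.proj a₂))
    (π : Y →ₗ[K] K) (hπ : ∀ y₁ y₂, π (φ (y₁ ⊗ₜ y₂)) = π₁ y₁ * π₂ y₂) :
    (M.cx (LM.top ρ)).One (n₁ + n₂) (Pi.single (a₁, a₂) (φ (z₁ ⊗ₜ z₂)))
      (π ∘ₗ LinearMap.proj (a₁, a₂)) := by
  have D₁ := kunData_of_one M₁ ρ₁ ha₁ h₁
  have D₂ := kunData_of_one M₂ ρ₂ ha₂ h₂
  have hBE : ∀ t, kunE M ρ (kunB φ t) =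
      kunB φ (TensorProduct.map (kunE M₁ ρ₁) (kunE M₂ ρ₂) t) := by
    intro t
    induction t using TensorProduct.induction_on with
    | zero => simp
    | add x y hx hy => simp only [map_add, hx, hy]
    | tmul x y => exact funext fun g => he _ _ _ _
  have hBδ : ∀ t, M.dl ρ (kunB φ t) = kunB φ ((TensorProduct.map (M₁.dl ρ₁) (kunE M₂ ρ₂) +
      TensorProduct.map (kunE M₁ ρ₁) (M₂.dl ρ₂)) t) := by
    intro t
    induction t using TensorProduct.induction_on with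
    | zero => simp
    | add x y hx hy => simp only [map_add, hx, hy]
    | tmul x y =>
      funext ⟨g₁, g₂⟩
      simp only [LinearMap.add_apply, TensorProduct.map_tmul, map_add, Pi.add_apply, kunB_tmul,
        MD.dl_apply, kunE_apply, TensorProduct.sum_tmul, TensorProduct.tmul_sum, map_sum]
      rw [Finset.sum_congr rfl fun g' hg' => hD g₁ g₂ g'.1 g'.2 (x g'.1) (y g'.2)
        (by rw [(Γ.mem_fib _ _).1 hg']; ring), Finset.sum_add_distrib, ← Finset.sum_filter,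
        ← Finset.sum_filter]
      congr 1
      · refine Finset.sum_bij' (fun g _ => g.1) (fun g _ => (g, g₂)) ?_ ?_ ?_ ?_ ?_
        · rintro ⟨a, b⟩ hg
          simp only [Finset.mem_filter, GD.mem_fib, hdeg] at hg ⊢
          obtain ⟨h1, rfl⟩ := hg
          omega
        · intro a ha
          simp only [Finset.mem_filter, GD.mem_fib, hdeg, and_true] at ha ⊢
          omega
        · rintro ⟨a, b⟩ hg
          obtain rfl : g₂ = b := (Finset.mem_filter.1 hg).2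
          rfl
        · intro _ _
          rfl
        · rintro ⟨a, b⟩ hg
          obtain rfl : g₂ = b := (Finset.mem_filter.1 hg).2
          rfl
      · refine Finset.sum_bij' (fun g _ => g.2) (fun g _ => (g₁, g)) ?_ ?_ ?_ ?_ ?_
        · rintro ⟨a, b⟩ hg
          simp only [Finset.mem_filter, GD.mem_fib, hdeg] at hg ⊢
          obtain ⟨h1, rfl⟩ := hg
          omega
        · intro a ha
          simp only [Finset.mem_filter, GD.mem_fib, hdeg, and_true] at ha ⊢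
          omega
        · rintro ⟨a, b⟩ hg
          obtain rfl : g₁ = a := (Finset.mem_filter.1 hg).2
          rfl
        · intro _ _
          rfl
        · rintro ⟨a, b⟩ hg
          obtain rfl : g₁ = a := (Finset.mem_filter.1 hg).2
          rfl
  have hBπ : ∀ t, π (ρ (M.e (a₁, a₂)) (kunB φ t (a₁, a₂))) =
      TensorProduct.lid K K (TensorProduct.map (π₁ ∘ₗ ρ₁ (M₁.e a₁) ∘ₗ LinearMap.proj a₁)
        (π₂ ∘ₗ ρ₂ (M₂.e a₂) ∘ₗ LinearMap.proj a₂) t) := by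
    intro t
    induction t using TensorProduct.induction_on with
    | zero => simp
    | add x y hx hy => simp only [map_add, Pi.add_apply, hx, hy]
    | tmul x y => simp [kunB_tmul, he, hπ]
  have hsurj : ∀ n c, c ∈ (M.cx (LM.top ρ)).Co n → ∃ t, kunB φ t = c := by
    intro n c hc
    have : c = ∑ g ∈ Γ.fib n, Pi.single g (c g) := by
      funext g
      rw [Finset.sum_apply, Finset.sum_eq_single g]
      · simp
      · intro b _ hb
        exact Pi.single_eq_of_ne hb.symm _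
      · intro hg
        rw [(hc g).1 (by simpa using hg)]
        simp
    change c ∈ LinearMap.range (kunB φ)
    rw [this]
    exact Submodule.sum_mem _ fun g _ => kunB_surj φ g _
  have hz := kunB_single φ a₁ a₂ z₁ z₂
  refine ⟨⟨fun g => ⟨fun hg => Pi.single_eq_of_ne ?_ _, ?_, trivial⟩, ?_⟩, ?_, ?_, ?_, ?_⟩
  · rintro rfl
    exact hg (by rw [hdeg, ha₁, ha₂])
  · rw [LM.top_ρ, ← kunE_apply, ← hz, hBE, TensorProduct.map_tmul, D₁.Ez, D₂.Ez]
  · change M.dl ρ _ = 0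
    rw [← hz, hBδ]
    simp [D₁.δz, D₂.δz]
  · have e₁ := h₁.π_z
    have e₂ := h₂.π_z
    simp only [LinearMap.comp_apply, LinearMap.proj_apply, Pi.single_eq_same] at e₁ e₂ ⊢
    rw [hπ, e₁, e₂, mul_one]
  · intro n c hc hn
    change π (c (a₁, a₂)) = 0
    rw [(hc _).1 (by rw [hdeg, ha₁, ha₂]; exact hn.symm), map_zero]
  · intro n c hc
    obtain ⟨t, rfl⟩ := hsurj n c hc
    change π (M.dl ρ (kunB φ t) (a₁, a₂)) = 0
    rw [← M.e_dl, hBδ, hBπ]
    clear hc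
    induction t using TensorProduct.induction_on with
    | zero => simp
    | add x y hx hy => rw [map_add, map_add, map_add, hx, hy, add_zero]
    | tmul x y =>
      rw [LinearMap.add_apply, TensorProduct.map_tmul, TensorProduct.map_tmul, map_add,
        TensorProduct.map_tmul, TensorProduct.map_tmul, D₁.pδ, D₂.pδ]
      simp
  · intro n c hc hc0
    obtain ⟨t, rfl⟩ := hsurj n c hc.1
    obtain ⟨b, hb⟩ := D₁.tensor D₂ t (kunB_inj φ _ (by rw [← hBδ]; exact hc.2))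
    have h1 : ∀ t, TensorProduct.map
        ((π₁ ∘ₗ ρ₁ (M₁.e a₁) ∘ₗ LinearMap.proj a₁).smulRight (Pi.single a₁ z₁ : G₁ → Y₁))
        ((π₂ ∘ₗ ρ₂ (M₂.e a₂) ∘ₗ LinearMap.proj a₂).smulRight (Pi.single a₂ z₂ : G₂ → Y₂)) t =
        π (ρ (M.e (a₁, a₂)) (kunB φ t (a₁, a₂))) •
          ((Pi.single a₁ z₁ : G₁ → Y₁) ⊗ₜ[K] (Pi.single a₂ z₂ : G₂ → Y₂)) := by
      intro t
      rw [hBπ]
      induction t using TensorProduct.induction_on with
      | zero => simp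
      | add x y hx hy => simp only [map_add, hx, hy, add_smul]
      | tmul x y =>
        simp only [TensorProduct.map_tmul, LinearMap.smulRight_apply, TensorProduct.lid_tmul,
          TensorProduct.smul_tmul_smul, smul_eq_mul]
    have h2 : π (ρ (M.e (a₁, a₂)) (kunB φ t (a₁, a₂))) = 0 :=
      (congrArg π (hc.1 (a₁, a₂)).2.1).trans hc0
    rw [h1, h2, zero_smul, sub_zero] at hb
    have h3 : M.dl ρ (kunB φ b) = kunB φ t := by
      rw [hBδ, hb, ← hBE]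
      exact funext fun g => (hc.1 g).2.1
    refine ⟨M.pr ρ (n - 1) (kunB φ b), M.pr_mem (LM.top ρ) _ fun _ _ => trivial, ?_⟩
    change M.dl ρ _ = _
    rw [kun_dl_pr, h3]
    exact M.pr_eq (LM.top ρ) hc.1

end Crest.Agent.R186
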