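import Crest.Agent.R186.DG

/-!
Complexes of finitely generated projective modules given by matrices, and their cochains with
values in a module.
-/

set_option autoImplicit false

namespace Crest.Agent.R186

open MulOpposite

/-- A `ℤ`-graded index set with finite fibres. -/
structure GD (G : Type*) where
  deg : G → ℤ
  fib : ℤ → Finset G
  mem_fib : ∀ g n, g ∈ fib n ↔ deg g = n

attribute [simp] GD.mem_fib

/-- The opposite grading. -/
def GD.op {G : Type*} (Γ : GD G) : GD G where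
  deg g := -Γ.deg g
  fib n := Γ.fib (-n)
  mem_fib g n := by rw [Γ.mem_fib]; omega

@[simp] theorem GD.op_deg {G : Type*} (Γ : GD G) (g : G) : Γ.op.deg g = -Γ.deg g := rfl

theorem GD.op_fib {G : Type*} (Γ : GD G) (n : ℤ) : Γ.op.fib n = Γ.fib (-n) := rfl

/-- Matrix data of a complex of projective left `R`-modules `⨁ R * e g`; the differential sends
`r` in position `g` to `r * D g g'` in the positions `g'` of degree `deg g - 1`. -/
structure MD {G : Type*} (Γ : GD G) (R : Type*) [Ring R] where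
  e : G → R
  D : G → G → R
  ee : ∀ g, e g * e g = e g
  eD : ∀ g g', e g * D g g' = D g g'
  De : ∀ g g', D g g' * e g' = D g g'
  sq : ∀ g g'', Γ.deg g'' + 2 = Γ.deg g → ∑ g' ∈ Γ.fib (Γ.deg g - 1), D g g' * D g' g'' = 0

/-- A left module: a representation together with an invariant subspace. -/
structure LM (K R Y : Type*) [Field K] [Ring R] [Algebra K R] [AddCommGroup Y] [Module K Y] where
  ρ : R →ₐ[K] Module.End K Y
  W : Submodule K Y
  inv : ∀ a y, y ∈ W → ρ a y ∈ W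

variable {K : Type*} [Field K] {G G₀ : Type*} {Γ : GD G} {Γ₀ : GD G₀}
variable {R R₀ : Type*} [Ring R] [Algebra K R] [Ring R₀] [Algebra K R₀]
variable {Y Y₀ Y₁ Y₂ Y₃ : Type*} [AddCommGroup Y] [Module K Y] [AddCommGroup Y₀] [Module K Y₀]
  [AddCommGroup Y₁] [Module K Y₁] [AddCommGroup Y₂] [Module K Y₂] [AddCommGroup Y₃] [Module K Y₃]

namespace LM

/-- the whole space -/
def top (ρ : R →ₐ[K] Module.End K Y) : LM K R Y := ⟨ρ, ⊤, fun _ _ _ => trivial⟩

@[simp] theorem top_ρ (ρ : R →ₐ[K] Module.End K Y) : (top ρ).ρ = ρ := rfl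
@[simp] theorem top_W (ρ : R →ₐ[K] Module.End K Y) : (top ρ).W = ⊤ := rfl

/-- restriction of scalars -/
def res (N : LM K R Y) (f : R₀ →ₐ[K] R) : LM K R₀ Y := ⟨N.ρ.comp f, N.W, fun _ _ h => N.inv _ _ h⟩

@[simp] theorem res_ρ (N : LM K R Y) (f : R₀ →ₐ[K] R) (a : R₀) : (N.res f).ρ a = N.ρ (f a) := rfl
@[simp] theorem res_W (N : LM K R Y) (f : R₀ →ₐ[K] R) : (N.res f).W = N.W := rfl

theorem ρ_mul (N : LM K R Y) (a b : R) (y : Y) : N.ρ (a * b) y = N.ρ a (N.ρ b y) := by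
  rw [map_mul]; rfl

/-- module maps -/
structure Hom (N₁ : LM K R Y₁) (N₂ : LM K R Y₂) (f : Y₁ →ₗ[K] Y₂) : Prop where
  mem : ∀ y, y ∈ N₁.W → f y ∈ N₂.W
  comm : ∀ a y, y ∈ N₁.W → f (N₁.ρ a y) = N₂.ρ a (f y)

/-- short exact sequences of modules -/
structure SES (N₁ : LM K R Y₁) (N₂ : LM K R Y₂) (N₃ : LM K R Y₃) (f : Y₁ →ₗ[K] Y₂)
    (g : Y₂ →ₗ[K] Y₃) : Prop where
  hf : Hom N₁ N₂ f
  hg : Hom N₂ N₃ g
  inj : ∀ y, y ∈ N₁.W → f y = 0 → y = 0
  comp : ∀ y, y ∈ N₁.W → g (f y) = 0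
  exact : ∀ y, y ∈ N₂.W → g y = 0 → ∃ x ∈ N₁.W, f x = y
  surj : ∀ y, y ∈ N₃.W → ∃ x ∈ N₂.W, g x = y

end LM

namespace MD

/-- push the matrix data along a (possibly non-unital) ring map -/
def map {R' F : Type*} [Ring R'] [FunLike F R R'] [NonUnitalRingHomClass F R R'] (M : MD Γ R)
    (f : F) : MD Γ R' where
  e g := f (M.e g)
  D g g' := f (M.D g g')
  ee g := by rw [← map_mul, M.ee]
  eD g g' := by rw [← map_mul, M.eD]
  De g g' := by rw [← map_mul, M.De]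
  sq g g'' h := by
    simp only [← map_mul]
    rw [← map_sum, M.sq g g'' h, map_zero]

@[simp] theorem map_e {R' F : Type*} [Ring R'] [FunLike F R R'] [NonUnitalRingHomClass F R R']
    (M : MD Γ R) (f : F) (g : G) : (M.map f).e g = f (M.e g) := rfl

@[simp] theorem map_D {R' F : Type*} [Ring R'] [FunLike F R R'] [NonUnitalRingHomClass F R R']
    (M : MD Γ R) (f : F) (g g' : G) : (M.map f).D g g' = f (M.D g g') := rfl

/-- the transposed data over the opposite ring; its cochains are the chains of `M`. -/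
def op (M : MD Γ R) : MD Γ.op Rᵐᵒᵖ where
  e g := MulOpposite.op (M.e g)
  D g g' := MulOpposite.op (M.D g' g)
  ee g := by rw [← op_mul, M.ee]
  eD g g' := by rw [← op_mul, M.De]
  De g g' := by rw [← op_mul, M.eD]
  sq g g'' h := by
    simp only [← op_mul]
    rw [← Finset.op_sum]
    simp only [GD.op_deg] at h
    have := M.sq g'' g (by omega)
    rw [GD.op_fib, GD.op_deg, show -(-Γ.deg g - 1) = Γ.deg g'' - 1 by omega, this, op_zero]

@[simp] theorem op_e (M : MD Γ R) (g : G) : M.op.e g = MulOpposite.op (M.e g) := rfl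
@[simp] theorem op_D (M : MD Γ R) (g g' : G) : M.op.D g g' = MulOpposite.op (M.D g' g) := rfl

open Classical in
/-- keep only the generators satisfying `p` -/
noncomputable def trunc (M : MD Γ R) (p : G → Prop)
    (h : ∀ g g' g'', p g → ¬ p g' → p g'' → M.D g g' * M.D g' g'' = 0) : MD Γ R where
  e g := if p g then M.e g else 0
  D g g' := if p g ∧ p g' then M.D g g' else 0
  ee g := by split_ifs <;> simp [M.ee]
  eD g g' := by by_cases h1 : p g <;> by_cases h2 : p g' <;> simp [h1, h2, M.eD]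
  De g g' := by by_cases h1 : p g <;> by_cases h2 : p g' <;> simp [h1, h2, M.De]
  sq g g'' hd := by
    by_cases h1 : p g
    · by_cases h2 : p g''
      · refine Eq.trans (Finset.sum_congr rfl fun g' _ => ?_) (M.sq g g'' hd)
        by_cases h3 : p g'
        · simp [h1, h2, h3]
        · simp [h3, h g g' g'' h1 h3 h2]
      · simp [h2]
    · simp [h1]

section trunc
variable (M : MD Γ R) (p : G → Prop)
    (h : ∀ g g' g'', p g → ¬ p g' → p g'' → M.D g g' * M.D g' g'' = 0)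

theorem trunc_e_pos {g : G} (hg : p g) : (M.trunc p h).e g = M.e g := if_pos hg
theorem trunc_e_neg {g : G} (hg : ¬ p g) : (M.trunc p h).e g = 0 := if_neg hg
theorem trunc_D_pos {g g' : G} (hg : p g) (hg' : p g') : (M.trunc p h).D g g' = M.D g g' :=
  if_pos ⟨hg, hg'⟩
theorem trunc_D_neg_left {g g' : G} (hg : ¬ p g) : (M.trunc p h).D g g' = 0 :=
  if_neg fun h => hg h.1
theorem trunc_D_neg_right {g g' : G} (hg : ¬ p g') : (M.trunc p h).D g g' = 0 :=
  if_neg fun h => hg h.2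

end trunc

/-- the differential on cochains -/
def dl (M : MD Γ R) (ρ : R →ₐ[K] Module.End K Y) : (G → Y) →ₗ[K] (G → Y) where
  toFun c g := ∑ g' ∈ Γ.fib (Γ.deg g - 1), ρ (M.D g g') (c g')
  map_add' c c' := by ext g; simp [Finset.sum_add_distrib]
  map_smul' t c := by ext g; simp [Finset.smul_sum]

theorem dl_apply (M : MD Γ R) (ρ : R →ₐ[K] Module.End K Y) (c : G → Y) (g : G) :
    M.dl ρ c g = ∑ g' ∈ Γ.fib (Γ.deg g - 1), ρ (M.D g g') (c g') := rfl

/-- cochains of degree `n` -/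
def co (M : MD Γ R) (N : LM K R Y) (n : ℤ) : Submodule K (G → Y) where
  carrier := {c | ∀ g, (Γ.deg g ≠ n → c g = 0) ∧ N.ρ (M.e g) (c g) = c g ∧ c g ∈ N.W}
  add_mem' := by
    intro c c' hc hc' g
    refine ⟨fun h => ?_, ?_, N.W.add_mem (hc g).2.2 (hc' g).2.2⟩
    · simp [(hc g).1 h, (hc' g).1 h]
    · simp [(hc g).2.1, (hc' g).2.1]
  zero_mem' := fun g => by simp
  smul_mem' := by
    intro t c hc g
    refine ⟨fun h => ?_, ?_, N.W.smul_mem t (hc g).2.2⟩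
    · simp [(hc g).1 h]
    · simp [(hc g).2.1]

theorem e_dl (M : MD Γ R) (ρ : R →ₐ[K] Module.End K Y) (c : G → Y) (g : G) :
    ρ (M.e g) (M.dl ρ c g) = M.dl ρ c g := by
  simp only [dl_apply, map_sum]
  refine Finset.sum_congr rfl fun g' _ => ?_
  rw [← Module.End.mul_apply, ← map_mul, M.eD]

theorem dl_dl (M : MD Γ R) (ρ : R →ₐ[K] Module.End K Y) (c : G → Y) :
    M.dl ρ (M.dl ρ c) = 0 := by
  ext g
  simp only [dl_apply, map_sum, Pi.zero_apply]
  rw [Finset.sum_congr rfl (g := fun g' => ∑ g'' ∈ Γ.fib (Γ.deg g - 2),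
    ρ (M.D g g' * M.D g' g'') (c g''))]
  · rw [Finset.sum_comm]
    refine Finset.sum_eq_zero fun g'' hg'' => ?_
    rw [← LinearMap.sum_apply, ← map_sum, M.sq g g'' (by rw [Γ.mem_fib] at hg''; omega)]
    simp
  · intro g' hg'
    rw [Γ.mem_fib] at hg'
    rw [hg', show Γ.deg g - 1 - 1 = Γ.deg g - 2 by ring]
    simp only [map_mul, Module.End.mul_apply]

/-- The complex `Hom(P, N)`. -/
def cx (M : MD Γ R) (N : LM K R Y) : DG K (G → Y) where
  Co := M.co N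
  δ := M.dl N.ρ
  mem n c hc g := by
    refine ⟨fun h => ?_, M.e_dl _ _ _, ?_⟩
    · rw [dl_apply]
      refine Finset.sum_eq_zero fun g' hg' => ?_
      rw [Γ.mem_fib] at hg'
      rw [(hc g').1 (by omega), map_zero]
    · exact Submodule.sum_mem _ fun g' _ => N.inv _ _ (hc g').2.2
  sq _ c _ := M.dl_dl _ c

theorem mem_Co {M : MD Γ R} {N : LM K R Y} {n : ℤ} {c : G → Y} : c ∈ (M.cx N).Co n ↔
    ∀ g, (Γ.deg g ≠ n → c g = 0) ∧ N.ρ (M.e g) (c g) = c g ∧ c g ∈ N.W := Iff.rfl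

theorem cx_δ (M : MD Γ R) (N : LM K R Y) : (M.cx N).δ = M.dl N.ρ := rfl

theorem δ_apply (M : MD Γ R) (N : LM K R Y) (c : G → Y) (g : G) :
    (M.cx N).δ c g = ∑ g' ∈ Γ.fib (Γ.deg g - 1), N.ρ (M.D g g') (c g') := rfl

theorem op_δ_apply (M : MD Γ R) (N : LM K Rᵐᵒᵖ Y) (c : G → Y) (g : G) :
    (M.op.cx N).δ c g = ∑ g' ∈ Γ.fib (Γ.deg g + 1), N.ρ (MulOpposite.op (M.D g' g)) (c g') := by
  rw [δ_apply, GD.op_fib, GD.op_deg, show -(-Γ.deg g - 1) = Γ.deg g + 1 by ring]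
  rfl

open Classical in
/-- the projection of an arbitrary function onto the cochains of degree `n` -/
noncomputable def pr (M : MD Γ R) (ρ : R →ₐ[K] Module.End K Y) (n : ℤ) :
    (G → Y) →ₗ[K] (G → Y) where
  toFun c g := if Γ.deg g = n then ρ (M.e g) (c g) else 0
  map_add' c c' := by ext g; by_cases h : Γ.deg g = n <;> simp [h]
  map_smul' t c := by ext g; by_cases h : Γ.deg g = n <;> simp [h]

theorem pr_pos (M : MD Γ R) (ρ : R →ₐ[K] Module.End K Y) {n : ℤ} (c : G → Y) {g : G}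
    (h : Γ.deg g = n) : M.pr ρ n c g = ρ (M.e g) (c g) := if_pos h

theorem pr_neg (M : MD Γ R) (ρ : R →ₐ[K] Module.End K Y) {n : ℤ} (c : G → Y) {g : G}
    (h : Γ.deg g ≠ n) : M.pr ρ n c g = 0 := if_neg h

theorem pr_mem (M : MD Γ R) (N : LM K R Y) (n : ℤ) {c : G → Y}
    (hc : ∀ g, Γ.deg g = n → c g ∈ N.W) : M.pr N.ρ n c ∈ (M.cx N).Co n := by
  intro g
  by_cases h : Γ.deg g = n
  · rw [pr_pos _ _ _ h]
    exact ⟨fun h' => (h' h).elim, by rw [← N.ρ_mul, M.ee], N.inv _ _ (hc g h)⟩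
  · rw [pr_neg _ _ _ h]
    simp

theorem pr_eq (M : MD Γ R) (N : LM K R Y) {n : ℤ} {c : G → Y} (hc : c ∈ (M.cx N).Co n) :
    M.pr N.ρ n c = c := by
  ext g
  by_cases h : Γ.deg g = n
  · rw [pr_pos _ _ _ h, (hc g).2.1]
  · rw [pr_neg _ _ _ h, (hc g).1 h]

/-- the differential in degree `n + 1` does not see the projection to degree `n` -/
theorem dl_pr (M : MD Γ R) (ρ : R →ₐ[K] Module.End K Y) {n : ℤ} (c : G → Y) {g : G}
    (h : Γ.deg g = n + 1) : M.dl ρ (M.pr ρ n c) g = M.dl ρ c g := by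
  simp only [dl_apply]
  refine Finset.sum_congr rfl fun g' hg' => ?_
  rw [Γ.mem_fib] at hg'
  rw [pr_pos _ _ _ (by omega), ← Module.End.mul_apply, ← map_mul, M.De]

theorem co_ext {M : MD Γ R} {N : LM K R Y} {n : ℤ} {c c' : G → Y} (hc : c ∈ (M.cx N).Co n)
    (hc' : c' ∈ (M.cx N).Co n) (h : ∀ g, Γ.deg g = n → c g = c' g) : c = c' := by
  ext g
  by_cases hg : Γ.deg g = n
  · exact h g hg
  · rw [(hc g).1 hg, (hc' g).1 hg]

/-- pull back along an injection of index sets and apply a family of linear maps -/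
def pull (ι : G₀ → G) (f : G₀ → Y →ₗ[K] Y₀) : (G → Y) →ₗ[K] (G₀ → Y₀) where
  toFun c g := f g (c (ι g))
  map_add' c c' := by ext g; simp
  map_smul' t c := by ext g; simp

@[simp] theorem pull_apply (ι : G₀ → G) (f : G₀ → Y →ₗ[K] Y₀) (c : G → Y) (g : G₀) :
    pull ι f c g = f g (c (ι g)) := rfl

theorem sum_fib_pull {A : Type*} [AddCommMonoid A] {ι : G₀ → G} (hι : Function.Injective ι) {k : ℤ}
    (hdeg : ∀ g, Γ₀.deg g = Γ.deg (ι g) + k) (n : ℤ) (F : G → A)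
    (hF : ∀ g, Γ.deg g = n → g ∉ Set.range ι → F g = 0) :
    ∑ g ∈ Γ.fib n, F g = ∑ g ∈ Γ₀.fib (n + k), F (ι g) := by
  classical
  rw [← Finset.sum_image (s := Γ₀.fib (n + k)) (g := ι) (f := F) (fun _ _ _ _ h => hι h)]
  symm
  apply Finset.sum_subset
  · intro g hg
    obtain ⟨g₀, hg₀, rfl⟩ := Finset.mem_image.1 hg
    rw [Γ₀.mem_fib, hdeg] at hg₀
    rw [Γ.mem_fib]
    omega
  · intro g hg hg'
    rw [Γ.mem_fib] at hg
    refine hF g hg ?_
    rintro ⟨g₀, rfl⟩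
    exact hg' (Finset.mem_image.2 ⟨g₀, by rw [Γ₀.mem_fib, hdeg, hg], rfl⟩)

theorem cx_map {M : MD Γ R} {N : LM K R Y} {M₀ : MD Γ₀ R₀} {N₀ : LM K R₀ Y₀} {ι : G₀ → G}
    (hι : Function.Injective ι) {k : ℤ} (hdeg : ∀ g, Γ₀.deg g = Γ.deg (ι g) + k)
    {f : G₀ → Y →ₗ[K] Y₀}
    (hW : ∀ g y, y ∈ N.W → N.ρ (M.e (ι g)) y = y → f g y ∈ N₀.W)
    (he : ∀ g y, y ∈ N.W → N.ρ (M.e (ι g)) y = y → N₀.ρ (M₀.e g) (f g y) = f g y)
    (hD : ∀ g g' y, Γ₀.deg g = Γ₀.deg g' + 1 → y ∈ N.W → N.ρ (M.e (ι g')) y = y →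
      f g (N.ρ (M.D (ι g) (ι g')) y) = N₀.ρ (M₀.D g g') (f g' y))
    (h0 : ∀ g g' y, Γ.deg (ι g) = Γ.deg g' + 1 → g' ∉ Set.range ι → y ∈ N.W →
      N.ρ (M.e g') y = y → f g (N.ρ (M.D (ι g) g') y) = 0) :
    DG.Map (M.cx N) (M₀.cx N₀) (pull ι f) k where
  mem n c hc g := by
    refine ⟨fun h => ?_, he _ _ (hc _).2.2 (hc _).2.1, hW _ _ (hc _).2.2 (hc _).2.1⟩
    rw [pull_apply, (hc _).1 (by rw [hdeg] at h; omega), map_zero]
  comm n c hc := by
    ext g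
    simp only [pull_apply, δ_apply, map_sum]
    rw [sum_fib_pull hι hdeg, show Γ.deg (ι g) - 1 + k = Γ₀.deg g - 1 by rw [hdeg]; ring]
    · refine Finset.sum_congr rfl fun g' hg' => ?_
      rw [Γ₀.mem_fib] at hg'
      exact hD _ _ _ (by omega) (hc _).2.2 (hc _).2.1
    · intro g' h1 h2
      exact h0 _ _ _ (by omega) h2 (hc _).2.2 (hc _).2.1

theorem cx_iso {M : MD Γ R} {N : LM K R Y} {M₀ : MD Γ₀ R₀} {N₀ : LM K R₀ Y₀} {ι : G₀ → G}
    (hι : Function.Injective ι) {k : ℤ} (hdeg : ∀ g, Γ₀.deg g = Γ.deg (ι g) + k)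
    {f : G₀ → Y →ₗ[K] Y₀}
    (hW : ∀ g y, y ∈ N.W → N.ρ (M.e (ι g)) y = y → f g y ∈ N₀.W)
    (he : ∀ g y, y ∈ N.W → N.ρ (M.e (ι g)) y = y → N₀.ρ (M₀.e g) (f g y) = f g y)
    (hD : ∀ g g' y, Γ₀.deg g = Γ₀.deg g' + 1 → y ∈ N.W → N.ρ (M.e (ι g')) y = y →
      f g (N.ρ (M.D (ι g) (ι g')) y) = N₀.ρ (M₀.D g g') (f g' y))
    (h0 : ∀ g' y, g' ∉ Set.range ι → y ∈ N.W → N.ρ (M.e g') y = y → y = 0)
    (hinj : ∀ g y, y ∈ N.W → N.ρ (M.e (ι g)) y = y → f g y = 0 → y = 0)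
    (hsurj : ∀ g y₀, y₀ ∈ N₀.W → N₀.ρ (M₀.e g) y₀ = y₀ →
      ∃ y ∈ N.W, N.ρ (M.e (ι g)) y = y ∧ f g y = y₀) :
    DG.Iso (M.cx N) (M₀.cx N₀) (pull ι f) k where
  toMap := cx_map hι hdeg hW he hD (fun g g' y _ h1 h2 h3 => by rw [h0 g' y h1 h2 h3]; simp)
  inj n c hc h := by
    ext g
    by_cases hg : g ∈ Set.range ι
    · obtain ⟨g₀, rfl⟩ := hg
      exact hinj g₀ _ (hc _).2.2 (hc _).2.1 (congrFun h g₀)
    · exact h0 g _ hg (hc _).2.2 (hc _).2.1
  surj n c hc := by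
    classical
    choose y hy1 hy2 hy3 using fun g => hsurj g (c g) (hc g).2.2 (hc g).2.1
    refine ⟨Function.extend ι y 0, fun g => ?_, ?_⟩
    · by_cases hg : g ∈ Set.range ι
      · obtain ⟨g₀, rfl⟩ := hg
        rw [hι.extend_apply]
        refine ⟨fun h => hinj g₀ _ (hy1 _) (hy2 _) ?_, hy2 _, hy1 _⟩
        rw [hy3, (hc g₀).1 (by rw [hdeg]; omega)]
      · rw [Function.extend_apply' _ _ _ hg]
        simp
    · ext g
      rw [pull_apply, hι.extend_apply, hy3]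

theorem cx_hom (M : MD Γ R) {N₁ : LM K R Y₁} {N₂ : LM K R Y₂} {f : Y₁ →ₗ[K] Y₂}
    (h : LM.Hom N₁ N₂ f) : DG.Map (M.cx N₁) (M.cx N₂) (f.compLeft G) 0 :=
  cx_map (ι := id) (f := fun _ => f) Function.injective_id (fun _ => by simp)
    (fun _ y hy _ => h.mem y hy) (fun g y hy h1 => by rw [← h.comm _ _ hy]; exact congrArg f h1)
    (fun g g' y _ hy _ => h.comm _ _ hy) (fun _ g' _ _ h1 => (h1 ⟨g', rfl⟩).elim)

/-- a bijective module map gives an isomorphism of cochain complexes -/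
theorem cx_iso_of_hom (M : MD Γ R) {N₁ : LM K R Y₁} {N₂ : LM K R Y₂} {f : Y₁ →ₗ[K] Y₂}
    (h : LM.Hom N₁ N₂ f) (hinj : ∀ y, y ∈ N₁.W → f y = 0 → y = 0)
    (hsurj : ∀ y, y ∈ N₂.W → ∃ x ∈ N₁.W, f x = y) :
    DG.Iso (M.cx N₁) (M.cx N₂) (f.compLeft G) 0 :=
  cx_iso (ι := id) (f := fun _ => f) Function.injective_id (fun _ => by simp)
    (fun _ y hy _ => h.mem y hy) (fun g y hy h1 => by rw [← h.comm _ _ hy]; exact congrArg f h1)
    (fun g g' y _ hy _ => h.comm _ _ hy) (fun g' _ h1 => (h1 ⟨g', rfl⟩).elim)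
    (fun _ y hy _ h1 => hinj y hy h1)
    (fun g y hy h1 => by
      obtain ⟨x, hx, rfl⟩ := hsurj y hy
      refine ⟨N₁.ρ (M.e g) x, N₁.inv _ _ hx, ?_, ?_⟩
      · rw [id, ← N₁.ρ_mul, M.ee]
      · rw [h.comm _ _ hx, h1])

theorem rel_of_hom_bij (M : MD Γ R) {N₁ : LM K R Y₁} {N₂ : LM K R Y₂} {f : Y₁ →ₗ[K] Y₂}
    (h : LM.Hom N₁ N₂ f) (hinj : ∀ y, y ∈ N₁.W → f y = 0 → y = 0)
    (hsurj : ∀ y, y ∈ N₂.W → ∃ x ∈ N₁.W, f x = y) {n : ℤ} {r : ℕ} :
    (M.cx N₁).Rel n r ↔ (M.cx N₂).Rel n r := by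
  rw [(M.cx_iso_of_hom h hinj hsurj).rel_iff, add_zero]

/-- two invariant subspaces that are equal give the same cohomology -/
theorem rel_of_eq (M : MD Γ R) {N₁ N₂ : LM K R Y} (hρ : N₁.ρ = N₂.ρ) (hW : N₁.W = N₂.W)
    {n : ℤ} {r : ℕ} : (M.cx N₁).Rel n r ↔ (M.cx N₂).Rel n r := by
  cases N₁
  cases N₂
  cases hρ
  cases hW
  rfl

theorem cx_ses (M : MD Γ R) {N₁ : LM K R Y₁} {N₂ : LM K R Y₂} {N₃ : LM K R Y₃} {f : Y₁ →ₗ[K] Y₂}
    {g : Y₂ →ₗ[K] Y₃} (S : LM.SES N₁ N₂ N₃ f g) :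
    DG.SES (M.cx N₁) (M.cx N₂) (M.cx N₃) (f.compLeft G) (g.compLeft G) where
  f_mem n c hc := by simpa using (M.cx_hom S.hf).mem n c hc
  f_comm := (M.cx_hom S.hf).comm
  g_mem n c hc := by simpa using (M.cx_hom S.hg).mem n c hc
  g_comm := (M.cx_hom S.hg).comm
  inj n c hc h := funext fun x => S.inj _ (hc x).2.2 (congrFun h x)
  comp n c hc := funext fun x => S.comp _ (hc x).2.2
  exact n c hc h := by
    choose a ha1 ha2 using fun x => S.exact (c x) (hc x).2.2 (congrFun h x)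
    refine ⟨M.pr N₁.ρ n a, M.pr_mem N₁ n fun x _ => ha1 x, ?_⟩
    ext x
    show f (M.pr N₁.ρ n a x) = c x
    by_cases hx : Γ.deg x = n
    · rw [pr_pos _ _ _ hx, S.hf.comm _ _ (ha1 x), ha2, (hc x).2.1]
    · rw [pr_neg _ _ _ hx, (hc x).1 hx, map_zero]
  surj n c hc := by
    choose a ha1 ha2 using fun x => S.surj (c x) (hc x).2.2
    refine ⟨M.pr N₂.ρ n a, M.pr_mem N₂ n fun x _ => ha1 x, ?_⟩
    ext x
    show g (M.pr N₂.ρ n a x) = c x
    by_cases hx : Γ.deg x = n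
    · rw [pr_pos _ _ _ hx, S.hg.comm _ _ (ha1 x), ha2, (hc x).2.1]
    · rw [pr_neg _ _ _ hx, (hc x).1 hx, map_zero]

open Classical in
/-- kill the coordinates satisfying `p` -/
noncomputable def kill (K : Type*) [Field K] {G : Type*} (Y : Type*) [AddCommGroup Y] [Module K Y]
    (p : G → Prop) : (G → Y) →ₗ[K] (G → Y) where
  toFun c g := if p g then 0 else c g
  map_add' c c' := by ext g; by_cases h : p g <;> simp [h]
  map_smul' t c := by ext g; by_cases h : p g <;> simp [h]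

theorem kill_pos {p : G → Prop} (c : G → Y) {g : G} (h : p g) : kill K Y p c g = 0 := if_pos h
theorem kill_neg {p : G → Prop} (c : G → Y) {g : G} (h : ¬ p g) : kill K Y p c g = c g := if_neg h

/-- If the differential of `P` never goes from `¬ p` to `p`, the cochains supported on `p` form
a subcomplex. -/
theorem trunc_ses (M : MD Γ R) (N : LM K R Y) (p p' : G → Prop) (hp : ∀ g, p' g ↔ ¬ p g)
    (h : ∀ g g', ¬ p g → p g' → M.D g g' = 0)
    (h₁ : ∀ g g' g'', p g → ¬ p g' → p g'' → M.D g g' * M.D g' g'' = 0)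
    (h₂ : ∀ g g' g'', p' g → ¬ p' g' → p' g'' → M.D g g' * M.D g' g'' = 0) :
    DG.SES ((M.trunc p h₁).cx N) (M.cx N) ((M.trunc p' h₂).cx N) LinearMap.id
      (kill K Y p) := by
  have z₁ : ∀ n c, c ∈ ((M.trunc p h₁).cx N).Co n → ∀ g, ¬ p g → c g = 0 := by
    intro n c hc g hg
    rw [← (hc g).2.1, trunc_e_neg _ _ _ hg]
    simp
  constructor
  · intro n c hc g
    refine ⟨(hc g).1, ?_, (hc g).2.2⟩
    by_cases hg : p g
    · have := (hc g).2.1
      rwa [trunc_e_pos _ _ _ hg] at this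
    · simp [z₁ n c hc g hg]
  · intro n c hc
    ext g
    simp only [LinearMap.id_coe, id, δ_apply]
    refine Finset.sum_congr rfl fun g' _ => ?_
    by_cases hg' : p g'
    · by_cases hg : p g
      · rw [trunc_D_pos _ _ _ hg hg']
      · rw [trunc_D_neg_left _ _ _ hg, h g g' hg hg']
    · simp [z₁ n c hc g' hg']
  · intro n c hc g
    by_cases hg : p g
    · simp [kill_pos c hg]
    · rw [kill_neg c hg, trunc_e_pos _ _ _ ((hp g).2 hg)]
      exact hc g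
  · intro n c hc
    ext g
    by_cases hg : p g
    · rw [kill_pos _ hg, δ_apply]
      symm
      refine Finset.sum_eq_zero fun g' _ => ?_
      rw [trunc_D_neg_left _ _ _ (fun h => (hp g).1 h hg)]
      simp
    · rw [kill_neg _ hg, δ_apply, δ_apply]
      refine Finset.sum_congr rfl fun g' _ => ?_
      by_cases hg' : p g'
      · simp [kill_pos c hg', h g g' hg hg']
      · rw [kill_neg c hg', trunc_D_pos _ _ _ ((hp g).2 hg) ((hp g').2 hg')]
  · intro n c _ hc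
    exact hc
  · intro n c hc
    ext g
    by_cases hg : p g
    · exact kill_pos _ hg
    · rw [kill_neg _ hg]
      exact z₁ n c hc g hg
  · intro n c hc h0
    refine ⟨c, fun g => ⟨(hc g).1, ?_, (hc g).2.2⟩, rfl⟩
    by_cases hg : p g
    · rw [trunc_e_pos _ _ _ hg]
      exact (hc g).2.1
    · have := congrFun h0 g
      rw [kill_neg _ hg] at this
      simp [this]
  · intro n c hc
    have z : ∀ g, p g → c g = 0 := by
      intro g hg
      rw [← (hc g).2.1, trunc_e_neg _ _ _ (fun h => (hp g).1 h hg)]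
      simp
    refine ⟨c, fun g => ⟨(hc g).1, ?_, (hc g).2.2⟩, ?_⟩
    · by_cases hg : p g
      · simp [z g hg]
      · have := (hc g).2.1
        rwa [trunc_e_pos _ _ _ ((hp g).2 hg)] at this
    · ext g
      by_cases hg : p g
      · rw [kill_pos _ hg, z g hg]
      · exact kill_neg _ hg

end MD

end Crest.Agent.R186
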