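import Crest.Agent.R186.EBi

/-!
Cohomology of `X` with values in the cycles of `S ⊗ X` and `U ⊗ X`.
-/

set_option autoImplicit false

namespace Crest.Agent.R186

open MulOpposite Module Ez

namespace Setup

variable {K B : Type*} [Field K] [Ring B] [Algebra K B] {q : K} {G : Type} {Γ : GD G}
  {X : MD Γ (Ez K B)} (T : Setup K B q Γ X)

/-- the character of `E` -/
def χE : Ez K B →ₐ[K] K := T.χ.comp (TE.fstA _)

theorem χE_apply (a : Ez K B) : T.χE a = T.χ a.fst := rfl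

theorem χE_D (g g' : G) : T.χE (X.D g g') = 0 := T.χD g g'

theorem χE_sc (t : K) (a : Ez K B) : T.χE (sc B t a) = T.χE a := by simp [χE_apply]

/-- the projective resolution part of `X` -/
noncomputable abbrev XP : MD Γ (Ez K B) :=
  X.trunc T.p fun _ g' g'' _ h2 h3 => by rw [T.Dp g' g'' h2 h3, mul_zero]

theorem χE_XP_D (g g' : G) : T.χE (T.XP.D g g') = 0 := by
  by_cases h : T.p g
  · by_cases h' : T.p g'
    · rw [MD.trunc_D_pos _ _ _ h h', χE_D]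
    · rw [MD.trunc_D_neg_right _ _ _ h', map_zero]
  · rw [MD.trunc_D_neg_left _ _ _ h, map_zero]

theorem XP_e_g₀ : T.XP.e T.g₀ = X.e T.g₀ := MD.trunc_e_pos _ _ _ T.p_g₀

theorem A1' {n : ℤ} {c : G → Ez K B} (hc : c ∈ (T.XP.op.cx (Bi.reg K (Ez K B)).R).Z n)
    (h : T.χE (c T.g₀) = 0) : c ∈ (T.XP.op.cx (Bi.reg K (Ez K B)).R).Bd n := T.A1 n c hc h

theorem XP_van {m : ℤ} (hm : m ≤ -2) : (T.XP.op.cx (Bi.reg K (Ez K B)).R).Van m := by
  intro c hc
  refine T.A1' hc ?_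
  rw [(hc.1 T.g₀).1 (by rw [GD.op_deg, T.deg_g₀]; omega), map_zero]

theorem χE_δ (c : G → Ez K B) (g : G) :
    T.χE ((T.XP.op.cx (Bi.reg K (Ez K B)).R).δ c g) = 0 := by
  rw [MD.op_δ_apply, map_sum]
  refine Finset.sum_eq_zero fun g' _ => ?_
  simp [T.χE_XP_D]

include T

theorem tw_R {t : K} (ht : t ≠ 0) : (X.op.cx (tw B t).R).Acyc :=
  (X.op.cx_iso_of_hom (N₁ := (Bi.reg K (Ez K B)).R) (N₂ := (tw B t).R)
    (f := (sc B t).toLinearMap) ⟨fun _ _ => trivial, fun a y _ => by simp⟩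
    (fun y _ h => by rw [← sc_inv_sc ht y]; exact (congrArg (sc B t⁻¹) h).trans (map_zero _))
    fun y _ => ⟨sc B t⁻¹ y, trivial, sc_sc_inv ht y⟩).acyc_iff.1 T.A2

theorem tw_L (t : K) : (X.cx (tw B t).L).Acyc := T.A3

theorem S_R : (X.op.cx (βS K B).R).Acyc :=
  (X.op.cx_iso_of_hom hom_evS (fun y _ => evS_inj y)
    fun y _ => let ⟨x, hx⟩ := evS_surj y; ⟨x, trivial, hx⟩).acyc_iff.2
    ((X.op.cx_ses (Bi.ses_prod _ _).R).acyc₂ T.A2 T.A2)

theorem S_L : (X.cx (βS K B).L).Acyc :=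
  (X.cx_iso_of_hom hom_mkS (fun y _ => mkS_inj y)
    fun y _ => let ⟨x, hx⟩ := mkS_surj y; ⟨x, trivial, hx⟩).acyc_iff.1
    ((X.cx_ses (Bi.ses_prod _ _).L).acyc₂ T.A3 T.A3)

/-- the augmentation of `S ⊗ P` -/
def augS : (G → Ssub K B) →ₗ[K] Ez K K :=
  (TE.inlL _ ∘ₗ T.χE.toLinearMap ∘ₗ LinearMap.snd K _ _ +
    TE.inr _ ∘ₗ T.χE.toLinearMap ∘ₗ LinearMap.fst K _ _) ∘ₗ evS K B ∘ₗ LinearMap.proj T.g₀

@[simp] theorem fst_augS (c : G → Ssub K B) :
    (T.augS c).fst = T.χE ((c T.g₀ : Ez K B →ₗ[K] Ez K B) (z K B)) := by simp [augS]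

@[simp] theorem snd_augS (c : G → Ssub K B) :
    (T.augS c).snd = T.χE ((c T.g₀ : Ez K B →ₗ[K] Ez K B) 1) := by simp [augS]

theorem rel_S {i : ℤ} {r : ℕ}
    (h : (X.cx (LM.top ((lrep K (Ez K K)).comp (Ez.ch T.χ)))).Rel (i + 1) r) :
    (X.cx ((βS K B).Z X.op 1)).Rel i r := by
  classical
  have I := T.XP.op.cx_iso_of_hom hom_evS (fun y _ => evS_inj y)
    fun y _ => let ⟨x, hx⟩ := evS_surj y; ⟨x, trivial, hx⟩
  have S := T.XP.op.cx_ses (Bi.ses_prod (Bi.reg K (Ez K B)) (Bi.reg K (Ez K B))).R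
  refine rel_of_aug (βS K B) X X.op T.XP.op T.S_L T.S_R 5
    (trunc_op_Z_eq X T.p _ _ T.deg_np (by norm_num))
    (LM.top ((lrep K (Ez K K)).comp (Ez.ch T.χ))) T.augS ⟨fun _ _ => trivial, ?_⟩ ?_ ?_ ?_ ?_ h
  · intro a c _
    ext
    · simp [z_mul a, (c T.g₀).2 _ _, χE_apply]
    · simp only [Bi.Co_ρ, snd_augS, piRep_apply, βS_l, one_mul]
      rw [Ssub_apply (c T.g₀).2 a]
      simp [χE_apply]
  · intro y _
    obtain ⟨ψ, hψ⟩ := evS_surj (y.snd • X.e T.g₀, y.fst • X.e T.g₀)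
    have h1 : (ψ : Ez K B →ₗ[K] Ez K B) 1 = y.snd • X.e T.g₀ := congrArg Prod.fst hψ
    have h2 : (ψ : Ez K B →ₗ[K] Ez K B) (z K B) = y.fst • X.e T.g₀ := congrArg Prod.snd hψ
    refine ⟨Pi.single T.g₀ ψ, MD.single_mem _ _ (by rw [GD.op_deg, T.deg_g₀]) trivial ?_, ?_⟩
    · rw [← sub_eq_zero]
      apply evS_inj
      ext1 <;> simp [T.XP_e_g₀, h1, h2, X.ee]
    · ext <;> simp [h1, h2, χE_apply, T.χ_g₀]
  · intro c hc h0
    have hc' := trunc_op_mem_Z X T.p _ _ T.deg_p hc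
    refine (I.mem_Bd_iff hc).1 ?_
    have hZ := I.toMap.mem_Z hc'
    rw [add_zero] at hZ ⊢
    refine mem_Bd_prod _ _ _ (T.A1' ?_ ?_) (T.A1' (S.g_Z hZ) ?_)
    · have := (T.XP.op.cx_hom (N₁ := ((Bi.reg K (Ez K B)).prod (Bi.reg K (Ez K B))).R)
        (N₂ := (Bi.reg K (Ez K B)).R) (f := LinearMap.fst K _ _)
        ⟨fun _ _ => trivial, fun _ _ _ => rfl⟩).mem_Z hZ
      rwa [add_zero] at this
    · simpa using congrArg TE.snd h0
    · simpa using congrArg TE.fst h0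
  · rintro _ ⟨b, _, rfl⟩
    ext <;> simp [MD.op_δ_apply, LinearMap.sum_apply, T.χE_XP_D]
  · intro m hm
    have := I.van_iff (n := m)
    rw [add_zero] at this
    exact this.2 (S.van₂ (T.XP_van hm) (T.XP_van hm))

variable [FiniteDimensional K B]

theorem U_R : (X.op.cx (βU K B).R).Acyc :=
  (X.op.cx_ses ses_U.R).acyc₁ (X.op.acyc_postRep _ T.A2) (X.acyc_trRep K T.S_L)

theorem U_L : (X.cx (βU K B).L).Acyc :=
  (X.cx_ses ses_U.L).acyc₁ (X.acyc_trRep' _ T.A2) (X.acyc_trRep' K T.S_R)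

theorem I_R : (X.op.cx (βU K B).cov.R).Acyc := X.op.acyc_postRep _ T.U_R

theorem I_L : (X.cx (βU K B).cov.L).Acyc := X.acyc_trRep' _ (X.acyc_trRep K T.A3)

theorem I_Z (n : ℤ) : (X.cx ((βU K B).cov.Z X.op n)).Acyc :=
  acyc_hom_Z X X.op _ _ (X.acyc_trRep K T.A3) n

theorem U_shift {j : ℤ} {r : ℕ} (h : (X.cx ((βS K B).dual.Z X.op 1)).Rel j r) :
    (X.cx ((βU K B).Z X.op 1)).Rel (j + 1) r :=
  ((X.cx_ses (ses_U.Z X.op 1 (T.U_R _))).shift (acyc_hom_Z X X.op _ _ T.A2 1)).1 h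

theorem U_van {j : ℤ} (h0 : j ≠ 0) (h3 : j ≠ -3) : (X.cx ((βU K B).Z X.op 1)).Van j := by
  have h1 := T.rel_S (i := -(j - 1) - 1) ((T.ind_van _ (by omega) (by omega)).rel 0)
  have h2 := T.U_shift ((tate_van _ X T.S_L T.S_R (DG.rel_zero_iff.1 h1)).rel 0)
  rw [sub_add_cancel] at h2
  exact DG.rel_zero_iff.1 h2

theorem U_one : (X.cx ((βU K B).Z X.op 1)).Rel 0 1 := by
  have h1 := T.rel_S (i := -(-1) - 1) (r := 1) (by simpa using T.ind_one)
  simpa using T.U_shift (tate_rel_one _ X T.S_L T.S_R h1)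

end Setup

/-- the tautological cocycle `X → Z` -/
noncomputable def taut {G R : Type*} [Ring R] {Γ : GD G} (X : MD Γ R) : G → G → R :=
  fun g g' => if Γ.deg g = 0 ∧ Γ.deg g' = -1 then X.D g g' else 0

theorem taut_mem {K G R : Type*} [Field K] [Ring R] [Algebra K R] {Γ : GD G} (X : MD Γ R) :
    taut X ∈ (X.cx ((Bi.reg K R).Z X.op 1)).Z 0 := by
  refine ⟨fun g => ⟨fun h => ?_, ?_, fun g' => ⟨fun h => ?_, ?_, trivial⟩, ?_⟩, ?_⟩
  · ext g'
    exact if_neg fun h' => h h'.1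
  · ext g'
    simp only [Bi.Z_ρ, Bi.reg_l, piRep_apply, lrep_apply, taut]
    split_ifs <;> simp [X.eD]
  · exact if_neg fun h' => h (by rw [GD.op_deg, h'.2]; rfl)
  · simp only [taut]
    split_ifs <;> simp [X.De]
  · ext g''
    rw [MD.op_δ_apply]
    by_cases h : Γ.deg g = 0 ∧ Γ.deg g'' = -2
    · rw [Pi.zero_apply, ← X.sq g g'' (by omega), show Γ.deg g'' + 1 = Γ.deg g - 1 by omega]
      refine Finset.sum_congr rfl fun g' hg' => ?_
      rw [Γ.mem_fib] at hg'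
      simp [taut, h.1, show Γ.deg g' = -1 by omega]
    · refine Finset.sum_eq_zero fun g' hg' => ?_
      rw [Γ.mem_fib] at hg'
      rw [taut, if_neg (by omega), map_zero]
  · ext g g''
    rw [MD.δ_apply, Finset.sum_apply]
    by_cases h : Γ.deg g = 1 ∧ Γ.deg g'' = -1
    · rw [Pi.zero_apply, Pi.zero_apply, ← X.sq g g'' (by omega)]
      refine Finset.sum_congr rfl fun g' hg' => ?_
      rw [Γ.mem_fib] at hg'
      simp [taut, h.2, show Γ.deg g' = 0 by omega]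
    · refine Finset.sum_eq_zero fun g' hg' => ?_
      rw [Γ.mem_fib] at hg'
      simp only [Bi.Z_ρ, Bi.reg_l, piRep_apply, lrep_apply]
      rw [taut, if_neg (by omega), mul_zero]

namespace Setup

variable {K B : Type*} [Field K] [Ring B] [Algebra K B] {q : K} {G : Type} {Γ : GD G}
  {X : MD Γ (Ez K B)} (T : Setup K B q Γ X) [FiniteDimensional K B] [CharP K 2]
  (tr0 : ∀ b : B, LinearMap.trace K B (LinearMap.mulRight K b) = 0)

include T tr0

theorem finrank_Z : (finrank K ((X.op.cx (Bi.reg K (Ez K B)).R).Z 1) : K) = 1 := by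
  classical
  have htr : ∀ a : (Ez K B)ᵐᵒᵖ, LinearMap.trace K _ (rrep K (Ez K B) a) = 0 :=
    fun a => trace_Ssub tr0 (mulRight_mem (unop a))
  refine finrank_Z_eq_one _ (T.XP.op.cx (Bi.reg K (Ez K B)).R)
    (finrank_Co_eq_zero _ _ fun _ => htr _) (finrank_Co_eq_zero _ _ fun _ => htr _) T.A2
    (fun m hm => T.XP_van hm) 5 (trunc_op_Z_eq X T.p _ _ T.deg_np (by norm_num))
    (T.χE.toLinearMap ∘ₗ LinearMap.proj T.g₀)
    (fun c hc h => T.A1' (trunc_op_mem_Z X T.p _ _ T.deg_p hc) h) ?_ ?_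
  · rintro _ ⟨b, _, rfl⟩
    exact T.χE_δ b _
  · refine ⟨Pi.single T.g₀ (X.e T.g₀), MD.single_mem _ _ (by rw [GD.op_deg, T.deg_g₀]) trivial ?_,
      ?_⟩
    · simp [T.XP_e_g₀, X.ee]
    · simp [χE_apply, T.χ_g₀]

theorem taut_not_mem {c : G → G → LinearMap.ker (τ K B)}
    (hc : ∀ g g' y, (c g g' : Ez K B →ₗ[K] Ez K B) y = y * taut X g g') :
    c ∉ (X.cx ((βU K B).Z X.op 1)).Bd 0 := by
  rintro ⟨b, hb, hb'⟩
  have hZ : ∀ g y, (fun g' => (b g g' : Ez K B →ₗ[K] Ez K B) y) ∈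
      (X.op.cx (Bi.reg K (Ez K B)).R).Z 1 := by
    intro g y
    have := (X.op.cx_hom (N₁ := (βU K B).R) (N₂ := (Bi.reg K (Ez K B)).R)
      (f := LinearMap.applyₗ y ∘ₗ (LinearMap.ker (τ K B)).subtype)
      ⟨fun _ _ => trivial, fun _ _ _ => rfl⟩).mem_Z (hb g).2.2
    rwa [add_zero] at this
  let In : G → Ez K B →ₗ[K] (X.op.cx (Bi.reg K (Ez K B)).R).Co 1 := fun g =>
    LinearMap.codRestrict _ (LinearMap.pi fun g' => (b g g' : Ez K B →ₗ[K] Ez K B))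
      fun y => (hZ g y).1
  have h1 := trace_matrix X.op (Bi.reg K (Ez K B)).R 1 In
  rw [← finrank_eq_trace _ ((X.op.cx (Bi.reg K (Ez K B)).R).Z 1) inf_le_left, T.finrank_Z tr0,
    Finset.sum_eq_zero] at h1
  · exact one_ne_zero h1
  · intro g _
    exact trace_U (b g g)
  · intro x
    rw [LinearMap.sum_apply, Submodule.coe_sum]
    exact Submodule.sum_mem _ fun g _ => hZ g _
  · rintro ⟨x, hx⟩ hx'
    obtain ⟨u, hu, rfl⟩ := T.A2 1 x hx'
    apply Subtype.ext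
    rw [LinearMap.sum_apply, Submodule.coe_sum]
    refine MD.co_ext (Submodule.sum_mem _ fun g _ => (hZ g _).1) hx fun g'' hg'' => ?_
    rw [GD.op_deg] at hg''
    have h2 : ∀ g ∈ Γ.fib 0, ∀ y, ∑ g' ∈ Γ.fib (-1),
        (b g' g'' : Ez K B →ₗ[K] Ez K B) (y * X.D g g') = y * X.D g g'' := by
      intro g hg y
      rw [Γ.mem_fib] at hg
      have h3 := LinearMap.congr_fun (congrArg Subtype.val (congrFun (congrFun hb' g) g'')) y
      rw [hc, taut, if_pos ⟨hg, by omega⟩, MD.δ_apply, hg] at h3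
      simpa [Finset.sum_apply, LinearMap.sum_apply] using h3
    rw [Finset.sum_apply, Submodule.coe_mk, MD.op_δ_apply, show Γ.deg g'' + 1 = 0 by omega]
    simp only [LM.top_ρ, Bi.reg_r, rrep_apply, unop_op]
    rw [← Finset.sum_congr rfl fun g hg => h2 g hg (u g), Finset.sum_comm]
    refine Finset.sum_congr rfl fun g' hg' => ?_
    have hg'2 : Γ.deg g' + 1 = 0 := by
      have : Γ.deg g' = -1 := (Γ.mem_fib _ _).1 hg'
      omega
    simp [In, MD.op_δ_apply, hg'2]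

end Setup

end Crest.Agent.R186
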