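import Crest.Agent.R186.Main1

/-!
The cone of the two twisting maps `X → E₁ X × E₂ X` and its Tate cohomology.
-/

set_option autoImplicit false

namespace Crest.Agent.R186

open MulOpposite Module Ez

theorem add_self_char_two (K : Type*) [Field K] [CharP K 2] {V : Type*} [AddCommGroup V]
    [Module K V] (x : V) : x + x = 0 := by
  rw [← two_smul K x, CharTwo.two_eq_zero, zero_smul]

theorem op_Z_eq_of_agree {K G A Y : Type*} [Field K] {Γ : GD G} [Ring A] [Algebra K A]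
    [AddCommGroup Y] [Module K Y] (M M' : MD Γ A) (N : LM K Aᵐᵒᵖ Y) {d n : ℤ}
    (he : ∀ g, d < Γ.deg g → M.e g = M'.e g)
    (hD : ∀ g g', d < Γ.deg g → d < Γ.deg g' → M.D g g' = M'.D g g') (hn : n + 1 < -d) :
    (M.op.cx N).Z n = (M'.op.cx N).Z n := by
  have h1 : ∀ m, m < -d → (M.op.cx N).Co m = (M'.op.cx N).Co m := by
    intro m hm
    ext c
    refine forall_congr' fun g => ?_
    by_cases hg : d < Γ.deg g
    · rw [MD.op_e, MD.op_e, he g hg]
    · constructor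
      · rintro ⟨h1, _, h3⟩
        exact ⟨h1, by rw [h1 (by simp only [GD.op_deg]; omega), map_zero], h3⟩
      · rintro ⟨h1, _, h3⟩
        exact ⟨h1, by rw [h1 (by simp only [GD.op_deg]; omega), map_zero], h3⟩
  have key : ∀ c ∈ (M.op.cx N).Co n, (M.op.cx N).δ c = (M'.op.cx N).δ c := by
    intro c hc
    have hc' := hc
    rw [h1 n (by omega)] at hc'
    refine MD.co_ext (DG.mem _ _ _ hc) ?_ fun g hg => ?_
    · rw [h1 _ hn]
      exact DG.mem _ _ _ hc'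
    · simp only [GD.op_deg] at hg
      rw [MD.op_δ_apply, MD.op_δ_apply]
      refine Finset.sum_congr rfl fun g' hg' => ?_
      rw [Γ.mem_fib] at hg'
      rw [hD _ _ (by omega) (by omega)]
  ext c
  constructor
  · rintro ⟨h2, h3⟩
    exact ⟨h1 n (by omega) ▸ h2, (key c h2).symm.trans h3⟩
  · rintro ⟨h2, h3⟩
    have h1' : c ∈ (M.op.cx N).Co n := (h1 n (by omega)).symm ▸ h2
    exact ⟨h1', (key c h1').trans h3⟩

variable {K B : Type*} [Field K] [Ring B] [Algebra K B] {G : Type} {Γ : GD G}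

/-- homogeneity of matrix data for the `z`-weight -/
structure Homog (X : MD Γ (Ez K B)) (w : G → ℤ) : Prop where
  e_snd : ∀ g, (X.e g).snd = 0
  D_fst : ∀ g g', w g ≠ w g' → (X.D g g').fst = 0
  D_snd : ∀ g g', w g ≠ w g' + 1 → (X.D g g').snd = 0

theorem Homog.sc_e {X : MD Γ (Ez K B)} {w : G → ℤ} (h : Homog X w) (t : K) (g : G) :
    sc B t (X.e g) = X.e g := by
  ext <;> simp [h.e_snd]

theorem Homog.sc_D {X : MD Γ (Ez K B)} {w : G → ℤ} (h : Homog X w) {t : K} (ht : t ≠ 0)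
    (g g' : G) : t ^ (-w g) • sc B t (X.D g g') = t ^ (-w g') • X.D g g' := by
  ext
  · by_cases h1 : w g = w g'
    · simp [h1]
    · simp [h.D_fst g g' h1]
  · by_cases h1 : w g = w g' + 1
    · simp only [TE.snd_smul, snd_sc, smul_smul, h1]
      rw [← zpow_add_one₀ ht]
      congr 2
      ring
    · simp [h.D_snd g g' h1]

theorem Ez.sc_one (a : Ez K B) : sc B 1 a = a := by ext <;> simp

/-- the bimodule `E₁ × E₂` -/
abbrev βF2 (B : Type*) [Ring B] [Algebra K B] (q : K) :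
    Bi K (Ez K B) (Ez K B)ᵐᵒᵖ (Ez K B × Ez K B) := (tw B 1).prod (tw B q)

open Classical in
/-- the two twisting maps -/
noncomputable def θ (X : MD Γ (Ez K B)) (w : G → ℤ) (t : K) (g g' : G) : Ez K B :=
  if g = g' then t ^ (-w g) • X.e g else 0

theorem θ_self (X : MD Γ (Ez K B)) (w : G → ℤ) (t : K) (g : G) :
    θ X w t g g = t ^ (-w g) • X.e g := if_pos rfl

theorem θ_ne (X : MD Γ (Ez K B)) (w : G → ℤ) (t : K) {g g' : G} (h : g ≠ g') :
    θ X w t g g' = 0 := if_neg h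

theorem e_θ (X : MD Γ (Ez K B)) (w : G → ℤ) (t : K) (g g' : G) :
    X.e g * θ X w t g g' = θ X w t g g' := by
  unfold θ
  split_ifs <;> simp [X.ee]

theorem θ_e (X : MD Γ (Ez K B)) (w : G → ℤ) (t : K) (g g' : G) :
    θ X w t g g' * X.e g' = θ X w t g g' := by
  unfold θ
  split_ifs with h
  · simp [← h, X.ee]
  · simp

theorem sum_θ_left {A : Type*} [AddCommMonoid A] (X : MD Γ (Ez K B)) (w : G → ℤ) (t : K) {n : ℤ}
    {g : G} (hg : Γ.deg g = n) (F : G → Ez K B → A) (hF : ∀ g', F g' 0 = 0) :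
    ∑ g' ∈ Γ.fib n, F g' (θ X w t g' g) = F g (t ^ (-w g) • X.e g) := by
  rw [Finset.sum_eq_single g, θ_self]
  · intro b _ hb
    rw [θ_ne _ _ _ hb, hF]
  · intro h
    exact (h ((Γ.mem_fib _ _).2 hg)).elim

theorem sum_θ_right {A : Type*} [AddCommMonoid A] (X : MD Γ (Ez K B)) (w : G → ℤ) (t : K) {n : ℤ}
    {g : G} (hg : Γ.deg g = n) (F : G → Ez K B → A) (hF : ∀ g', F g' 0 = 0) :
    ∑ g' ∈ Γ.fib n, F g' (θ X w t g g') = F g (t ^ (-w g) • X.e g) := by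
  rw [Finset.sum_eq_single g, θ_self]
  · intro b _ hb
    rw [θ_ne _ _ _ hb.symm, hF]
  · intro h
    exact (h ((Γ.mem_fib _ _).2 hg)).elim

theorem θ_chain [CharP K 2] {X : MD Γ (Ez K B)} {w : G → ℤ} (h : Homog X w) {t : K} (ht : t ≠ 0)
    (g g'' : G) (hd : Γ.deg g = Γ.deg g'' + 1) :
    ∑ g' ∈ Γ.fib (Γ.deg g - 1), X.D g g' * θ X w t g' g'' +
      ∑ g' ∈ Γ.fib (Γ.deg g'' + 1), θ X w t g g' * sc B t (X.D g' g'') = 0 := by
  rw [sum_θ_left X w t (by omega) (fun g' y => X.D g g' * y) (by simp),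
    sum_θ_right X w t hd (fun g' y => y * sc B t (X.D g' g'')) (by simp),
    mul_smul_comm, smul_mul_assoc, X.De, ← h.sc_e t g, ← map_mul, X.eD, h.sc_D ht,
    add_self_char_two K]

/-- the chain map `X → (E₁ × E₂) X` -/
noncomputable def Θ [CharP K 2] {X : MD Γ (Ez K B)} {w : G → ℤ} (h : Homog X w) {q : K}
    (hq : q ≠ 0) : ChMap X (βF2 B q) where
  φ g g' := (θ X w 1 g g', θ X w q g g')
  l_e g g' := by ext1 <;> simp [e_θ]
  r_e g g' := by ext1 <;> simp [θ_e, h.sc_e]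
  chain g g'' hd := by
    ext1
    · simpa [Prod.fst_sum] using θ_chain h one_ne_zero g g'' hd
    · simpa [Prod.snd_sum] using θ_chain h hq g g'' hd

theorem Θ_φ [CharP K 2] {X : MD Γ (Ez K B)} {w : G → ℤ} (h : Homog X w) {q : K}
    (hq : q ≠ 0) (g g' : G) : (Θ h hq).φ g g' = (θ X w 1 g g', θ X w q g g') := rfl

section asm

variable [CharP K 2] {X : MD Γ (Ez K B)} {w : G → ℤ} (h : Homog X w) {q : K} (hq : q ≠ 0)

/-- assemble a chain of the cone from its four components -/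
def asm (w : G → ℤ) (q : K) (a u v b : G → Ez K B) : G ⊕ G → Tri (βF2 B q)
  | .inl g => TE.mk _ (a g, 0) (u g, q ^ (-w g) • v g)
  | .inr g => TE.mk _ (0, b g) 0

theorem asm_mem {n : ℤ} {a u v b : G → Ez K B}
    (ha : a ∈ (X.op.cx (Bi.reg K (Ez K B)).R).Co n)
    (hu : u ∈ (X.op.cx (Bi.reg K (Ez K B)).R).Co n)
    (hv : v ∈ (X.op.cx (Bi.reg K (Ez K B)).R).Co n)
    (hb : b ∈ (X.op.cx (Bi.reg K (Ez K B)).R).Co (n + 1)) :
    asm w q a u v b ∈ ((Θ h hq).cone.op.cx (Bi.reg K (Tri (βF2 B q))).R).Co n := by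
  rintro (g | g)
  · refine ⟨fun hg => ?_, ?_, trivial⟩
    · simp only [asm, (ha g).1 hg, (hu g).1 hg, (hv g).1 hg, smul_zero]
      rfl
    · have h1 : a g * X.e g = a g := (ha g).2.1
      have h2 : u g * X.e g = u g := (hu g).2.1
      have h3 : v g * X.e g = v g := (hv g).2.1
      refine TE.ext ?_ ?_ <;> simp [asm, h1, h2, h3, h.sc_e]
  · refine ⟨fun hg => ?_, ?_, trivial⟩
    · simp only [asm, (hb g).1 (by simp only [GD.op_deg, GD.dbl_deg_inr] at hg ⊢; omega)]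
      rfl
    · have h1 : b g * X.e g = b g := (hb g).2.1
      refine TE.ext ?_ ?_ <;> simp [asm, h1]

theorem exists_asm {n : ℤ} {c : G ⊕ G → Tri (βF2 B q)}
    (hc : c ∈ ((Θ h hq).cone.op.cx (Bi.reg K (Tri (βF2 B q))).R).Co n) :
    ∃ a ∈ (X.op.cx (Bi.reg K (Ez K B)).R).Co n, ∃ u ∈ (X.op.cx (Bi.reg K (Ez K B)).R).Co n,
      ∃ v ∈ (X.op.cx (Bi.reg K (Ez K B)).R).Co n,
        ∃ b ∈ (X.op.cx (Bi.reg K (Ez K B)).R).Co (n + 1), c = asm w q a u v b := by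
  have hl : ∀ g, c (.inl g) * TE.mk _ (X.e g, 0) 0 = c (.inl g) := fun g => (hc (.inl g)).2.1
  have hr : ∀ g, c (.inr g) * TE.mk _ (0, X.e g) 0 = c (.inr g) := fun g => (hc (.inr g)).2.1
  refine ⟨fun g => (c (.inl g)).fst.1, fun g => ⟨fun hg => ?_, ?_, trivial⟩,
    fun g => (c (.inl g)).snd.1, fun g => ⟨fun hg => ?_, ?_, trivial⟩,
    fun g => q ^ w g • (c (.inl g)).snd.2, fun g => ⟨fun hg => ?_, ?_, trivial⟩,
    fun g => (c (.inr g)).fst.2, fun g => ⟨fun hg => ?_, ?_, trivial⟩, ?_⟩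
  · simp [(hc (.inl g)).1 hg]
  · simpa using congrArg (fun x => x.fst.1) (hl g)
  · simp [(hc (.inl g)).1 hg]
  · simpa [h.sc_e] using congrArg (fun x => x.snd.1) (hl g)
  · simp [(hc (.inl g)).1 hg]
  · have := congrArg (fun x => x.snd.2) (hl g)
    simp only [TE.snd_mul, TE.snd_mk, map_zero, TE.fst_mk, zero_add, Bi.tri_r, unop_op,
      Bi.prod_r, prodRep_apply, tw_r, h.sc_e] at this
    simp [this]
  · simp [(hc (.inr g)).1 (by simp only [GD.op_deg, GD.dbl_deg_inr] at hg ⊢; omega)]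
  · simpa using congrArg (fun x => x.fst.2) (hr g)
  · funext g
    rcases g with g | g
    · refine TE.ext (Prod.ext rfl ?_) (Prod.ext rfl ?_)
      · simpa [asm] using (congrArg (fun x => x.fst.2) (hl g)).symm
      · simp [asm, smul_smul, hq, zpow_ne_zero]
    · refine TE.ext (Prod.ext ?_ rfl) ?_
      · simpa [asm] using (congrArg (fun x => x.fst.1) (hr g)).symm
      · have := (congrArg (fun x => x.snd) (hr g)).symm
        simp only [TE.snd_mul, TE.snd_mk, map_zero, TE.fst_mk, zero_add, Bi.tri_r, unop_op,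
          op_zero, LinearMap.zero_apply] at this
        exact this

theorem δ_asm (a u v : G → Ez K B) {b : G → Ez K B} {m : ℤ}
    (hb : b ∈ (X.op.cx (Bi.reg K (Ez K B)).R).Co m) :
    ((Θ h hq).cone.op.cx (Bi.reg K (Tri (βF2 B q))).R).δ (asm w q a u v b) =
      asm w q ((X.op.cx (Bi.reg K (Ez K B)).R).δ a) ((X.op.cx (Bi.reg K (Ez K B)).R).δ u + b)
        ((X.op.cx (Bi.reg K (Ez K B)).R).δ v + b) ((X.op.cx (Bi.reg K (Ez K B)).R).δ b) := by
  funext g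
  have hb' : ∀ g, b g * X.e g = b g := fun g => (hb g).2.1
  rcases g with g | g
  · rw [MD.op_δ_apply, GD.sum_dbl, GD.dbl_deg_inl, add_sub_cancel_right]
    refine TE.ext (Prod.ext ?_ ?_) (Prod.ext ?_ ?_)
    · simp [asm, Prod.fst_sum, MD.op_δ_apply]
    · simp [asm, Prod.snd_sum]
    · simp [asm, Prod.fst_sum, MD.op_δ_apply, Θ_φ, sc_one,
        sum_θ_left X w 1 rfl (fun g' y => b g' * y) (by simp), hb']
    · have h1 : ∀ g', q ^ (-w g') • (v g' * sc B q (X.D g' g)) = q ^ (-w g) • (v g' * X.D g' g) :=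
        fun g' => by rw [← mul_smul_comm, h.sc_D hq, mul_smul_comm]
      simp [-zpow_neg, asm, Prod.snd_sum, MD.op_δ_apply, Θ_φ,
        sum_θ_left X w q rfl (fun g' y => b g' * y) (by simp), hb', h1, Finset.smul_sum]
  · rw [MD.op_δ_apply, GD.sum_dbl, GD.dbl_deg_inr, add_sub_cancel_right]
    refine TE.ext (Prod.ext ?_ ?_) ?_
    · simp [asm, Prod.fst_sum]
    · simp [asm, Prod.snd_sum, MD.op_δ_apply]
    · simp [asm]

include hq in
omit [CharP K 2] in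
theorem asm_eq_zero {a u v b : G → Ez K B} (h0 : asm w q a u v b = 0) :
    a = 0 ∧ u = 0 ∧ v = 0 ∧ b = 0 := by
  refine ⟨funext fun g => ?_, funext fun g => ?_, funext fun g => ?_, funext fun g => ?_⟩
  · exact congrArg (fun x => x.fst.1) (congrFun h0 (.inl g))
  · exact congrArg (fun x => x.snd.1) (congrFun h0 (.inl g))
  · have : q ^ (-w g) • v g = 0 := congrArg (fun x => x.snd.2) (congrFun h0 (.inl g))
    exact (smul_eq_zero.1 this).resolve_left (zpow_ne_zero _ hq)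
  · exact congrArg (fun x => x.fst.2) (congrFun h0 (.inr g))

end asm

namespace Setup

variable {q : K} {X : MD Γ (Ez K B)} (T : Setup K B q Γ X)

theorem homog : Homog X T.w := ⟨T.e_snd, T.D_fst, T.D_snd⟩

theorem homogP : Homog T.XP T.w := by
  refine ⟨fun g => ?_, fun g g' h => ?_, fun g g' h => ?_⟩ <;> simp only [MD.trunc] <;> split_ifs
  exacts [T.e_snd g, rfl, T.D_fst g g' h, rfl, T.D_snd g g' h, rfl]

/-- the two-dimensional module resolved by the cone -/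
def Δrep : Tri (βF2 B q) →ₐ[K] Module.End K (K × K) :=
  mkRep (LinearMap.mk₂ K (fun (x : Tri (βF2 B q)) (y : K × K) =>
      (T.χE x.fst.1 * y.1, T.χE x.fst.2 * y.2 + (T.χE x.snd.1 + T.χE x.snd.2) * y.1))
    (fun _ _ _ => by ext <;> simp <;> ring) (fun _ _ _ => by ext <;> simp <;> ring)
    (fun _ _ _ => by ext <;> simp <;> ring) (fun _ _ _ => by ext <;> simp <;> ring))
    (fun _ => by ext <;> simp) fun _ _ _ => by ext <;> simp [χE_sc] <;> ring

theorem Δrep_apply (x : Tri (βF2 B q)) (y : K × K) : T.Δrep x y =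
    (T.χE x.fst.1 * y.1, T.χE x.fst.2 * y.2 + (T.χE x.snd.1 + T.χE x.snd.2) * y.1) := rfl

/-- augmentation of the cone -/
def augΔ : (G ⊕ G → Tri (βF2 B q)) →ₗ[K] K × K :=
  ((T.χE.toLinearMap ∘ₗ LinearMap.fst K _ _ ∘ₗ TE.fstL _).prod
    (T.χE.toLinearMap ∘ₗ (LinearMap.fst K _ _ + LinearMap.snd K _ _) ∘ₗ TE.sndL _)) ∘ₗ
    LinearMap.proj (.inl T.g₀)

theorem augΔ_apply (c : G ⊕ G → Tri (βF2 B q)) : T.augΔ c =
    (T.χE (c (.inl T.g₀)).fst.1, T.χE ((c (.inl T.g₀)).snd.1 + (c (.inl T.g₀)).snd.2)) := rfl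

theorem augΔ_asm (a u v b : G → Ez K B) :
    T.augΔ (asm T.w q a u v b) = (T.χE (a T.g₀), T.χE (u T.g₀ + v T.g₀)) := by
  simp [augΔ_apply, asm, T.w_g₀]

variable [CharP K 2] (hq : q ≠ 0)

theorem cone_exact {n : ℤ} {c : G ⊕ G → Tri (βF2 B q)}
    (hc : c ∈ ((Θ T.homogP hq).cone.op.cx (Bi.reg K (Tri (βF2 B q))).R).Z n)
    (h0 : T.augΔ c = 0) : c ∈ ((Θ T.homogP hq).cone.op.cx (Bi.reg K (Tri (βF2 B q))).R).Bd n := by
  obtain ⟨a, ha, u, hu, v, hv, b, hb, rfl⟩ := exists_asm _ _ hc.1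
  have h1 := hc.2
  rw [SetLike.mem_coe, LinearMap.mem_ker, δ_asm _ _ _ _ _ hb] at h1
  obtain ⟨h2, h3, h4, -⟩ := asm_eq_zero hq h1
  rw [augΔ_asm] at h0
  obtain ⟨a', ha', h5⟩ := T.A1' ⟨ha, h2⟩ (congrArg Prod.fst h0)
  have h3' := eq_neg_of_add_eq_zero_left h3
  have h4' := eq_neg_of_add_eq_zero_left h4
  obtain ⟨t, ht, h6⟩ := T.A1' (c := u + v) ⟨Submodule.add_mem _ hu hv, by
    show DG.δ _ _ = 0
    rw [map_add, h3', h4', add_self_char_two K]⟩ (congrArg Prod.snd h0)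
  refine ⟨asm T.w q a' 0 t u, asm_mem _ _ ha' (Submodule.zero_mem _) ht
    (by rwa [sub_add_cancel]), ?_⟩
  rw [δ_asm _ _ _ _ _ hu, h5, h6, map_zero, zero_add, h3', add_right_comm, add_self_char_two K,
    zero_add, neg_eq_of_add_eq_zero_left (add_self_char_two K b)]

include T in
omit [CharP K 2] in
theorem F2_L : (X.cx (βF2 B q).L).Acyc :=
  (X.cx_ses (Bi.ses_prod _ _).L).acyc₂ (T.tw_L 1) (T.tw_L q)

include T hq in
omit [CharP K 2] in
theorem F2_R : (X.op.cx (βF2 B q).R).Acyc :=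
  (X.op.cx_ses (Bi.ses_prod _ _).R).acyc₂ (T.tw_R one_ne_zero) (T.tw_R hq)

theorem rel_Z2 {i : ℤ} {r : ℕ} (h : ((Θ T.homog hq).cone.cx (LM.top T.Δrep)).Rel (i + 1) r) :
    ((Θ T.homog hq).cone.cx ((Bi.reg K (Tri (βF2 B q))).Z (Θ T.homog hq).cone.op 1)).Rel i r := by
  have hp : ∀ g, 4 < Γ.deg g → T.p g := fun g hg => by
    by_contra h
    have := T.deg_np g h
    omega
  refine rel_of_aug (Bi.reg K (Tri (βF2 B q))) _ _ (Θ T.homogP hq).cone.op
    ((Θ T.homog hq).acyc_reg_L T.A3 T.F2_L) ((Θ T.homog hq).acyc_reg_R T.A2 (T.F2_R hq)) 6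
    (op_Z_eq_of_agree _ _ _ (d := 5) ?_ ?_ (by norm_num)) (LM.top T.Δrep) T.augΔ
    ⟨fun _ _ => trivial, fun x c hc => ?_⟩ ?_ ?_ ?_ ?_ h
  · rintro (g | g) hg <;> simp only [GD.dbl_deg_inl, GD.dbl_deg_inr] at hg
    · simp [MD.trunc_e_pos _ _ _ (hp g (by omega))]
    · simp [MD.trunc_e_pos _ _ _ (hp g (by omega))]
  · rintro (g | g) (g' | g') hg hg' <;> simp only [GD.dbl_deg_inl, GD.dbl_deg_inr] at hg hg'
    · simp [MD.trunc_D_pos _ _ _ (hp g (by omega)) (hp g' (by omega))]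
    · rfl
    · simp [Θ_φ, θ, MD.trunc_e_pos _ _ _ (hp g (by omega))]
    · simp [MD.trunc_D_pos _ _ _ (hp g (by omega)) (hp g' (by omega))]
  · ext
    · simp [augΔ_apply, Δrep_apply]
    · simp [augΔ_apply, Δrep_apply, χE_sc]
      ring
  · classical
    intro y _
    have h1 : ∀ t : K, (Pi.single T.g₀ (t • X.e T.g₀) : G → Ez K B) ∈
        (T.XP.op.cx (Bi.reg K (Ez K B)).R).Co (-1) := fun t =>
      MD.single_mem _ _ (by rw [GD.op_deg, T.deg_g₀]) trivial (by simp [T.XP_e_g₀, X.ee])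
    refine ⟨_, asm_mem T.homogP hq (h1 y.1) (h1 y.2) (Submodule.zero_mem _)
      (Submodule.zero_mem _), ?_⟩
    rw [augΔ_asm]
    simp [χE_apply, T.χ_g₀]
  · intro c hc h0
    refine T.cone_exact hq ⟨hc, ?_⟩ h0
    obtain ⟨a, ha, u, hu, v, hv, b, hb, rfl⟩ := exists_asm _ _ hc
    have hb0 : b = 0 := funext fun g => by
      by_cases hg : T.p g
      · have := T.deg_p g hg
        exact (hb g).1 (by rw [GD.op_deg]; omega)
      · exact trunc_op_zero X T.p _ _ hb hg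
    show DG.δ _ _ = 0
    rw [δ_asm _ _ _ _ _ hb, hb0, map_zero, add_zero, add_zero,
      show DG.δ _ a = 0 from (trunc_op_mem_Z X T.p _ _ T.deg_p ha).2,
      show DG.δ _ u = 0 from (trunc_op_mem_Z X T.p _ _ T.deg_p hu).2,
      show DG.δ _ v = 0 from (trunc_op_mem_Z X T.p _ _ T.deg_p hv).2]
    funext g
    rcases g with g | g
    · simp only [asm, Pi.zero_apply, smul_zero]
      rfl
    · rfl
  · rintro _ ⟨c, hc, rfl⟩
    obtain ⟨a, ha, u, hu, v, hv, b, hb, rfl⟩ := exists_asm _ _ hc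
    rw [δ_asm _ _ _ _ _ hb, augΔ_asm]
    simp [T.χE_δ, CharTwo.add_self_eq_zero]
  · intro m hm c hc
    refine T.cone_exact hq hc ?_
    rw [augΔ_apply, (hc.1 (.inl T.g₀)).1 (by rw [GD.op_deg, GD.dbl_deg_inl, T.deg_g₀]; omega)]
    simp

theorem Δ_δ_inl (c : G ⊕ G → K × K) (g : G) :
    ((Θ T.homog hq).cone.cx (LM.top T.Δrep)).δ c (.inl g) = 0 := by
  rw [MD.δ_apply, GD.sum_dbl]
  simp [Δrep_apply, χE_D]

theorem Δ_δ_inr (c : G ⊕ G → K × K) (g : G) :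
    ((Θ T.homog hq).cone.cx (LM.top T.Δrep)).δ c (.inr g) =
      (0, (1 + q ^ (-T.w g)) * T.χE (X.e g) * (c (.inl g)).1) := by
  rw [MD.δ_apply, GD.sum_dbl, GD.dbl_deg_inr, add_sub_cancel_right, Finset.sum_eq_single g]
  · simp [-zpow_neg, Δrep_apply, χE_D, Θ_φ, θ_self, add_mul]
  · intro b _ hb
    simp [Δrep_apply, Θ_φ, θ_ne _ _ _ hb.symm]
  · simp

theorem Δ_exact (hq' : ∀ n : ℤ, n ≠ 0 → q ^ n ≠ 1) {n : ℤ} {c : G ⊕ G → K × K}
    (hc : c ∈ ((Θ T.homog hq).cone.cx (LM.top T.Δrep)).Z n) (h1 : (c (.inl T.g₀)).1 = 0)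
    (h2 : (c (.inr T.g₀)).2 = 0) : c ∈ ((Θ T.homog hq).cone.cx (LM.top T.Δrep)).Bd n := by
  have hκ : ∀ g, T.w g ≠ 0 → 1 + q ^ (-T.w g) ≠ 0 := fun g hg h =>
    hq' (-T.w g) (by omega) (CharTwo.add_eq_zero.1 h).symm
  have hl : ∀ g, c (.inl g) = (T.χE (X.e g) * (c (.inl g)).1, 0) := fun g => by
    have := (hc.1 (.inl g)).2.1
    simpa [Δrep_apply] using this.symm
  have hr : ∀ g, c (.inr g) = (0, T.χE (X.e g) * (c (.inr g)).2) := fun g => by
    have := (hc.1 (.inr g)).2.1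
    simpa [Δrep_apply] using this.symm
  have hl0 : ∀ g, c (.inl g) = 0 := fun g => by
    rw [hl]
    refine Prod.ext ?_ rfl
    by_cases hw : T.w g = 0
    · by_cases hg : g = T.g₀
      · simp [hg, h1]
      · simp [χE_apply, T.χe g hw hg]
    · have := congrArg Prod.snd ((T.Δ_δ_inr hq c g).symm.trans (congrFun hc.2 (.inr g)))
      rw [mul_assoc] at this
      exact (mul_eq_zero.1 this).resolve_left (hκ g hw)
  refine ⟨Sum.elim (fun g => ((1 + q ^ (-T.w g))⁻¹ * (c (.inr g)).2, 0)) 0, ?_, ?_⟩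
  · rintro (g | g)
    · refine ⟨fun hg => ?_, ?_, trivial⟩
      · simp [(hc.1 (.inr g)).1 (by simp only [GD.dbl_deg_inl, GD.dbl_deg_inr] at hg ⊢; omega)]
      · have := congrArg Prod.snd (hr g)
        simp only at this
        simp only [LM.top_ρ, Δrep_apply, ChMap.cone_e_inl, Sum.elim_inl, TE.fst_mk, TE.snd_mk]
        refine Prod.ext ?_ (by simp)
        simp only
        rw [mul_left_comm, ← this]
    · simp
  · funext g
    rcases g with g | g
    · rw [Δ_δ_inl, hl0]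
    · rw [Δ_δ_inr, hr]
      refine Prod.ext rfl ?_
      simp only [Sum.elim_inl]
      by_cases hw : T.w g = 0
      · by_cases hg : g = T.g₀
        · simp [hg, h2]
        · simp [χE_apply, T.χe g hw hg]
      · rw [mul_mul_mul_comm, mul_inv_cancel₀ (hκ g hw), one_mul]

theorem Δ_van (hq' : ∀ n : ℤ, n ≠ 0 → q ^ n ≠ 1) {j : ℤ} (h1 : j ≠ 1) (h2 : j ≠ 2) :
    ((Θ T.homog hq).cone.cx (LM.top T.Δrep)).Van j := fun c hc =>
  T.Δ_exact hq hq' hc
    (by rw [(hc.1 _).1 (by rw [GD.dbl_deg_inl, T.deg_g₀]; omega)]; rfl)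
    (by rw [(hc.1 _).1 (by rw [GD.dbl_deg_inr, T.deg_g₀]; omega)]; rfl)

theorem Δ_one (hq' : ∀ n : ℤ, n ≠ 0 → q ^ n ≠ 1) :
    ((Θ T.homog hq).cone.cx (LM.top T.Δrep)).Rel 2 1 :=
  DG.rel_one_of_functional (LinearMap.snd K _ _ ∘ₗ LinearMap.proj (Sum.inr T.g₀)) fun c hc h =>
    T.Δ_exact hq hq' hc (by rw [(hc.1 _).1 (by rw [GD.dbl_deg_inl, T.deg_g₀]; omega)]; rfl) h

end Setup

end Crest.Agent.R186
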