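import Crest.Agent.R186.Main2
import Crest.Agent.R186.Core

/-!
The algebra `Λ` and the vanishing of the Tate self-extensions of `Z`.
-/

set_option autoImplicit false

namespace Crest.Agent.R186

open MulOpposite Module Ez

universe u

theorem MD.cx_congr {K G R R' Y : Type*} [Field K] {Γ : GD G} [Ring R] [Algebra K R] [Ring R']
    [Algebra K R'] [AddCommGroup Y] [Module K Y] {M : MD Γ R} {N : LM K R Y} {M' : MD Γ R'}
    {N' : LM K R' Y} (he : ∀ g, N.ρ (M.e g) = N'.ρ (M'.e g))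
    (hD : ∀ g g', N.ρ (M.D g g') = N'.ρ (M'.D g g')) (hW : N.W = N'.W) : M.cx N = M'.cx N' := by
  have h1 : (M.cx N).Co = (M'.cx N').Co := by
    funext n
    ext c
    simp only [MD.mem_Co, he, hW]
  have h2 : (M.cx N).δ = (M'.cx N').δ := by
    refine LinearMap.ext fun c => funext fun g => ?_
    simp only [MD.δ_apply, hD]
  revert h1 h2
  generalize M.cx N = A
  generalize M'.cx N' = A'
  intro h1 h2
  cases A
  cases A'
  cases h1
  cases h2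
  rfl

section sigma

variable {K G E Y : Type*} [Field K] {Γ : GD G} [Ring E] [Algebra K E] [AddCommGroup Y]
  [Module K Y]

/-- the total differential of a double array -/
def Bi.tot (β : Bi K E Eᵐᵒᵖ Y) (X : MD Γ E) : (G → G → Y) →ₗ[K] (G → G → Y) :=
  X.dl (piRep β.l G) + (X.op.dl β.r).compLeft G

theorem Bi.tot_apply (β : Bi K E Eᵐᵒᵖ Y) (X : MD Γ E) (t : G → G → Y) (g g'' : G) :
    β.tot X t g g'' = ∑ g' ∈ Γ.fib (Γ.deg g - 1), β.l (X.D g g') (t g' g'') +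
      ∑ g' ∈ Γ.fib (Γ.deg g'' + 1), β.r (op (X.D g' g'')) (t g g') := by
  have := X.op_δ_apply β.R (t g) g''
  simp only [MD.cx_δ, LM.top_ρ] at this
  simp [Bi.tot, MD.dl_apply X, Finset.sum_apply, this]

theorem Bi.tot_tot [CharP K 2] (β : Bi K E Eᵐᵒᵖ Y) (X : MD Γ E) (t : G → G → Y) :
    β.tot X (β.tot X t) = 0 := by
  have h1 : (X.op.dl β.r).compLeft G (X.dl (piRep β.l G) t) =
      X.dl (piRep β.l G) ((X.op.dl β.r).compLeft G t) := by
    funext g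
    simp only [LinearMap.compLeft_apply, Function.comp_apply, MD.dl_apply X, map_sum, β.l_dl]
  have h2 : (X.op.dl β.r).compLeft G ((X.op.dl β.r).compLeft G t) = 0 :=
    funext fun g => X.op.dl_dl β.r (t g)
  simp only [Bi.tot, LinearMap.add_apply, map_add, X.dl_dl, h1, h2, zero_add, add_zero]
  exact add_self_char_two K _

theorem Bi.l_tot (β : Bi K E Eᵐᵒᵖ Y) (X : MD Γ E) {t : G → G → Y}
    (ht : ∀ g g', β.l (X.e g) (t g g') = t g g') (g g' : G) :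
    β.l (X.e g) (β.tot X t g g') = β.tot X t g g' := by
  simp only [Bi.tot_apply, map_add, map_sum, ← rep_mul, X.eD, β.comm, ht]

theorem Bi.r_tot (β : Bi K E Eᵐᵒᵖ Y) (X : MD Γ E) {t : G → G → Y}
    (ht : ∀ g g', β.r (op (X.e g')) (t g g') = t g g') (g g' : G) :
    β.r (op (X.e g')) (β.tot X t g g') = β.tot X t g g' := by
  simp only [Bi.tot_apply, map_add, map_sum, ← rep_mul, ← op_mul, X.De, ← β.comm, ht]

end sigma

variable {K B : Type u} [Field K] [Ring B] [Algebra K B] {G : Type} {Γ : GD G}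
  [FiniteDimensional K B]

/-- the space underlying `I = Hom_K(DE, U)` -/
def IT (K B : Type u) [Field K] [Ring B] [Algebra K B] : Type u :=
  (Ez K B →ₗ[K] K) →ₗ[K] LinearMap.ker (τ K B)

noncomputable instance : AddCommGroup (IT K B) :=
  inferInstanceAs (AddCommGroup ((Ez K B →ₗ[K] K) →ₗ[K] LinearMap.ker (τ K B)))
noncomputable instance : Module K (IT K B) :=
  inferInstanceAs (Module K ((Ez K B →ₗ[K] K) →ₗ[K] LinearMap.ker (τ K B)))
instance : FiniteDimensional K (IT K B) :=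
  inferInstanceAs (FiniteDimensional K ((Ez K B →ₗ[K] K) →ₗ[K] LinearMap.ker (τ K B)))

/-- the bimodule `I` -/
noncomputable def βI (K B : Type u) [Field K] [Ring B] [Algebra K B] [FiniteDimensional K B] :
    Bi K (Ez K B) (Ez K B)ᵐᵒᵖ (IT K B) := (βU K B).cov

/-- the projection `I → U` -/
noncomputable def πI (K B : Type u) [Field K] [Ring B] [Algebra K B] [FiniteDimensional K B] :
    IT K B →ₗ[K] LinearMap.ker (τ K B) := (βU K B).covπ

/-- its section -/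
noncomputable def secI (K B : Type u) [Field K] [Ring B] [Algebra K B] :
    LinearMap.ker (τ K B) →ₗ[K] IT K B := covSec K _ _

theorem hom_πI : Bi.Hom (βI K B) (βU K B) (πI K B) := (βU K B).hom_covπ

theorem πI_sec (y : LinearMap.ker (τ K B)) : πI K B (secI K B y) = y := (βU K B).covπ_sec y

/-- the bimodule `E₁ × E₂ × I` -/
noncomputable abbrev βF3 (B : Type u) [Ring B] [Algebra K B] [FiniteDimensional K B] (q : K) :
    Bi K (Ez K B) (Ez K B)ᵐᵒᵖ ((Ez K B × Ez K B) × IT K B) :=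
  (βF2 B q).prod (βI K B)

variable (tr0 : ∀ b : B, LinearMap.trace K B (LinearMap.mulRight K b) = 0) {q : K}

/-- the map `E₁ × E₂ × I → U` -/
noncomputable def Ξ (q : K) : (Ez K B × Ez K B) × IT K B →ₗ[K] LinearMap.ker (τ K B) :=
  ((ξ tr0 1).coprod (ξ tr0 q)).coprod (πI K B)

theorem Ξ_apply (x : (Ez K B × Ez K B) × IT K B) :
    Ξ tr0 q x = ξ tr0 1 x.1.1 + ξ tr0 q x.1.2 + πI K B x.2 := rfl

theorem hom_Ξ (hq : q ≠ 0) : Bi.Hom (βF3 B q) (βU K B) (Ξ tr0 q) := by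
  constructor
  · intro a x
    simp only [Ξ_apply, map_add, ← (hom_ξ tr0 one_ne_zero).l, ← (hom_ξ tr0 hq).l,
      ← hom_πI.l]
    rfl
  · intro a x
    simp only [Ξ_apply, map_add, ← (hom_ξ tr0 one_ne_zero).r, ← (hom_ξ tr0 hq).r,
      ← hom_πI.r]
    rfl

theorem Ξ_surj (y : LinearMap.ker (τ K B)) : ∃ x, Ξ tr0 q x = y :=
  ⟨(0, secI K B y), by simp [Ξ_apply, πI_sec]⟩

/-- the bimodule `F` -/
noncomputable def βF (hq : q ≠ 0) : Bi K (Ez K B) (Ez K B)ᵐᵒᵖ (LinearMap.ker (Ξ tr0 q)) :=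
  (βF3 B q).sub _ (hom_Ξ tr0 hq).ker_l (hom_Ξ tr0 hq).ker_r

theorem ses_F (hq : q ≠ 0) : Bi.SES (βF tr0 hq) (βF3 B q) (βU K B)
    (LinearMap.ker (Ξ tr0 q)).subtype (Ξ tr0 q) :=
  Bi.ses_ker (hom_Ξ tr0 hq) (Ξ_surj tr0) _ _

theorem hom_F32 : Bi.Hom (βF3 B q) (βF2 B q) (LinearMap.fst K _ _) :=
  ⟨fun _ _ => rfl, fun _ _ => rfl⟩

/-- `Λ → Tri F'` -/
noncomputable def f3 (hq : q ≠ 0) : Tri (βF tr0 hq) →ₐ[K] Tri (βF3 B q) :=
  TE.map (ses_F tr0 hq).hf.tri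

/-- `Tri F' → Tri F''` -/
noncomputable def f32 : Tri (βF3 B q) →ₐ[K] Tri (βF2 B q) := TE.map hom_F32.tri

@[simp] theorem fst_f3 (hq : q ≠ 0) (x : Tri (βF tr0 hq)) : (f3 tr0 hq x).fst = x.fst :=
  TE.fst_map _ _
@[simp] theorem snd_f3 (hq : q ≠ 0) (x : Tri (βF tr0 hq)) : (f3 tr0 hq x).snd = x.snd.1 :=
  TE.snd_map _ _
@[simp] theorem fst_f32 (x : Tri (βF3 B q)) : (f32 x).fst = x.fst := TE.fst_map _ _
@[simp] theorem snd_f32 (x : Tri (βF3 B q)) : (f32 x).snd = x.snd.1 := TE.snd_map _ _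

theorem ses_Λ (hq : q ≠ 0) : Bi.SES (Bi.reg K (Tri (βF tr0 hq))) (triBi (f3 tr0 hq))
    ((βU K B).ba (βF tr0 hq)) (f3 tr0 hq).toLinearMap (Ξ tr0 q ∘ₗ TE.sndL _) := by
  refine ⟨⟨fun a y => map_mul (f3 tr0 hq) _ _, fun a y => map_mul (f3 tr0 hq) _ _⟩,
    ⟨fun a y => ?_, fun a y => ?_⟩,
    fun y h => ?_, fun y => ?_, fun y h => ⟨TE.mk _ y.fst ⟨y.snd, h⟩, ?_⟩, fun y => ?_⟩
  · have h1 : Ξ tr0 q a.snd.1 = 0 := a.snd.2
    simp only [triBi_l, LinearMap.comp_apply, TE.sndL_apply, TE.snd_mul, map_add, Bi.tri_l,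
      Bi.tri_r, (hom_Ξ tr0 hq).l, (hom_Ξ tr0 hq).r, fst_f3, snd_f3, h1, map_zero, add_zero,
      Bi.ba_l]
  · have h1 : Ξ tr0 q (unop a).snd.1 = 0 := (unop a).snd.2
    simp only [triBi_r, LinearMap.comp_apply, TE.sndL_apply, TE.snd_mul, map_add, Bi.tri_l,
      Bi.tri_r, (hom_Ξ tr0 hq).l, (hom_Ξ tr0 hq).r, fst_f3, snd_f3, h1, map_zero, zero_add,
      Bi.ba_r, unop_op]
  · refine TE.ext ?_ (Subtype.ext ?_)
    · simpa using congrArg TE.fst h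
    · simpa using congrArg TE.snd h
  · simp only [AlgHom.toLinearMap_apply, LinearMap.comp_apply, TE.sndL_apply, snd_f3]
    exact y.snd.2
  · refine TE.ext ?_ ?_ <;> simp
  · obtain ⟨x, hx⟩ := Ξ_surj tr0 (q := q) y
    exact ⟨TE.mk _ 0 x, hx⟩

theorem ses_Λ' (hq : q ≠ 0) : Bi.SES ((βI K B).ba (βF tr0 hq)) (triBi (f3 tr0 hq))
    (triBi (f32.comp (f3 tr0 hq))) (TE.inr _ ∘ₗ LinearMap.inr K _ _) f32.toLinearMap := by
  refine ⟨⟨fun a y => ?_, fun a y => ?_⟩, 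
    ⟨fun a y => map_mul f32 _ _, fun a y => map_mul f32 _ _⟩,
    fun y h => congrArg (fun x => x.snd.2) h, fun y => ?_, fun y h => ⟨y.snd.2, ?_⟩,
    fun y => ⟨TE.mk _ y.fst (y.snd, 0), ?_⟩⟩
  · refine TE.ext ?_ ?_ <;> simp [Prod.ext_iff]
  · refine TE.ext ?_ ?_ <;> simp [Prod.ext_iff]
  · refine TE.ext ?_ ?_ <;> simp
  · refine TE.ext ?_ (Prod.ext ?_ rfl)
    · simpa using (congrArg TE.fst h).symm
    · simpa using (congrArg TE.snd h).symm
  · refine TE.ext ?_ ?_ <;> simp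

namespace Setup

variable {X : MD Γ (Ez K B)} (T : Setup K B q Γ X)

/-- the homotopy with entries in `U` -/
noncomputable def sU (g g' : G) : LinearMap.ker (τ K B) := ⟨T.s g g', mem_U tr0 (T.s_lin g g')⟩

/-- its lift to `I` -/
noncomputable def sI (g g' : G) : IT K B :=
  (βI K B).l (X.e g) ((βI K B).r (op (X.e g')) (secI K B (T.sU tr0 g g')))

theorem covπ_sI (g g' : G) : πI K B (T.sI tr0 g g') = T.sU tr0 g g' := by
  rw [sI, hom_πI.l, hom_πI.r, πI_sec]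
  refine Subtype.ext (LinearMap.ext fun y => ?_)
  simp [sU, T.s_e, T.s_e']

open Classical in
/-- the matrix of the map `X → F' X` -/
noncomputable def φ3 (g g' : G) : (Ez K B × Ez K B) × IT K B :=
  ((θ X T.w 1 g g', θ X T.w q g g'),
    if Γ.deg g = Γ.deg g' then (βI K B).tot X (T.sI tr0) g g' else 0)

variable [CharP K 2] (hq : q ≠ 0)

include hq in
theorem Ξ_φ3 (g g' : G) : Ξ tr0 q (T.φ3 tr0 g g') = 0 := by
  rw [Ξ_apply, φ3]
  by_cases h : Γ.deg g = Γ.deg g'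
  · simp only [if_pos h, Bi.tot_apply, map_add, map_sum, hom_πI.l,
      hom_πI.r, covπ_sI]
    refine Subtype.ext (LinearMap.ext fun y => ?_)
    have h1 := T.s_rel g g' y h
    simp only [Submodule.coe_add, Submodule.coe_sum, LinearMap.add_apply, LinearMap.sum_apply,
      ξ_apply, βU_l, βU_r, unop_op, sU, ← h, h1]
    by_cases h2 : g = g'
    · subst h2
      have h3 : q ^ (-T.w g - 1) = q ^ (-T.w g) * q⁻¹ := zpow_sub_one₀ hq _
      rw [if_pos rfl, θ_self, θ_self, h3]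
      ext
      · simp [-zpow_neg, add_smul, add_self_char_two K]
      · simp [-zpow_neg, add_smul, smul_smul, add_self_char_two K, T.e_snd]
    · simp [h2, θ_ne _ _ _ h2]
  · have h2 : g ≠ g' := fun h2 => h (by rw [h2])
    simp [h, θ_ne _ _ _ h2]

/-- the chain map `X → F X` -/
noncomputable def Φ : ChMap X (βF tr0 hq) where
  φ g g' := ⟨T.φ3 tr0 g g', T.Ξ_φ3 tr0 hq g g'⟩
  l_e g g' := by
    refine Subtype.ext (Prod.ext ((Θ T.homog hq).l_e g g') ?_)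
    show (βI K B).l _ (T.φ3 tr0 g g').2 = (T.φ3 tr0 g g').2
    simp only [φ3]
    split_ifs
    · exact Bi.l_tot _ X (fun g g' => by rw [sI, ← rep_mul, X.ee]) g g'
    · exact map_zero _
  r_e g g' := by
    refine Subtype.ext (Prod.ext ((Θ T.homog hq).r_e g g') ?_)
    show (βI K B).r _ (T.φ3 tr0 g g').2 = (T.φ3 tr0 g g').2
    simp only [φ3]
    split_ifs
    · exact Bi.r_tot _ X (fun g g' => by rw [sI, ← Bi.comm, ← rep_mul, ← op_mul, X.ee]) g g'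
    · exact map_zero _
  chain g g'' h := by
    refine Subtype.ext (Prod.ext ?_ ?_)
    · simp only [Submodule.coe_add, Submodule.coe_sum, Prod.fst_add, Prod.fst_sum]
      exact (Θ T.homog hq).chain g g'' h
    · simp only [Submodule.coe_add, Submodule.coe_sum, Prod.snd_add, Prod.snd_sum]
      have h1 := congrFun (congrFun ((βI K B).tot_tot X (T.sI tr0)) g) g''
      rw [Bi.tot_apply] at h1
      refine Eq.trans ?_ h1
      congr 1
      · refine Finset.sum_congr rfl fun g' hg' => ?_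
        rw [Γ.mem_fib] at hg'
        show (βI K B).l _ (T.φ3 tr0 g' g'').2 = _
        rw [φ3, if_pos (by omega)]
      · refine Finset.sum_congr rfl fun g' hg' => ?_
        rw [Γ.mem_fib] at hg'
        show (βI K B).r _ (T.φ3 tr0 g g').2 = _
        rw [φ3, if_pos (by omega)]

include T in
omit [CharP K 2] in
theorem F_L : (X.cx (βF tr0 hq).L).Acyc :=
  (X.cx_ses (ses_F tr0 hq).L).acyc₁ ((X.cx_ses (Bi.ses_prod _ _).L).acyc₂ T.F2_L T.I_L) T.U_L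

include T in
omit [CharP K 2] in
theorem F_R : (X.op.cx (βF tr0 hq).R).Acyc :=
  (X.op.cx_ses (ses_F tr0 hq).R).acyc₁
    ((X.op.cx_ses (Bi.ses_prod _ _).R).acyc₂ (T.F2_R hq) T.I_R) T.U_R

theorem f2_e (g : G ⊕ G) :
    f32 (f3 tr0 hq ((T.Φ tr0 hq).cone.e g)) = (Θ T.homog hq).cone.e g := by
  rcases g with g | g <;> refine TE.ext ?_ ?_ <;> simp

theorem f2_D (g g' : G ⊕ G) :
    f32 (f3 tr0 hq ((T.Φ tr0 hq).cone.D g g')) = (Θ T.homog hq).cone.D g g' := by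
  rcases g with g | g <;> rcases g' with g' | g' <;> refine TE.ext ?_ ?_ <;> simp
  rfl

theorem cx_Z2 : (T.Φ tr0 hq).cone.cx ((triBi (f32.comp (f3 tr0 hq))).Z (T.Φ tr0 hq).cone.op 1) =
    (Θ T.homog hq).cone.cx ((Bi.reg K (Tri (βF2 B q))).Z (Θ T.homog hq).cone.op 1) := by
  refine MD.cx_congr (fun g => ?_) (fun g g' => ?_) ?_
  · rw [← T.f2_e tr0 hq]
    rfl
  · rw [← T.f2_D tr0 hq]
    rfl
  · rw [Bi.Z_W, Bi.Z_W]
    congr 1
    refine MD.cx_congr (fun g => ?_) (fun g g' => ?_) rfl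
    · rw [MD.op_e, MD.op_e, ← T.f2_e tr0 hq]
      rfl
    · rw [MD.op_D, MD.op_D, ← T.f2_D tr0 hq]
      rfl

theorem rel_Z3 {i : ℤ} {r : ℕ} (h : ((Θ T.homog hq).cone.cx (LM.top T.Δrep)).Rel (i + 1) r) :
    ((T.Φ tr0 hq).cone.cx ((triBi (f3 tr0 hq)).Z (T.Φ tr0 hq).cone.op 1)).Rel i r := by
  have S := (T.Φ tr0 hq).cone.cx_ses ((ses_Λ' tr0 hq).Z (T.Φ tr0 hq).cone.op 1
    (((T.Φ tr0 hq).ba_R _).acyc_iff.2 T.I_R _))
  refine S.rel₂_of_rel₃ (((T.Φ tr0 hq).ba_Z _ 1).acyc_iff.2 (T.I_Z 1) _) ?_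
  rw [cx_Z2]
  exact T.rel_Z2 hq h

theorem exists_cocycle :
    ∃ c ∈ ((T.Φ tr0 hq).cone.cx ((triBi (f3 tr0 hq)).Z (T.Φ tr0 hq).cone.op 1)).Z 1,
      ((Ξ tr0 q ∘ₗ TE.sndL _).compLeft (G ⊕ G)).compLeft (G ⊕ G) c ∉
        ((T.Φ tr0 hq).cone.cx (((βU K B).ba (βF tr0 hq)).Z (T.Φ tr0 hq).cone.op 1)).Bd 1 := by
  obtain ⟨c, hc, hc'⟩ := ((T.Φ tr0 hq).ba_Z (Bi.reg K (Ez K B)) 1).exists_Z (n := 1) (taut_mem X)
  have h1 : Bi.Hom ((Bi.reg K (Ez K B)).ba (βF tr0 hq)) (triBi (f3 tr0 hq))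
      (TE.inr _ ∘ₗ LinearMap.inl K _ _ ∘ₗ LinearMap.inl K _ _) :=
    ⟨fun a y => by refine TE.ext ?_ ?_ <;> simp, fun a y => by
      refine TE.ext ?_ ?_ <;> simp [sc_one]⟩
  refine ⟨_, ((T.Φ tr0 hq).cone.cx_hom (h1.Z _ 1)).mem_Z hc, fun h => ?_⟩
  refine T.taut_not_mem tr0 (fun g g' y => ?_) (((T.Φ tr0 hq).ba_Z (βU K B) 1).toMap.mem_Bd h)
  rw [← hc']
  simp [Ξ_apply, sc_one]

theorem core (hq' : ∀ n : ℤ, n ≠ 0 → q ^ n ≠ 1) :
    Core K (Tri (βF tr0 hq)) Γ.dbl (T.Φ tr0 hq).cone := by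
  have hch := (T.Φ tr0 hq).acyc_reg_R T.A2 (T.F_R tr0 hq)
  refine ⟨inferInstance, hch, (T.Φ tr0 hq).acyc_reg_L T.A3 (T.F_L tr0 hq), ?_,
    T.χE.comp (Tri.pa _), .inl T.g₀, T.deg_g₀, T.χ_g₀, ?_⟩
  · have S := (T.Φ tr0 hq).cone.cx_ses ((ses_Λ tr0 hq).Z (T.Φ tr0 hq).cone.op 1 (hch _))
    have I := (T.Φ tr0 hq).ba_Z (βU K B) 1
    have h2 : ∀ j, j ≠ 0 → j ≠ 1 →
        ((T.Φ tr0 hq).cone.cx ((triBi (f3 tr0 hq)).Z (T.Φ tr0 hq).cone.op 1)).Van j :=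
      fun j h0 h1 => DG.rel_zero_iff.1
        (T.rel_Z3 tr0 hq ((T.Δ_van hq hq' (by omega) (by omega)).rel 0))
    have h3 : ∀ j, j ≠ 1 → j ≠ -2 → ((T.Φ tr0 hq).cone.cx
        (((βU K B).ba (βF tr0 hq)).Z (T.Φ tr0 hq).cone.op 1)).Van j :=
      fun j h0 h1 => I.van_iff.2 (T.U_van (by omega) (by omega))
    obtain ⟨c, hc, hc'⟩ := T.exists_cocycle tr0 hq
    have h4 := S.van_of_ne_zero (n := 1) (T.rel_Z3 tr0 hq (T.Δ_one hq hq'))
      (I.rel_iff.2 T.U_one) hc hc' (h3 _ (by norm_num) (by norm_num))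
      (h2 _ (by norm_num) (by norm_num))
    intro i h0 h1
    by_cases h5 : i = 1
    · rw [h5]
      exact h4.1
    · by_cases h6 : i = 2
      · rw [h6]
        exact h4.2
      · exact S.van₁' (h3 _ (by omega) (by omega)) (h2 _ h0 h5)
  · rintro (g | g) (g' | g') <;> simp [χE_D]

end Setup

end Crest.Agent.R186
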