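import Crest.Agent.R186.Setup

/-!
The complete resolution `X` over `E = B[z]/(z²)` attached to data `S : SD K B ΓP ΓQ`.
-/

set_option autoImplicit false

namespace Crest.Agent.R186

/-- a grading with finite fibres -/
noncomputable def GD.ofFinite {G : Type*} (deg : G → ℤ) (h : ∀ n, {g | deg g = n}.Finite) : GD G where
  deg := deg
  fib n := (h n).toFinset
  mem_fib g n := by simp

@[simp] theorem GD.ofFinite_deg {G : Type*} (deg : G → ℤ) (h : ∀ n, {g | deg g = n}.Finite) :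
    (GD.ofFinite deg h).deg = deg := rfl

theorem GD.finite_range {G : Type*} (Γ : GD G) (a b : ℤ) :
    {g | a ≤ Γ.deg g ∧ Γ.deg g ≤ b}.Finite := by
  refine ((Set.finite_Icc a b).biUnion fun n _ => (Γ.fib n).finite_toSet).subset ?_
  intro g hg
  exact Set.mem_biUnion (x := Γ.deg g) hg (by simp)

namespace SD

variable {K B : Type*} [Field K] [Ring B] [Algebra K B] {GP GQ : Type} {ΓP : GD GP} {ΓQ : GD GQ}
  (S : SD K B ΓP ΓQ)

/-- degrees of the generators of `X` -/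
def xdeg : (GP × ℕ) ⊕ (GQ × ℕ) → ℤ
  | .inl (a, l) => ΓP.deg a + l + 1
  | .inr (a, l) => ΓQ.deg a - l + S.d

@[simp] theorem xdeg_inl (a : GP) (l : ℕ) : S.xdeg (.inl (a, l)) = ΓP.deg a + l + 1 := rfl
@[simp] theorem xdeg_inr (a : GQ) (l : ℕ) : S.xdeg (.inr (a, l)) = ΓQ.deg a - l + S.d := rfl

theorem xdeg_finite (n : ℤ) : {g | S.xdeg g = n}.Finite := by
  refine ((((ΓP.finite_range 0 n).prod (Set.finite_Iic n.toNat)).image Sum.inl).union
    (((ΓQ.finite_range (n - S.d) 0).prod (Set.finite_Iic (S.d - n).toNat)).image Sum.inr)).subset ?_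
  rintro (⟨a, l⟩ | ⟨a, l⟩) hg
  · simp only [Set.mem_ofPred_eq, xdeg_inl] at hg
    have := S.degP a
    exact Or.inl ⟨(a, l), ⟨⟨this, by simp only; omega⟩, by simp only [Set.mem_Iic]; omega⟩, rfl⟩
  · simp only [Set.mem_ofPred_eq, xdeg_inr] at hg
    have := S.degQ a
    exact Or.inr ⟨(a, l), ⟨⟨by simp only; omega, this⟩, by simp only [Set.mem_Iic]; omega⟩, rfl⟩

/-- the grading of `X` -/
noncomputable def ΓX : GD ((GP × ℕ) ⊕ (GQ × ℕ)) := GD.ofFinite S.xdeg S.xdeg_finite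

@[simp] theorem ΓX_deg : S.ΓX.deg = S.xdeg := rfl

/-- idempotents -/
def xe : (GP × ℕ) ⊕ (GQ × ℕ) → Ez K B
  | .inl (a, _) => TE.mk _ (S.P.e a) 0
  | .inr (a, _) => TE.mk _ (S.Q.e a) 0

open Classical in
/-- differential -/
noncomputable def xD : (GP × ℕ) ⊕ (GQ × ℕ) → (GP × ℕ) ⊕ (GQ × ℕ) → Ez K B
  | .inl (a, l), .inl (a', l') =>
      TE.mk _ (if l = l' then S.P.D a a' else 0) (if a = a' ∧ l = l' + 1 then S.P.e a else 0)
  | .inr (a, l), .inr (a', l') =>
      TE.mk _ (if l = l' then S.Q.D a a' else 0) (if a = a' ∧ l + 1 = l' then S.Q.e a else 0)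
  | .inl (a, l), .inr (a', l') => TE.mk _ 0 (if l = 0 ∧ l' = 0 then S.α a a' else 0)
  | .inr _, .inl _ => 0

theorem sum_fib_inl {A : Type*} [AddCommMonoid A] (n : ℤ) (l : ℕ)
    (F : (GP × ℕ) ⊕ (GQ × ℕ) → A) (hF : ∀ g, (∀ a, g ≠ .inl (a, l)) → F g = 0) :
    ∑ g ∈ S.ΓX.fib n, F g = ∑ a ∈ ΓP.fib (n - l - 1), F (.inl (a, l)) := by
  rw [MD.sum_fib_pull (Γ₀ := ΓP) (ι := fun a => Sum.inl (a, l)) (k := -l - 1)
    (fun a b h => by simpa using h) (fun a => by simp) n F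
    (fun g _ hg => hF g fun a h => hg ⟨a, h.symm⟩), show n + (-l - 1) = n - l - 1 by ring]

theorem sum_fib_inr {A : Type*} [AddCommMonoid A] (n : ℤ) (l : ℕ)
    (F : (GP × ℕ) ⊕ (GQ × ℕ) → A) (hF : ∀ g, (∀ a, g ≠ .inr (a, l)) → F g = 0) :
    ∑ g ∈ S.ΓX.fib n, F g = ∑ a ∈ ΓQ.fib (n + l - S.d), F (.inr (a, l)) := by
  rw [MD.sum_fib_pull (Γ₀ := ΓQ) (ι := fun a => Sum.inr (a, l)) (k := l - S.d)
    (fun a b h => by simpa using h) (fun a => by simp) n F
    (fun g _ hg => hF g fun a h => hg ⟨a, h.symm⟩), show n + (l - S.d) = n + l - S.d by ring]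

theorem sum_fib_single {A : Type*} [AddCommMonoid A] (n : ℤ) (g₀ : (GP × ℕ) ⊕ (GQ × ℕ))
    (F : (GP × ℕ) ⊕ (GQ × ℕ) → A) (hF : ∀ g, g ≠ g₀ → F g = 0) (h : S.xdeg g₀ = n) :
    ∑ g ∈ S.ΓX.fib n, F g = F g₀ :=
  Finset.sum_eq_single_of_mem g₀ (by simpa using h) fun g _ hg => hF g hg

theorem add_self_char2 (K : Type*) {V : Type*} [Field K] [CharP K 2] [AddCommGroup V] [Module K V]
    (x : V) : x + x = 0 := by
  rw [← two_smul K x, (CharTwo.two_eq_zero : (2 : K) = 0), zero_smul]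

theorem x_sq [CharP K 2] (g g'' : (GP × ℕ) ⊕ (GQ × ℕ)) (h : S.ΓX.deg g'' + 2 = S.ΓX.deg g) :
    ∑ g' ∈ S.ΓX.fib (S.ΓX.deg g - 1), S.xD g g' * S.xD g' g'' = 0 := by
  classical
  rcases g with ⟨a, l⟩ | ⟨a, l⟩ <;> rcases g'' with ⟨a'', l''⟩ | ⟨a'', l''⟩ <;>
    simp only [ΓX_deg, xdeg_inl, xdeg_inr] at h ⊢ <;> ext <;>
    simp only [TE.fst_sum, TE.snd_sum, TE.fst_mul, TE.snd_mul, TE.fst_zero, TE.snd_zero,
      Bi.reg_l, Bi.reg_r, lrep_apply, rrep_apply, MulOpposite.unop_op, Finset.sum_add_distrib]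
  · rw [S.sum_fib_inl _ l]
    · by_cases hl : l = l''
      · subst hl
        simp only [xD, TE.fst_mk, if_true]
        rw [show ΓP.deg a + l + 1 - 1 - l - 1 = ΓP.deg a - 1 by ring]
        exact S.P.sq a a'' (by omega)
      · simp [xD, hl]
    · rintro (⟨a', l'⟩ | ⟨a', l'⟩) hg
      · have : l ≠ l' := fun h => hg a' (by rw [h])
        simp [xD, this]
      · simp [xD]
  · by_cases hl : l = l'' + 1
    · subst hl
      rw [S.sum_fib_single _ (.inl (a'', l'' + 1)), S.sum_fib_single _ (.inl (a, l''))]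
      · simp [xD, S.P.De, S.P.eD, add_self_char2 K]
      · rintro (⟨a', l'⟩ | ⟨a', l'⟩) hg
        · have : ¬ (a = a' ∧ l'' = l') := fun h => hg (by rw [h.1, h.2])
          simp [xD, this]
        · simp [xD]
      · simp only [xdeg_inl]; push_cast; ring
      · rintro (⟨a', l'⟩ | ⟨a', l'⟩) hg
        · have : ¬ (a' = a'' ∧ l' = l'' + 1) := fun h => hg (by rw [h.1, h.2])
          simp [xD, this]
        · simp [xD]
      · simp only [xdeg_inl]; push_cast at h ⊢; omega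
    · rw [Finset.sum_eq_zero, Finset.sum_eq_zero, add_zero]
      · rintro (⟨a', l'⟩ | ⟨a', l'⟩) _
        · simp only [xD, TE.fst_mk, TE.snd_mk]
          split_ifs with h1 h2 <;> first | omega | simp
        · simp [xD]
      · rintro (⟨a', l'⟩ | ⟨a', l'⟩) _
        · simp only [xD, TE.fst_mk, TE.snd_mk]
          split_ifs with h1 h2 <;> first | omega | simp
        · simp [xD]
  · refine Finset.sum_eq_zero ?_
    rintro (⟨a', l'⟩ | ⟨a', l'⟩) _ <;> simp [xD]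
  · by_cases hl : l = 0 ∧ l'' = 0
    · obtain ⟨rfl, rfl⟩ := hl
      rw [S.sum_fib_inl _ 0, S.sum_fib_inr _ 0]
      · simp only [xD, TE.fst_mk, TE.snd_mk, and_self, if_true]
        rw [show ΓP.deg a + (0 : ℕ) + 1 - 1 - (0 : ℕ) - 1 = ΓP.deg a - 1 by push_cast; ring,
          show ΓP.deg a + (0 : ℕ) + 1 - 1 + (0 : ℕ) - S.d = ΓP.deg a - S.d by push_cast; ring,
          S.α_chain a a'' (by push_cast at h; omega), add_self_char2 K]
      · rintro (⟨a', l'⟩ | ⟨a', l'⟩) hg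
        · simp [xD]
        · have : l' ≠ 0 := fun h => hg a' (by rw [h])
          simp [xD, this]
      · rintro (⟨a', l'⟩ | ⟨a', l'⟩) hg
        · have : l' ≠ 0 := fun h => hg a' (by rw [h])
          simp [xD, this]
        · simp [xD]
    · rw [Finset.sum_eq_zero, Finset.sum_eq_zero, add_zero]
      · rintro (⟨a', l'⟩ | ⟨a', l'⟩) _
        · simp [xD]
        · simp only [xD, TE.fst_mk, TE.snd_mk]
          split_ifs with h1 h2 <;> first | omega | simp
      · rintro (⟨a', l'⟩ | ⟨a', l'⟩) _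
        · simp only [xD, TE.fst_mk, TE.snd_mk]
          split_ifs with h1 h2 <;> first | omega | simp
        · simp [xD]
  · refine Finset.sum_eq_zero ?_
    rintro (⟨a', l'⟩ | ⟨a', l'⟩) _ <;> simp [xD]
  · rw [Finset.sum_eq_zero, Finset.sum_eq_zero, add_zero] <;>
      rintro (⟨a', l'⟩ | ⟨a', l'⟩) _ <;> simp [xD]
  · rw [S.sum_fib_inr _ l]
    · by_cases hl : l = l''
      · subst hl
        simp only [xD, TE.fst_mk, if_true]
        rw [show ΓQ.deg a - l + S.d - 1 + l - S.d = ΓQ.deg a - 1 by ring]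
        exact S.Q.sq a a'' (by omega)
      · simp [xD, hl]
    · rintro (⟨a', l'⟩ | ⟨a', l'⟩) hg
      · simp [xD]
      · have : l ≠ l' := fun h => hg a' (by rw [h])
        simp [xD, this]
  · by_cases hl : l'' = l + 1
    · subst hl
      rw [S.sum_fib_single _ (.inr (a'', l)), S.sum_fib_single _ (.inr (a, l + 1))]
      · simp [xD, S.Q.De, S.Q.eD, add_self_char2 K]
      · rintro (⟨a', l'⟩ | ⟨a', l'⟩) hg
        · simp [xD]
        · have : ¬ (a = a' ∧ l + 1 = l') := fun h => hg (by rw [h.1, h.2])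
          simp [xD, this]
      · simp only [xdeg_inr]; push_cast; ring
      · rintro (⟨a', l'⟩ | ⟨a', l'⟩) hg
        · simp [xD]
        · have : ¬ (a' = a'' ∧ l' = l) := fun h => hg (by rw [h.1, h.2])
          simp [xD, this]
      · simp only [xdeg_inr]; push_cast at h ⊢; omega
    · rw [Finset.sum_eq_zero, Finset.sum_eq_zero, add_zero]
      · rintro (⟨a', l'⟩ | ⟨a', l'⟩) _
        · simp [xD]
        · simp only [xD, TE.fst_mk, TE.snd_mk]
          split_ifs with h1 h2 <;> first | omega | simp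
      · rintro (⟨a', l'⟩ | ⟨a', l'⟩) _
        · simp [xD]
        · simp only [xD, TE.fst_mk, TE.snd_mk]
          split_ifs with h1 h2 <;> first | omega | simp

/-- the complex `X` -/
noncomputable def X [CharP K 2] : MD S.ΓX (Ez K B) where
  e := S.xe
  D := S.xD
  ee := by
    rintro (⟨a, l⟩ | ⟨a, l⟩) <;> ext <;> simp [xe, MD.ee]
  eD := by
    rintro (⟨a, l⟩ | ⟨a, l⟩) (⟨a', l'⟩ | ⟨a', l'⟩) <;> ext <;>
      simp [xe, xD, MD.ee, MD.eD, S.eα]
  De := by
    rintro (⟨a, l⟩ | ⟨a, l⟩) (⟨a', l'⟩ | ⟨a', l'⟩) <;> ext <;>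
      simp [xe, xD, MD.De, S.αe]
    all_goals
      split_ifs with h
      · rw [← h.1, MD.ee]
      · rfl
  sq := S.x_sq

/-- `z`-weights -/
def xw : (GP × ℕ) ⊕ (GQ × ℕ) → ℤ
  | .inl (_, l) => l
  | .inr (_, l) => -(l + 1)

/-- the generators coming from `P` -/
def xp : (GP × ℕ) ⊕ (GQ × ℕ) → Prop
  | .inl _ => True
  | .inr _ => False

theorem xD_np (g g' : (GP × ℕ) ⊕ (GQ × ℕ)) (h : ¬ xp g) (h' : xp g') : S.xD g g' = 0 := by
  rcases g with g | g
  · exact (h trivial).elim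
  · rcases g' with g' | g'
    · rfl
    · exact h'.elim

open Classical in
/-- the `B`-linear homotopy -/
noncomputable def xs (q : K) : (GP × ℕ) ⊕ (GQ × ℕ) → (GP × ℕ) ⊕ (GQ × ℕ) → Ez K B →ₗ[K] Ez K B
  | .inl (a, l), .inl (a', l') =>
      if a = a' ∧ l' = l + 1 then
        (1 + q ^ (-(l + 1 : ℤ))) • (TE.inlL _ ∘ₗ LinearMap.mulRight K (S.P.e a) ∘ₗ TE.sndL _)
      else 0
  | .inr (a, l), .inr (a', l') =>
      if a = a' ∧ l = l' + 1 then
        (1 + q ^ (l : ℤ)) • (TE.inlL _ ∘ₗ LinearMap.mulRight K (S.Q.e a) ∘ₗ TE.sndL _)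
      else 0
  | _, _ => 0

end SD

end Crest.Agent.R186
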