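import Crest.Agent.R186.XExactAux

/-!
Exactness of the chains and cochains of `X`.
-/

set_option autoImplicit false

namespace Crest.Agent.R186

open MulOpposite

theorem MD.single_mem_Co {K : Type*} [Field K] {G : Type*} [DecidableEq G] {Γ : GD G}
    {R : Type*} [Ring R]
    [Algebra K R] {Y : Type*} [AddCommGroup Y] [Module K Y] (M : MD Γ R)
    (ρ : R →ₐ[K] Module.End K Y) {g₀ : G} {n : ℤ} (hn : Γ.deg g₀ = n) {y : Y}
    (hy : ρ (M.e g₀) y = y) : (Pi.single g₀ y : G → Y) ∈ (M.cx (LM.top ρ)).Co n := by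
  intro g
  by_cases h : g = g₀
  · subst h
    simp [hn, hy]
  · simp [h]

theorem MD.δ_single {K : Type*} [Field K] {G : Type*} [DecidableEq G] {Γ : GD G}
    {R : Type*} [Ring R]
    [Algebra K R] {Y : Type*} [AddCommGroup Y] [Module K Y] (M : MD Γ R)
    (ρ : R →ₐ[K] Module.End K Y) (g₀ g : G) (y : Y) :
    (M.cx (LM.top ρ)).δ (Pi.single g₀ y) g =
      if Γ.deg g₀ = Γ.deg g - 1 then ρ (M.D g g₀) y else 0 := by
  rw [MD.δ_apply]
  split_ifs with hd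
  · rw [Finset.sum_eq_single g₀]
    · simp
    · intro g' _ h
      simp [h]
    · intro h
      exact (h ((Γ.mem_fib _ _).2 hd)).elim
  · refine Finset.sum_eq_zero fun g' hg' => ?_
    have h : g' ≠ g₀ := fun h => hd (h ▸ (Γ.mem_fib _ _).1 hg')
    simp [h]

namespace SD

variable {K B : Type*} [Field K] [CharP K 2] [Ring B] [Algebra K B] {GP GQ : Type} {ΓP : GD GP}
  {ΓQ : GD GQ} (S : SD K B ΓP ΓQ)

theorem det_P_ch (T : MD S.ΓX.op (Ez K B)ᵐᵒᵖ) (he : ∀ g, T.e (.inl g) = op (S.X.e (.inl g)))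
    (hD : ∀ g g', T.D (.inl g) (.inl g') = op (S.X.D (.inl g') (.inl g)))
    (h0 : ∀ g, ¬ xp g → T.e g = 0) :
    (T.cx (LM.top (rrep K (Ez K B)))).Det (-1)
      (((S.χ.toLinearMap ∘ₗ TE.fstL _) ∘ₗ LinearMap.proj (S.p₀, 0)) ∘ₗ
        MD.pull Sum.inl fun _ => LinearMap.id) :=
  S.XP_ch.of_iso (MD.iso_block T S.XP.op _ Sum.inl_injective (k := 1)
    (fun g => by simp only [GD.op_deg, S.degXP]; ring) he hD fun g hg => h0 g (not_xp_of hg))
    (by ring)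

theorem x_A1 (h : ∀ g g' g'', xp g → ¬ xp g' → xp g'' → S.X.D g g' * S.X.D g' g'' = 0)
    (n : ℤ) (c : (GP × ℕ) ⊕ (GQ × ℕ) → Ez K B)
    (hc : c ∈ ((S.X.trunc xp h).op.cx (Bi.reg K (Ez K B)).R).Z n)
    (h0 : S.χ (c (.inl (S.p₀, 0))).fst = 0) :
    c ∈ ((S.X.trunc xp h).op.cx (Bi.reg K (Ez K B)).R).Bd n :=
  (S.det_P_ch (S.X.trunc xp h).op
    (fun g => congrArg op (MD.trunc_e_pos _ _ _ trivial))
    (fun g g' => congrArg op (MD.trunc_D_pos _ _ _ trivial trivial))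
    (fun g hg => by rw [MD.op_e, MD.trunc_e_neg _ _ _ hg, op_zero])).exact n c hc h0

theorem X_D_np {g g' : (GP × ℕ) ⊕ (GQ × ℕ)} (h : ¬ xp g) (h' : xp g') : S.X.D g g' = 0 :=
  S.xD_np g g' h h'

open Classical in
theorem x_A2 : (S.X.op.cx (Bi.reg K (Ez K B)).R).Acyc := by
  have h : ∀ g g', ¬ ¬ xp g → ¬ xp g' → S.X.op.D g g' = 0 := fun g g' h1 h2 => by
    rw [MD.op_D, S.X_D_np h2 (not_not.1 h1), op_zero]
  have h₁ : ∀ g g' g'', ¬ xp g → ¬ ¬ xp g' → ¬ xp g'' → S.X.op.D g g' * S.X.op.D g' g'' = 0 :=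
    fun g g' g'' _ h2 h3 => by rw [h g' g'' h2 h3, mul_zero]
  have h₂ : ∀ g g' g'', xp g → ¬ xp g' → xp g'' → S.X.op.D g g' * S.X.op.D g' g'' = 0 :=
    fun g g' g'' h1 h2 _ => by rw [h g g' (not_not.2 h1) h2, zero_mul]
  have T := S.X.op.trunc_ses (LM.top (rrep K (Ez K B))) (fun g => ¬ xp g) xp
    (fun _ => not_not.symm) h h₁ h₂
  have dP := S.det_P_ch (S.X.op.trunc xp h₂) (fun g => MD.trunc_e_pos _ _ _ trivial)
    (fun g g' => MD.trunc_D_pos _ _ _ trivial trivial) (fun g hg => MD.trunc_e_neg _ _ _ hg)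
  have dQ := S.XQ_ch.of_iso (n₀ := -1 + 1)
    (MD.iso_block (S.X.op.trunc (fun g => ¬ xp g) h₁) S.XQ.op _ Sum.inr_injective (k := S.d)
      (fun g => by simp only [GD.op_deg, S.degXQ]; ring)
      (fun g => MD.trunc_e_pos _ _ _ id) (fun g g' => MD.trunc_D_pos _ _ _ id id)
      fun g hg => MD.trunc_e_neg _ _ _ (not_not.2 (xp_of hg))) (by ring)
  refine T.acyc_of_conn (n := -1) (dP.rel _) (dQ.rel _) dP.van dQ.van
    (b := Pi.single (.inl (S.p₀, 0)) (TE.mk _ (S.P.e S.p₀) 0))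
    (MD.single_mem_Co S.X.op _ (by simp [S.deg_p₀]) (S.X.ee (.inl (S.p₀, 0))))
    (a := Pi.single (.inr (S.q₁, 0)) (TE.mk _ 0 (S.α S.p₀ S.q₁)))
    (MD.single_mem_Co (S.X.op.trunc (fun g => ¬ xp g) h₁) _ (by simp [S.deg_q₁]) ?_) ?_ (dQ.not_mem_Bd ?_)
  · rw [MD.trunc_e_pos _ _ _ id]
    ext
    · simp [X, xe]
    · simp [X, xe, S.αe]
  · funext g
    rw [MD.δ_single, MD.op_D, rrep_apply, unop_op,
      show TE.mk _ (S.P.e S.p₀) 0 = S.X.e (.inl (S.p₀, 0)) from rfl, S.X.eD]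
    rcases g with ⟨a, l⟩ | ⟨a, l⟩
    · have := S.degP a
      rw [if_neg (by simp [S.deg_p₀]; omega)]
      simp
    · by_cases hg : a = S.q₁ ∧ l = 0
      · obtain ⟨rfl, rfl⟩ := hg
        rw [if_pos (by simp [S.deg_p₀, S.deg_q₁])]
        simp [X, xD]
      · have e : S.X.D (.inl (S.p₀, 0)) (.inr (a, l)) = 0 := by
          by_cases hl : l = 0
          · have ha : a ≠ S.q₁ := fun ha => hg ⟨ha, hl⟩
            ext <;> simp [X, xD, S.α_p₀ a ha]
          · ext <;> simp [X, xD, hl]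
        rw [e, ite_self, LinearMap.id_apply, Pi.single_eq_of_ne (by simpa using hg)]
  · have := S.Qch.π_z
    simp only [LinearMap.comp_apply, LinearMap.proj_apply, Pi.single_eq_same] at this
    simp [this]

open Classical in
theorem x_A3 : (S.X.cx (Bi.reg K (Ez K B)).L).Acyc := by
  have h₁ : ∀ g g' g'', xp g → ¬ xp g' → xp g'' → S.X.D g g' * S.X.D g' g'' = 0 :=
    fun g g' g'' _ h2 h3 => by rw [S.X_D_np h2 h3, mul_zero]
  have h₂ : ∀ g g' g'', ¬ xp g → ¬ ¬ xp g' → ¬ xp g'' → S.X.D g g' * S.X.D g' g'' = 0 :=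
    fun g g' g'' h1 h2 _ => by rw [S.X_D_np h1 (not_not.1 h2), zero_mul]
  have T := S.X.trunc_ses (LM.top (lrep K (Ez K B))) xp (fun g => ¬ xp g)
    (fun _ => Iff.rfl) (fun _ _ => S.X_D_np) h₁ h₂
  have dP := S.XP_co.of_iso (n₀ := S.d + 1)
    (MD.iso_block (S.X.trunc xp h₁) S.XP _ Sum.inl_injective S.degXP
      (fun g => MD.trunc_e_pos _ _ _ trivial) (fun g g' => MD.trunc_D_pos _ _ _ trivial trivial)
      fun g hg => MD.trunc_e_neg _ _ _ (not_xp_of hg)) (by ring)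
  have dQ := S.XQ_co.of_iso (n₀ := S.d)
    (MD.iso_block (S.X.trunc (fun g => ¬ xp g) h₂) S.XQ _ Sum.inr_injective S.degXQ
      (fun g => MD.trunc_e_pos _ _ _ id) (fun g g' => MD.trunc_D_pos _ _ _ id id)
      fun g hg => MD.trunc_e_neg _ _ _ (not_not.2 (xp_of hg))) (by ring)
  refine T.acyc_of_conn (n := S.d) (dQ.rel _) (dP.rel _) dQ.van dP.van
    (b := Pi.single (.inr (S.q₀, 0)) (TE.mk _ (S.Q.e S.q₀) 0))
    (MD.single_mem_Co S.X _ (by simp [S.deg_q₀]) (S.X.ee (.inr (S.q₀, 0))))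
    (a := Pi.single (.inl (S.p₁, 0)) (TE.mk _ 0 (S.α S.p₁ S.q₀)))
    (MD.single_mem_Co (S.X.trunc xp h₁) _ (by simp [S.deg_p₁]) ?_) ?_ (dP.not_mem_Bd ?_)
  · rw [MD.trunc_e_pos _ _ _ trivial]
    ext
    · simp [X, xe]
    · simp [X, xe, S.eα]
  · funext g
    rw [MD.δ_single, lrep_apply,
      show TE.mk _ (S.Q.e S.q₀) 0 = S.X.e (.inr (S.q₀, 0)) from rfl, S.X.De]
    rcases g with ⟨a, l⟩ | ⟨a, l⟩
    · by_cases hg : a = S.p₁ ∧ l = 0
      · obtain ⟨rfl, rfl⟩ := hg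
        rw [if_pos (by simp [S.deg_p₁, S.deg_q₀])]
        simp [X, xD]
      · have e : S.X.D (.inl (a, l)) (.inr (S.q₀, 0)) = 0 := by
          by_cases hl : l = 0
          · have ha : a ≠ S.p₁ := fun ha => hg ⟨ha, hl⟩
            ext <;> simp [X, xD, S.α_q₀ a ha]
          · ext <;> simp [X, xD, hl]
        rw [e, ite_self, LinearMap.id_apply, Pi.single_eq_of_ne (by simpa using hg)]
    · have := S.degQ a
      rw [if_neg (by simp [S.deg_q₀]; omega)]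
      simp
  · have := S.Pco.π_z
    simp only [LinearMap.comp_apply, LinearMap.proj_apply, Pi.single_eq_same] at this
    simp [this]

end SD

end Crest.Agent.R186
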