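import Crest.Agent.R186.XDef
import Crest.Agent.R186.Kunneth

/-!
Auxiliary constructions for the exactness of `X`: the periodic complexes over `K[z]/(z²)` and
the two diagonal blocks of `X`.
-/

set_option autoImplicit false

namespace Crest.Agent.R186

open scoped TensorProduct
open MulOpposite

section det

variable {K V V' : Type*} [Field K] [AddCommGroup V] [Module K V] [AddCommGroup V'] [Module K V']

/-- The cohomology of `A` is detected by the functional `π`, which lives in degree `n₀`. -/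
structure DG.Det (A : DG K V) (n₀ : ℤ) (π : V →ₗ[K] K) : Prop where
  π_deg : ∀ n c, c ∈ A.Co n → n ≠ n₀ → π c = 0
  π_δ : ∀ n c, c ∈ A.Co n → π (A.δ c) = 0
  exact : ∀ n c, c ∈ A.Z n → π c = 0 → c ∈ A.Bd n

theorem DG.One.det {A : DG K V} {n₀ : ℤ} {z : V} {π : V →ₗ[K] K} (h : A.One n₀ z π) :
    A.Det n₀ π := ⟨h.π_deg, h.π_δ, h.exact⟩

theorem DG.Det.of_iso {A : DG K V} {B : DG K V'} {f : V →ₗ[K] V'} {k n₀ n₁ : ℤ}
    {π : V' →ₗ[K] K} (hf : DG.Iso A B f k) (h : B.Det n₁ π) (hn : n₀ + k = n₁) :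
    A.Det n₀ (π ∘ₗ f) where
  π_deg n c hc hne := h.π_deg _ _ (hf.mem n c hc) (by omega)
  π_δ n c hc := by
    rw [LinearMap.comp_apply, hf.comm n c hc]
    exact h.π_δ _ _ (hf.mem n c hc)
  exact n c hc h0 := (hf.mem_Bd_iff hc.1).1 (h.exact _ _ (hf.toMap.mem_Z hc) h0)

theorem DG.Det.rel {A : DG K V} {n₀ : ℤ} {π : V →ₗ[K] K} (h : A.Det n₀ π) (n : ℤ) : A.Rel n 1 :=
  DG.rel_one_of_functional π (h.exact n)

theorem DG.Det.van {A : DG K V} {n₀ : ℤ} {π : V →ₗ[K] K} (h : A.Det n₀ π) (n : ℤ) (hn : n ≠ n₀) :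
    A.Van n := fun c hc => h.exact n c hc (h.π_deg n c hc.1 hn)

theorem DG.Det.not_mem_Bd {A : DG K V} {n₀ : ℤ} {π : V →ₗ[K] K} (h : A.Det n₀ π) {n : ℤ} {c : V}
    (hc : π c ≠ 0) : c ∉ A.Bd n := by
  rintro ⟨b, hb, rfl⟩
  exact hc (h.π_δ _ _ hb)

end det

section pull

variable {K : Type*} [Field K] {G G₀ : Type*} {Γ : GD G} {Γ₀ : GD G₀}
variable {R : Type*} [Ring R] [Algebra K R] {Y : Type*} [AddCommGroup Y] [Module K Y]

/-- restriction of matrix data to a block of generators -/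
def MD.block (M : MD Γ R) (Γ₀ : GD G₀) {ι : G₀ → G} (hι : Function.Injective ι) {k : ℤ}
    (hdeg : ∀ g, Γ₀.deg g = Γ.deg (ι g) + k)
    (h0 : ∀ g g' g'', g' ∉ Set.range ι → M.D (ι g) g' * M.D g' (ι g'') = 0) : MD Γ₀ R where
  e g := M.e (ι g)
  D g g' := M.D (ι g) (ι g')
  ee _ := M.ee _
  eD _ _ := M.eD _ _
  De _ _ := M.De _ _
  sq g g'' h := by
    have h1 := M.sq (ι g) (ι g'') (by rw [hdeg, hdeg] at h; omega)
    rw [MD.sum_fib_pull hι hdeg _ _ (fun g' _ hg' => h0 g g' g'' hg')] at h1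
    rwa [show Γ₀.deg g - 1 = Γ.deg (ι g) - 1 + k by rw [hdeg]; ring]

theorem MD.iso_block (T : MD Γ R) (M₀ : MD Γ₀ R) (ρ : R →ₐ[K] Module.End K Y) {ι : G₀ → G}
    (hι : Function.Injective ι) {k : ℤ} (hdeg : ∀ g, Γ₀.deg g = Γ.deg (ι g) + k)
    (he : ∀ g, T.e (ι g) = M₀.e g) (hD : ∀ g g', T.D (ι g) (ι g') = M₀.D g g')
    (h0 : ∀ g', g' ∉ Set.range ι → T.e g' = 0) :
    DG.Iso (T.cx (LM.top ρ)) (M₀.cx (LM.top ρ)) (MD.pull ι fun _ => LinearMap.id) k :=
  MD.cx_iso hι hdeg (fun _ _ _ _ => trivial) (fun g y _ h => by rw [← he]; exact h)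
    (fun g g' y _ _ _ => by rw [hD]; rfl)
    (fun g' y hg _ h => by rw [← h, h0 g' hg]; simp)
    (fun _ _ _ _ h => h) (fun g y _ h => ⟨y, trivial, by rw [he]; exact h, rfl⟩)

end pull

section periodic

variable {K : Type*} [Field K]

/-- the element `z` -/
def zz (K : Type*) [Field K] : Ez K K := TE.mk _ 0 1

@[simp] theorem fst_zz : (zz K).fst = 0 := rfl
@[simp] theorem snd_zz : (zz K).snd = 1 := rfl

theorem zz_mul_zz : zz K * zz K = 0 := by ext <;> simp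

theorem zz_mul (y : Ez K K) : zz K * y = TE.mk _ 0 y.fst := by ext <;> simp

theorem mul_zz (y : Ez K K) : y * zz K = TE.mk _ 0 y.fst := by ext <;> simp

/-- the grading `l ↦ l` -/
noncomputable def Γp : GD ℕ := GD.ofFinite (fun l => (l : ℤ)) fun n =>
  (Set.finite_singleton n.toNat).subset fun l hl => by
    simp only [Set.mem_ofPred_eq] at hl
    simp only [Set.mem_singleton_iff]
    omega

/-- the grading `l ↦ -l` -/
noncomputable def Γm : GD ℕ := GD.ofFinite (fun l => -(l : ℤ)) fun n =>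
  (Set.finite_singleton (-n).toNat).subset fun l hl => by
    simp only [Set.mem_ofPred_eq] at hl
    simp only [Set.mem_singleton_iff]
    omega

@[simp] theorem Γp_deg (l : ℕ) : Γp.deg l = l := rfl
@[simp] theorem Γm_deg (l : ℕ) : Γm.deg l = -l := rfl

/-- the periodic resolution -/
noncomputable def PD (K : Type*) [Field K] : MD Γp (Ez K K) where
  e _ := 1
  D l l' := if l = l' + 1 then zz K else 0
  ee _ := one_mul _
  eD _ _ := one_mul _
  De _ _ := mul_one _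
  sq g g'' _ := Finset.sum_eq_zero fun g' _ => by split_ifs <;> simp [zz_mul_zz]

/-- the periodic coresolution -/
noncomputable def QD (K : Type*) [Field K] : MD Γm (Ez K K) where
  e _ := 1
  D l l' := if l + 1 = l' then zz K else 0
  ee _ := one_mul _
  eD _ _ := one_mul _
  De _ _ := mul_one _
  sq g g'' _ := Finset.sum_eq_zero fun g' _ => by split_ifs <;> simp [zz_mul_zz]

@[simp] theorem PD_e (l : ℕ) : (PD K).e l = 1 := rfl
@[simp] theorem QD_e (l : ℕ) : (QD K).e l = 1 := rfl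
theorem PD_D (l l' : ℕ) : (PD K).D l l' = if l = l' + 1 then zz K else 0 := rfl
theorem QD_D (l l' : ℕ) : (QD K).D l l' = if l + 1 = l' then zz K else 0 := rfl

theorem one_down_ez (A : DG K (ℕ → Ez K K)) (hC : ∀ n c, c ∈ A.Co n ↔ ∀ l : ℕ, -(l : ℤ) ≠ n → c l = 0)
    (hδ : ∀ c l, A.δ c l = TE.mk _ 0 (c (l + 1)).fst) {z : ℕ → Ez K K} (hz0 : z 0 = 1)
    (hz : ∀ l, l ≠ 0 → z l = 0) : A.One 0 z (TE.fstL _ ∘ₗ LinearMap.proj 0) where
  z_mem := ⟨(hC _ _).2 fun l hl => hz l (by omega), by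
    show A.δ z = 0
    funext l
    rw [hδ, hz _ (Nat.succ_ne_zero l)]
    rfl⟩
  π_z := by simp [hz0]
  π_deg n c hc hn := by simp [(hC _ _).1 hc 0 (by simpa using hn.symm)]
  π_δ n c _ := by simp [hδ]
  exact n c hc h0 := by
    have h1 : ∀ l, (c l).fst = 0 := by
      rintro (_ | l)
      · exact h0
      · have := congrArg TE.snd (congrFun (show A.δ c = 0 from hc.2) l)
        rwa [hδ] at this
    refine ⟨fun l => Nat.casesOn l 0 fun l => TE.mk _ (c l).snd 0, (hC _ _).2 ?_, ?_⟩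
    · rintro (_ | l) hl
      · rfl
      · show TE.mk _ (c l).snd 0 = 0
        rw [(hC _ _).1 hc.1 l (by push_cast at hl; omega)]
        rfl
    · funext l
      rw [hδ]
      ext
      · exact (h1 l).symm
      · rfl

theorem one_up_ez (A : DG K (ℕ → Ez K K)) (hC : ∀ n c, c ∈ A.Co n ↔ ∀ l : ℕ, (l : ℤ) ≠ n → c l = 0)
    (hδ0 : ∀ c, A.δ c 0 = 0) (hδ : ∀ c l, A.δ c (l + 1) = TE.mk _ 0 (c l).fst)
    {z : ℕ → Ez K K} (hz0 : z 0 = zz K)
    (hz : ∀ l, l ≠ 0 → z l = 0) : A.One 0 z (TE.sndL _ ∘ₗ LinearMap.proj 0) where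
  z_mem := ⟨(hC _ _).2 fun l hl => hz l (by omega), by
    show A.δ z = 0
    funext l
    rcases l with _ | _ | l
    · exact hδ0 _
    · rw [hδ, hz0]; rfl
    · rw [hδ, hz _ (Nat.succ_ne_zero l)]; rfl⟩
  π_z := by simp [hz0]
  π_deg n c hc hn := by simp [(hC _ _).1 hc 0 (by simpa using hn.symm)]
  π_δ n c _ := by simp [hδ0]
  exact n c hc h0 := by
    have h1 : ∀ l, (c l).fst = 0 := by
      intro l
      have := congrArg TE.snd (congrFun (show A.δ c = 0 from hc.2) (l + 1))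
      rwa [hδ] at this
    refine ⟨fun l => TE.mk _ (c (l + 1)).snd 0, (hC _ _).2 ?_, ?_⟩
    · intro l hl
      show TE.mk _ (c (l + 1)).snd 0 = 0
      rw [(hC _ _).1 hc.1 (l + 1) (by push_cast; omega)]
      rfl
    · funext l
      rcases l with _ | l
      · rw [hδ0]
        ext
        · exact (h1 0).symm
        · exact h0.symm
      · rw [hδ]
        ext
        · exact (h1 _).symm
        · rfl

theorem mem_Co_of_e_one {G R Y : Type*} {Γ : GD G} [Ring R] [Algebra K R] [AddCommGroup Y]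
    [Module K Y] (M : MD Γ R) (he : ∀ g, M.e g = 1) (ρ : R →ₐ[K] Module.End K Y) (n : ℤ)
    (c : G → Y) : c ∈ (M.cx (LM.top ρ)).Co n ↔ ∀ g, Γ.deg g ≠ n → c g = 0 := by
  rw [MD.mem_Co]
  simp [he]

theorem PD_ch {z : ℕ → Ez K K} (hz0 : z 0 = 1) (hz : ∀ l, l ≠ 0 → z l = 0) :
    ((PD K).op.cx (LM.top (rrep K (Ez K K)))).One 0 z (TE.fstL _ ∘ₗ LinearMap.proj 0) := by
  refine one_down_ez _ (fun n c => mem_Co_of_e_one _ (fun _ => rfl) _ n c) (fun c l => ?_) hz0 hz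
  rw [MD.op_δ_apply, Finset.sum_eq_single (l + 1)]
  · simp [PD_D, mul_zz]
  · intro l' _ h
    simp [PD_D, h]
  · intro h
    exact (h (by simp)).elim

theorem QD_co {z : ℕ → Ez K K} (hz0 : z 0 = 1) (hz : ∀ l, l ≠ 0 → z l = 0) :
    ((QD K).cx (LM.top (lrep K (Ez K K)))).One 0 z (TE.fstL _ ∘ₗ LinearMap.proj 0) := by
  refine one_down_ez _ (fun n c => mem_Co_of_e_one _ (fun _ => rfl) _ n c) (fun c l => ?_) hz0 hz
  rw [MD.δ_apply, Finset.sum_eq_single (l + 1)]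
  · simp [QD_D, zz_mul]
  · intro l' _ h
    simp [QD_D, h.symm]
  · intro h
    exact (h (by simp; ring)).elim

theorem PD_co {z : ℕ → Ez K K} (hz0 : z 0 = zz K) (hz : ∀ l, l ≠ 0 → z l = 0) :
    ((PD K).cx (LM.top (lrep K (Ez K K)))).One 0 z (TE.sndL _ ∘ₗ LinearMap.proj 0) := by
  refine one_up_ez _ (fun n c => mem_Co_of_e_one _ (fun _ => rfl) _ n c) (fun c => ?_)
    (fun c l => ?_) hz0 hz
  · rw [MD.δ_apply]
    exact Finset.sum_eq_zero fun l' _ => by simp [PD_D]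
  · rw [MD.δ_apply, Finset.sum_eq_single l]
    · simp [PD_D, zz_mul]
    · intro l' _ h
      simp [PD_D, h.symm]
    · intro h
      exact (h (by simp)).elim

theorem QD_ch {z : ℕ → Ez K K} (hz0 : z 0 = zz K) (hz : ∀ l, l ≠ 0 → z l = 0) :
    ((QD K).op.cx (LM.top (rrep K (Ez K K)))).One 0 z (TE.sndL _ ∘ₗ LinearMap.proj 0) := by
  refine one_up_ez _ (fun n c => ?_) (fun c => ?_) (fun c l => ?_) hz0 hz
  · rw [mem_Co_of_e_one _ (fun _ => rfl)]
    simp
  · rw [MD.op_δ_apply]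
    exact Finset.sum_eq_zero fun l' _ => by simp [QD_D]
  · rw [MD.op_δ_apply, Finset.sum_eq_single l]
    · simp [QD_D, mul_zz]
    · intro l' _ h
      simp [QD_D, h]
    · intro h
      exact (h (by simp)).elim

/-- `B ⊗ K[z]/(z²) = B[z]/(z²)` -/
noncomputable def ezT (K B : Type*) [Field K] [Ring B] [Algebra K B] :
    B ⊗[K] Ez K K ≃ₗ[K] Ez K B :=
  (TensorProduct.congr (LinearEquiv.refl K B) (TE.equiv _)).trans
    ((TensorProduct.prodRight K K B K K).trans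
      (((TensorProduct.rid K B).prodCongr (TensorProduct.rid K B)).trans (TE.equiv _).symm))

@[simp] theorem fst_ezT {B : Type*} [Ring B] [Algebra K B] (b : B) (y : Ez K K) :
    (ezT K B (b ⊗ₜ y)).fst = y.fst • b := rfl

@[simp] theorem snd_ezT {B : Type*} [Ring B] [Algebra K B] (b : B) (y : Ez K K) :
    (ezT K B (b ⊗ₜ y)).snd = y.snd • b := rfl

end periodic

namespace SD

variable {K B : Type*} [Field K] [CharP K 2] [Ring B] [Algebra K B] {GP GQ : Type} {ΓP : GD GP}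
  {ΓQ : GD GQ} (S : SD K B ΓP ΓQ)

/-- the grading of the first block -/
noncomputable def ΓXP : GD (GP × ℕ) := GD.ofFinite (fun g => ΓP.deg g.1 + g.2) fun n =>
  ((S.xdeg_finite (n + 1)).preimage Sum.inl_injective.injOn).subset fun g hg => by
    obtain ⟨a, l⟩ := g
    simp only [Set.mem_ofPred_eq, Set.mem_preimage, xdeg_inl] at hg ⊢
    omega

/-- the grading of the second block -/
noncomputable def ΓXQ : GD (GQ × ℕ) := GD.ofFinite (fun g => ΓQ.deg g.1 - g.2) fun n =>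
  ((S.xdeg_finite (n + S.d)).preimage Sum.inr_injective.injOn).subset fun g hg => by
    obtain ⟨a, l⟩ := g
    simp only [Set.mem_ofPred_eq, Set.mem_preimage, xdeg_inr] at hg ⊢
    omega

omit [CharP K 2] in
@[simp] theorem ΓXP_deg (a : GP) (l : ℕ) : S.ΓXP.deg (a, l) = ΓP.deg a + l := rfl

omit [CharP K 2] in
@[simp] theorem ΓXQ_deg (a : GQ) (l : ℕ) : S.ΓXQ.deg (a, l) = ΓQ.deg a - l := rfl

omit [CharP K 2] in
theorem degXP (g : GP × ℕ) : S.ΓXP.deg g = S.ΓX.deg (.inl g) + (-1) := by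
  obtain ⟨a, l⟩ := g
  simp

omit [CharP K 2] in
theorem degXQ (g : GQ × ℕ) : S.ΓXQ.deg g = S.ΓX.deg (.inr g) + (-S.d) := by
  obtain ⟨a, l⟩ := g
  simp

theorem not_xp_of {g : (GP × ℕ) ⊕ (GQ × ℕ)} (h : g ∉ Set.range Sum.inl) : ¬ xp g := by
  rcases g with g | g
  · exact (h ⟨g, rfl⟩).elim
  · exact id

theorem xp_of {g : (GP × ℕ) ⊕ (GQ × ℕ)} (h : g ∉ Set.range Sum.inr) : xp g := by
  rcases g with g | g
  · trivial
  · exact (h ⟨g, rfl⟩).elim

/-- the first block -/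
noncomputable def XP : MD S.ΓXP (Ez K B) :=
  S.X.block S.ΓXP Sum.inl_injective S.degXP fun _ g' g'' h => by
    rw [show S.X.D g' (.inl g'') = 0 from S.xD_np _ _ (not_xp_of h) trivial, mul_zero]

/-- the second block -/
noncomputable def XQ : MD S.ΓXQ (Ez K B) :=
  S.X.block S.ΓXQ Sum.inr_injective S.degXQ fun g g' _ h => by
    rw [show S.X.D (.inr g) g' = 0 from S.xD_np _ _ id (xp_of h), zero_mul]

theorem XP_e (a : GP) (l : ℕ) : S.XP.e (a, l) = TE.mk _ (S.P.e a) 0 := rfl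
theorem XQ_e (a : GQ) (l : ℕ) : S.XQ.e (a, l) = TE.mk _ (S.Q.e a) 0 := rfl

open Classical in
theorem XP_D (a a' : GP) (l l' : ℕ) : S.XP.D (a, l) (a', l') =
    TE.mk _ (if l = l' then S.P.D a a' else 0) (if a = a' ∧ l = l' + 1 then S.P.e a else 0) := rfl

open Classical in
theorem XQ_D (a a' : GQ) (l l' : ℕ) : S.XQ.D (a, l) (a', l') =
    TE.mk _ (if l = l' then S.Q.D a a' else 0) (if a = a' ∧ l + 1 = l' then S.Q.e a else 0) := rfl

theorem XP_ch : (S.XP.op.cx (LM.top (rrep K (Ez K B)))).Det 0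
    ((S.χ.toLinearMap ∘ₗ TE.fstL _) ∘ₗ LinearMap.proj (S.p₀, 0)) := by
  have := one_tensor S.P.op (rrep K B) (PD K).op (rrep K (Ez K K)) S.XP.op (rrep K (Ez K B))
    (ezT K B) (fun a l => by simp; ring) (fun a l y₁ y₂ => by ext <;> simp [XP_e])
    (fun a l a' l' y₁ y₂ _ => ?_) (a₁ := S.p₀) (a₂ := 0) (n₁ := 0) (n₂ := 0) (z₂ := 1)
    (by simp [S.deg_p₀]) (by simp) S.Pch
    (PD_ch (by simp) fun l hl => by simp [hl])
    (S.χ.toLinearMap ∘ₗ TE.fstL _) (fun y₁ y₂ => by simp [mul_comm])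
  · simpa using this.det
  · by_cases h1 : l = l'
    · subst h1
      ext <;> simp [XP_D, PD_D]
    · by_cases h2 : a = a'
      · subst h2
        by_cases h3 : l' = l + 1 <;> ext <;> simp [XP_D, PD_D, h1, Ne.symm h1, h3]
      · ext <;> simp [XP_D, h1, Ne.symm h1, h2, Ne.symm h2]

theorem XQ_ch : (S.XQ.op.cx (LM.top (rrep K (Ez K B)))).Det S.d
    ((S.πQ ∘ₗ TE.sndL _) ∘ₗ LinearMap.proj (S.q₁, 0)) := by
  have := one_tensor S.Q.op (rrep K B) (QD K).op (rrep K (Ez K K)) S.XQ.op (rrep K (Ez K B))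
    (ezT K B) (fun a l => by simp; ring) (fun a l y₁ y₂ => by ext <;> simp [XQ_e])
    (fun a l a' l' y₁ y₂ _ => ?_) (a₁ := S.q₁) (a₂ := 0) (n₁ := S.d) (n₂ := 0) (z₂ := zz K)
    (by simp [S.deg_q₁]) (by simp) S.Qch
    (QD_ch (by simp) fun l hl => by simp [hl])
    (S.πQ ∘ₗ TE.sndL _) (fun y₁ y₂ => by simp [mul_comm])
  · simpa using this.det
  · by_cases h1 : l = l' <;> by_cases h2 : a = a' <;> by_cases h3 : l' + 1 = l <;>
      ext <;> simp_all [XQ_D, QD_D, eq_comm]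

theorem XP_co : (S.XP.cx (LM.top (lrep K (Ez K B)))).Det S.d
    ((S.πP ∘ₗ TE.sndL _) ∘ₗ LinearMap.proj (S.p₁, 0)) := by
  have := one_tensor S.P (lrep K B) (PD K) (lrep K (Ez K K)) S.XP (lrep K (Ez K B))
    (ezT K B) (fun a l => by simp) (fun a l y₁ y₂ => by ext <;> simp [XP_e])
    (fun a l a' l' y₁ y₂ _ => ?_) (a₁ := S.p₁) (a₂ := 0) (n₁ := S.d) (n₂ := 0) (z₂ := zz K)
    (by simp [S.deg_p₁]) (by simp) S.Pco
    (PD_co (by simp) fun l hl => by simp [hl])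
    (S.πP ∘ₗ TE.sndL _) (fun y₁ y₂ => by simp [mul_comm])
  · simpa using this.det
  · by_cases h1 : l = l' <;> by_cases h2 : a = a' <;> by_cases h3 : l = l' + 1 <;>
      ext <;> simp_all [XP_D, PD_D]

theorem XQ_co : (S.XQ.cx (LM.top (lrep K (Ez K B)))).Det 0
    ((S.χ.toLinearMap ∘ₗ TE.fstL _) ∘ₗ LinearMap.proj (S.q₀, 0)) := by
  have := one_tensor S.Q (lrep K B) (QD K) (lrep K (Ez K K)) S.XQ (lrep K (Ez K B))
    (ezT K B) (fun a l => by simp; ring) (fun a l y₁ y₂ => by ext <;> simp [XQ_e])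
    (fun a l a' l' y₁ y₂ _ => ?_) (a₁ := S.q₀) (a₂ := 0) (n₁ := 0) (n₂ := 0) (z₂ := 1)
    (by simp [S.deg_q₀]) (by simp) S.Qco
    (QD_co (by simp) fun l hl => by simp [hl])
    (S.χ.toLinearMap ∘ₗ TE.fstL _) (fun y₁ y₂ => by simp [mul_comm])
  · simpa using this.det
  · by_cases h1 : l = l' <;> by_cases h2 : a = a' <;> by_cases h3 : l + 1 = l' <;>
      ext <;> simp_all [XQ_D, QD_D]

end SD

end Crest.Agent.R186
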